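import Vale.Agent.P287Z.N.Defs

/-!
The statements of the steps when the discriminant curve has nodes.
-/

namespace Vale.Agent.P287Z.N

open MvPolynomial Module Filter Matrix Vale.Agent.P287 Vale.Agent.P287.Theta Vale.Agent.P287Z.L

/-- the facts on the fibration that do not need the discriminant curve -/
structure Ctx0 (C : Cx) : Prop where
  symm : C.G.IsSymm
  det0 : C.G.det ≠ 0
  det_eq : C.G.det = ev C.M.det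
  hf : Hg 6 C.M.det
  degM : ∀ i j, Hg (1 + wz i + wz j) (C.M i j)
  alg : Alg C.G
  snd : Snd C.G
  tab : Tab C.G 1 e4 wz 1

/-- the facts on the fibration used in the steps on lattices over the order -/
structure Ctx (C : Cx) : Prop extends Ctx0 C where
  nsq : ¬ IsSquare C.G.det
  div : ∀ x : C.B, x ≠ 0 → IsUnit x
  nodal : Nodal C.M.det
  nd : ∀ p, Nd C.M.det p → ∃ ν : ND C, ν.p = p

def stCTX : Prop := ∀ C : Cx, Ctx C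

/-! Geometry of the discriminant curve -/

def stFRM : Prop := ∀ (C : Cx) (p : Fin 3 → ℂ), Nd C.M.det p →
  ∃ T h q₀ q₁ A₁ A₂ A₃, Frm C.M p T h q₀ q₁ A₁ A₂ A₃

def stSQF : Prop := ∀ M : Matrix (Fin 4) (Fin 4) P3, Hg 6 M.det → M.det ≠ 0 →
  (∀ p, Nd M.det p → ∃ T h q₀ q₁ A₁ A₂ A₃, Frm M p T h q₀ q₁ A₁ A₂ A₃) → Nodal M.det

def stND : Prop := ∀ (C : Cx), Ctx0 C → ∀ p T h q₀ q₁ A₁ A₂ A₃, p ≠ 0 →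
  Frm C.M p T h q₀ q₁ A₁ A₂ A₃ → ∃ ν : ND C, ν.p = p

/-! Quadratic lattices -/

def stQC : Prop := ∀ (f : P3) (U : ℤ → Submodule ℂ (Fin 4 → K)) (G : Matrix (Fin 4) (Fin 4) K)
  (l : ℤ), Hg 6 f → f ≠ 0 → QL f U G l →
    (∀ k, ∀ w ∈ sharp G U l k, ev f • w ∈ U (k + 6)) ∧ c1 U = 2 * l - 3

def stSG : Prop := ∀ (f : P3) (U : ℤ → Submodule ℂ (Fin 4 → K)) (G : Matrix (Fin 4) (Fin 4) K)
  (l : ℤ), Hg 6 f → Squarefree f → QL f U G l →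
    ∃ (n : ℕ) (d : Fin n → ℤ) (φ : Matrix (Fin n) (Fin n) P3)
      (N : ℤ → Submodule ℂ (Fin 4 ⊕ Fin n → K)), SM f l d φ ∧ Lat N ∧
        (∀ k, sharp (Matrix.fromBlocks G 0 0 (-φ.map ev)) N l k = N k) ∧
          ∀ᶠ k in atTop, finrank ℂ (N k) = finrank ℂ (U k) + finrank ℂ (Fr d k)

def stQF : Prop := ∀ (f : P3) (U : ℤ → Submodule ℂ (Fin 4 → K)) (G : Matrix (Fin 4) (Fin 4) K)
  (l : ℤ), Hg 6 f → Squarefree f → QL f U G l →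
    (Odd l → Net G ∨ 4 ∣ 2 * chi U - l ^ 2 - 3 * l - 2) ∧ (Even l → ∃ φ u w, Ver f G φ u w)

def stNET : Prop := ∀ (C : Cx) (ν : K), ν ≠ 0 → Net (ν⁻¹ • C.G) → C.Rat

def stVR : Prop := ∀ (C : Cx) (ν : K) (φ : Matrix (Fin 3) (Fin 3) P3) (u : Fin 3 → Fin 4 → K)
  (w : Fin 4 → K), Nodal C.M.det → ν ≠ 0 → Ver C.M.det (ν⁻¹ • C.G) φ u w → C.Rat ∨ Good φ

/-! Lattices over the order: the steps that only use points off the nodes -/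

def stORT : Prop := ∀ (C : Cx), Ctx C → ∀ Z : Finset (Fin 3 → ℂ), (∀ z ∈ Z, Gd C.M.det z) →
  ∃ (I J : C.B) (i j : ℕ) (a b : P3), I ∈ C.O i ∧ J ∈ C.O j ∧ I * J = -(J * I) ∧
    I * I = algebraMap K C.B (ev a) ∧ J * J = algebraMap K C.B (ev b) ∧
      Hg (2 * i) a ∧ Hg (2 * j) b ∧ ∀ z ∈ Z, eval z a ≠ 0 ∧ eval z b ≠ 0

def stLF : Prop := ∀ (C : Cx), Ctx C → ∀ (X : OL C) (a : ℕ), rk X = 8 * a →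
  ∀ Z : Finset (Fin 3 → ℂ), (∀ z ∈ Z, Gd C.M.det z) →
    ∃ (v : Fin a → X.V) (h : Fin a → ℤ), ∀ p ∈ Z, OB X p v h

def stHOM : Prop := ∀ (C : Cx), Ctx C → ∀ X Y : OL C, Lat (HomF X Y) ∧
  8 * finrank K (X.V →ₗ[C.B] Y.V) = rk X * rk Y ∧ 8 ∣ rk X ∧
    (rk X = 8 → Nonempty (X.V ≃ₗ[C.B] C.B))

def stSUM : Prop := ∀ (C : Cx), Ctx C → ∀ X Y : OL C, ∃ S : OL C, IsSum S X Y ∧
  rk S = rk X + rk Y ∧ c1 S.F = c1 X.F + c1 Y.F ∧ ∀ W, eu W S = eu W X + eu W Y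

def stISO : Prop := ∀ (C : Cx), Ctx C → (∀ m, ∃ P : OL C, IsO P m) ∧ ∀ (P : OL C) (m : ℤ),
  IsO P m → rk P = 8 ∧ HP P.F 8 (-12 - 8 * m) (4 * m ^ 2 + 2) ∧ ∀ Y, eu P Y = chi (sh Y.F m)

def stO1 : Prop := ∀ (C : Cx), Ctx C → ∃ P : OL C, rk P = 8 ∧ HP P.F 8 (-8) 3

def stSYMM : Prop := ∀ (C : Cx), Ctx C → ∀ X Y : OL C, eu X Y = eu Y X

def stH1 : Prop := ∀ (C : Cx), Ctx C → ∀ (X Y : OL C) (a b : ℕ), rk X = 8 * a → rk Y = 8 * b →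
  c1 (HomF X Y) = a * c1 Y.F - b * c1 X.F - 12 * a * b

def stA1a : Prop := ∀ (C : Cx), Ctx C → ∀ (X : OL C) (φ : X.V ≃ₗ[C.B] C.B),
  ∃ (U : ℤ → Submodule ℂ (Fin 4 → K)) (ν : K) (l : ℤ), ν ≠ 0 ∧
    QL C.M.det U (ν⁻¹ • C.G) l ∧ LocU X φ U ν l

def stA1b : Prop := ∀ (C : Cx), Ctx C → ∀ (X : OL C) (φ : X.V ≃ₗ[C.B] C.B)
  (U : ℤ → Submodule ℂ (Fin 4 → K)) (ν : K) (l : ℤ), ν ≠ 0 → QL C.M.det U (ν⁻¹ • C.G) l →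
    LocU X φ U ν l → c1 X.F = 2 * l - 14 ∧ eu X X = 2 * chi U - l ^ 2 - 3 * l

def stV2 : Prop := ∀ (C : Cx), Ctx C → ∀ (ν : K) (φ : Matrix (Fin 3) (Fin 3) P3)
  (u : Fin 3 → Fin 4 → K) (w : Fin 4 → K), ν ≠ 0 → Ver C.M.det (ν⁻¹ • C.G) φ u w →
    ∃ E : OL C, rk E = 8 ∧ eu E E = 2 ∧ ∃ ζ : Fin 3 → E.V →ₗ[C.B] E.V,
      (∀ i, ζ i ∈ HomF E E 1) ∧ ∀ i j v, ζ i (ζ j v) + ζ j (ζ i v) = (-2 * ev (φ i j)) • v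

def stEV : Prop := ∀ (C : Cx), Ctx C → ∃ Φ : CM C.M → OL C, ∀ (N N' : CM C.M) (k : ℤ),
  finrank ℂ (CHom N N' k) = finrank ℂ (HomF (Φ N) (Φ N') k)

/-! The nodes -/

def stFIB2 : Prop := ∀ (ι : Type) [Fintype ι] [DecidableEq ι] (I a b : Matrix ι ι ℂ) (α : ℂ),
  α ≠ 0 → I * I = α • (1 : Matrix ι ι ℂ) → a * a = 0 → b * b = 0 → a * b + b * a = 0 →
    I * a = -(a * I) → I * b = -(b * I) →
      (∀ s t : ℂ, s ≠ 0 ∨ t ≠ 0 → ∀ w, (s • a + t • b) *ᵥ w = 0 → ∃ w', w = (s • a + t • b) *ᵥ w') →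
        ∃ (n : ℕ) (w : Fin n → ι → ℂ), Fintype.card ι = 4 * n ∧
          (∀ r, ∃ γ : ℂ, I *ᵥ w r = γ • w r) ∧
            LinearIndependent ℂ fun t : Fin 4 × Fin n => (![1, a, b, a * b] t.1) *ᵥ w t.2

def stPJ : Prop := ∀ (C : Cx), Ctx C → ∀ (Y : OL C) (p : Fin 3 → ℂ), p ≠ 0 → PJ Y p

def stTY1 : Prop := ∀ (C : Cx), Ctx C → ∀ (p : Fin 3 → ℂ) (χ : ℤ → C.B →ₗ[ℂ] ℂ), p ≠ 0 →
  Chr C.O p χ → (∀ Y : OL C, Ty χ Y (ty χ Y)) ∧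
    (∀ (X Y : OL C) (Φ : X.V →ₗ[C.B] Y.V) (Ψ : Y.V →ₗ[C.B] X.V) (d d' : ℤ) (y : K),
      Φ ∈ HomF X Y d → Ψ ∈ HomF Y X d' → U1 p (d + d') y → (∀ v, Ψ (Φ v) = y • v) →
        (∀ w, Φ (Ψ w) = y • w) → ty χ X = ty χ Y) ∧
    (∀ S X Y : OL C, IsSum S X Y → ty χ S = ty χ X + ty χ Y) ∧
    (∀ (P : OL C) (m : ℤ), IsO P m → ty χ P = 1) ∧
    (∀ (Q : OL C) (ι : Type) [Fintype ι] (m : ℤ), IsFr Q ι m → ty χ Q = Fintype.card ι) ∧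
    ∀ Y : OL C, (∀ k, ∀ v ∈ Y.F k, LocP (rad χ Y) p k v) → ty χ Y = 0

def stTY2 : Prop := ∀ (C : Cx), Ctx C → ∀ (p : Fin 3 → ℂ) (χ : ℤ → C.B →ₗ[ℂ] ℂ) (Y : OL C),
  p ≠ 0 → Chr C.O p χ → PJ Y p →
    (1 ≤ ty χ Y → ∃ (j k : ℤ) (φ : Y.V →ₗ[C.B] C.B) (v : Y.V), φ ∈ HO Y k ∧ v ∈ Y.F j ∧
      χ (j + k) (φ v) ≠ 0) ∧
    ∀ᶠ k in atTop, finrank ℂ (HO Y k) = finrank ℂ (HM χ Y k) + ty χ Y

def stTWO : Prop := ∀ (C : Cx), Ctx C → ∀ (ν : ND C) (Y : OL C) (a : ℕ), rk Y = 8 * a →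
  PJ Y ν.p → ty (ν.χ true) Y + ty (ν.χ false) Y = 2 * a

def stKER : Prop := ∀ (C : Cx), Ctx C →
  (∀ (ι : Type) [Fintype ι] (m : ℤ) (g : ι → C.B), ∃ L : OL C, IsKer L m g) ∧
  (∀ (ι : Type) [Fintype ι] (m : ℤ), ∃ Q : OL C, IsFr Q ι m) ∧
  ∀ (p : Fin 3 → ℂ) (χ : ℤ → C.B →ₗ[ℂ] ℂ), Chr C.O p χ → ∀ m₀ : ℤ,
    ∃ (m : ℤ) (n : ℕ) (g : Fin n → C.B), m₀ ≤ m ∧ GenM χ m g

def stSPH1 : Prop := ∀ (C : Cx), Ctx C → ∀ (p : Fin 3 → ℂ) (χ : ℤ → C.B →ₗ[ℂ] ℂ) (ι : Type)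
  [Fintype ι] (m : ℤ) (g : ι → C.B) (L P P₀ : OL C), p ≠ 0 → Chr C.O p χ → GenM χ m g →
    IsKer L m g → IsO P m → IsO P₀ 0 → rk L + 8 = 8 * Fintype.card ι ∧
      c1 L.F = Fintype.card ι * (-12 - 8 * m) + 12 ∧
        ∀ Y : OL C, eu Y L = Fintype.card ι * eu Y P - eu Y P₀ + ty χ Y

def stSPH2 : Prop := ∀ (C : Cx), Ctx C → ∀ (ν : ND C) (s : Bool) (l : P3) (n t : ℕ)
  (g : Fin 3 ⊕ Fin n → C.B) (L : OL C), Hg 1 l → eval ν.p l ≠ 0 →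
    g (Sum.inl 0) = ev l ^ t • (ν.I - algebraMap K C.B (ev (MvPolynomial.C (sg s) * ν.c))) →
    g (Sum.inl 1) = ev l ^ t • ν.a → g (Sum.inl 2) = ev l ^ t • ν.b →
    GenM (ν.χ s) (ν.d + t) g → IsKer L (ν.d + t) g → ty (ν.χ (!s)) L = n ∧
      ∀ (q : Fin 3 → ℂ) (χ : ℤ → C.B →ₗ[ℂ] ℂ), q ≠ 0 → Chr C.O q χ → (∀ c : ℂ, q ≠ c • ν.p) →
        ty χ L = n + 2

def stPTS : Prop := ∀ (C : Cx), Ctx C → ∀ (X X' : OL C) (π : X.V →ₗ[C.B] X'.V),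
  (∀ k, ∀ v ∈ X.F k, π v ∈ X'.F k) → (∀ g, HPrime g → ∀ k, ∀ v ∈ X'.F k,
    LocG (fun j => (X.F j).map (π.restrictScalars ℂ)) g k v) →
    (∀ p, Nd C.M.det p → ∃ (s : X'.V →ₗ[C.B] X.V) (d : ℤ) (y : K), U1 p d y ∧
      s ∈ HomF X' X d ∧ ∀ w, π (s w) = y • w) → ∃ μ : ℕ,
      (∀ᶠ k in atTop, finrank ℂ (X'.F k) =
        finrank ℂ ((X.F k).map (π.restrictScalars ℂ)) + 2 * μ) ∧
      ∀ Y : OL C, ∀ᶠ k in atTop, 4 * finrank ℂ (HomF Y X' k) =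
        4 * finrank ℂ ((HomF Y X k).map (post Y π)) + rk Y * μ

def stUNI : Prop := ∀ (C : Cx), Ctx C → ∀ (r : ℕ) (ν : Fin r → ND C), Sys C ν →
  ∀ (X : OL C) (a : ℕ), rk X = 8 * a → 2 ≤ a → (∀ i s, 1 ≤ ty ((ν i).χ s) X) →
    ∃ (m : ℤ) (v : X.V), v ∈ X.F m ∧ v ≠ 0 ∧
      (∀ (b : C.B) (k : ℤ), b • v ∈ X.F (k + m) → b ∈ C.O k) ∧
        ∀ i, ∃ (φ : X.V →ₗ[C.B] C.B) (d : ℤ) (y : K), U1 (ν i).p d y ∧ φ ∈ HO X (d - m) ∧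
          φ v = algebraMap K C.B y

def stSTEP : Prop := ∀ (C : Cx), Ctx C → ∀ (r : ℕ) (ν : Fin r → ND C), Sys C ν →
  ∀ (X : OL C) (a : ℕ), rk X = 8 * a → 2 ≤ a → (∀ i s, 1 ≤ ty ((ν i).χ s) X) →
    ∃ (X' P : OL C) (m μ : ℤ), IsO P m ∧ rk X = rk X' + 8 ∧ c1 X.F = c1 X'.F - 12 - 8 * m ∧
      (∀ Y : OL C, 4 * eu Y X = 4 * eu Y P + 4 * eu Y X' - rk Y * μ) ∧
        ∀ i s, ty ((ν i).χ s) X = ty ((ν i).χ s) X' + 1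

/-- the lattice theorem -/
def stOLM : Prop := ∀ (C : Cx) (ι : Type) [Fintype ι] (X : ι → OL C) (v w : ι → ℤ),
  4 ∣ ∑ i, ∑ j, v i * v j * eu (X i) (X j) → Odd (∑ i, ∑ j, w i * v j * eu (X i) (X j)) → C.Rat

end Vale.Agent.P287Z.N
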