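import Vale.Agent.P287Z.L.A1a
import Vale.Agent.P287Z.N.Sk

/-!
Row A1a, nodal case: the quadratic lattice attached to a lattice of rank one over the order.
-/

namespace Vale.Agent.P287Z.N

open MvPolynomial Module Filter Matrix Vale.Agent.P287 Vale.Agent.P287.Theta Vale.Agent.P287Z.L
open Vale.Agent.P287Z.L.A1a

namespace A1a

theorem no_com {M : Matrix (Fin 4) (Fin 4) P3} (hM : Squarefree M.det) {g : P3} (hg : Prime g) :
    ∃ i j, ¬ g ∣ M i j := by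
  by_contra h
  push Not at h
  choose N hN using h
  have e : M = g • Matrix.of N := by
    ext1 i j
    exact hN i j
  refine hg.not_isUnit (hM g ⟨g ^ 2 * (Matrix.of N).det, ?_⟩)
  rw [e, Matrix.det_smul, Fintype.card_fin]
  ring

theorem gram (G : Matrix (Fin 4) (Fin 4) K) (u : Fin 4 → Fin 4 → K) :
    (Matrix.of fun i j => u i ⬝ᵥ G *ᵥ u j).det = (Pi.basisFun K (Fin 4)).det u ^ 2 * G.det := by
  have e : (Matrix.of fun i j => u i ⬝ᵥ G *ᵥ u j) = Matrix.of u * (G * (Matrix.of u)ᵀ) := rfl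
  rw [e, Matrix.det_mul, Matrix.det_mul, Matrix.det_transpose, Pi.basisFun_det_apply]
  ring

/-- the determinant condition extends to the nodes -/
theorem ext (hA : stLFA) (hD : stDET) {f : P3} (hf : Nodal f) (h6 : Hg 6 f)
    {U : ℤ → Submodule ℂ (Fin 4 → K)} {G : Matrix (Fin 4) (Fin 4) K} {l : ℤ} (hU : Lat U)
    (h : ∀ p, Gd f p → ∃ (u : Fin 4 → Fin 4 → K) (h : Fin 4 → ℤ) (y : K),
      LB U p u h ∧ U1 p (2 * ∑ i, h i + 4 * l - 6) y ∧
        (Matrix.of fun i j => u i ⬝ᵥ G *ᵥ u j).det = y * ev f) (p : Fin 3 → ℂ) (hp : p ≠ 0) :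
    ∃ (u : Fin 4 → Fin 4 → K) (h : Fin 4 → ℤ) (y : K),
      LB U p u h ∧ U1 p (2 * ∑ i, h i + 4 * l - 6) y ∧
        (Matrix.of fun i j => u i ⬝ᵥ G *ᵥ u j).det = y * ev f := by
  obtain ⟨ν, hν, hd⟩ := hD _ U _ (Pi.basisFun K (Fin 4)) hU
  have h0 : ev f ≠ 0 := h6.ev_ne hf.sqf.ne_zero
  obtain ⟨k1, c, k2, k3⟩ := hf.unit_of (y := ν ^ 2 * G.det / ev f) (n := 4 * l - 6 - 2 * c1 U)
    fun q hq => by
      obtain ⟨u, e, y, a1, a2, a3⟩ := h q hq
      refine ⟨_, _, y, (((hd u e a1.mem).2 q hq.1).1 a1).pow 2, a2.cast (by push_cast; ring), ?_⟩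
      rw [gram] at a3
      field_simp
      linear_combination a3
  have k4 := hA _ U hU p hp
  rw [Module.finrank_fin_fun] at k4
  obtain ⟨u, e, a1⟩ := k4
  refine ⟨u, e, _, a1, ((u1_const p k2).mul ((((hd u e a1.mem).2 p hp).1 a1).pow 2)).cast
    (by push_cast; linear_combination -k1), ?_⟩
  rw [gram, ← k3]
  field_simp

/-- the local structure at a point -/
theorem locN (hL : stLF) {C : Cx} (hC : Ctx C) (X : OL C) (φ : X.V ≃ₗ[C.B] C.B)
    {S : Fin 4 → C.B →ₗ[K] C.B →ₗ[K] Fin 4 → K}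
    (hS : ∀ m a b, io C.G (S m a b) = ps C.G (e4 m) a b) {p : Fin 3 → ℂ}
    (hp : Gd C.M.det p) :
    ∃ (a : X.V) (h : ℤ) (u : Fin 4 → Fin 4 → K) (n : K) (d : ℤ) (y : K),
      OB X p ![a] ![h] ∧ a ∈ X.F h ∧ (∀ i, Sand C.G (φ a) (e4 i) (u i)) ∧
      (∀ m, u m = (2⁻¹ : ℂ) • S m (φ a) (φ a)) ∧ n ≠ 0 ∧
      (∀ i j, u i ⬝ᵥ C.G *ᵥ u j = n * C.G i j) ∧ U1 p d y ∧
      ∀ m i j, ∀ w ∈ X.F i, ∀ w' ∈ X.F j,
        y • S m (φ w) (φ w') ∈ Sp u (fun i => wz i + 2 * h) (d + (i + j + wz m)) := by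
  have hr : rk X = 8 * 1 := ((φ.restrictScalars K).finrank_eq).trans hC.alg.rank
  obtain ⟨v, h, hob⟩ := hL C hC X 1 hr {p} (by simpa using hp)
  obtain ⟨a, rfl⟩ : ∃ a, v = ![a] := ⟨v 0, funext fun i => by fin_cases i; rfl⟩
  obtain ⟨h, rfl⟩ : ∃ k, h = ![k] := ⟨h 0, funext fun i => by fin_cases i; rfl⟩
  have hob := hob p (Finset.mem_singleton_self p)
  have ha : a ∈ X.F h := by
    have : (1 : C.B) • a ∈ X.F (0 + h) := hob.mem (0, 0)
    rwa [one_smul, zero_add] at this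
  have ha0 : a ≠ 0 := by
    have : (1 : C.B) • a ≠ 0 := hob.li.ne_zero (0, 0)
    rwa [one_smul] at this
  obtain ⟨A', hA, hA2⟩ := isUnit_iff_exists.1 (hC.div (φ a) (by simpa using ha0))
  obtain ⟨d, y, hy, hloc⟩ := hob.loc
  have hb : ∀ k, ∀ w ∈ X.F k, ∃ b ∈ C.O (-h + (d + k)), y • φ w = b * φ a := fun k w hw => by
    refine ⟨_, sp_map hC.tab.lat.fam (LinearMap.mulRight K A' ∘ₗ (φ.restrictScalars K).toLinearMap)
      (-h) (fun s => ?_) (hloc k w hw), ?_⟩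
    · have e : φ (C.o s.1 • a) * A' = C.o s.1 := by
        rw [map_smul, smul_eq_mul, mul_assoc, hA, mul_one]
      obtain ⟨s, t⟩ := s
      fin_cases t
      change φ (C.o s • a) * A' ∈ C.O (-h + (oz s + h))
      rw [e, show -h + (oz s + h) = oz s by ring]
      exact gen_mem _ _ s
    · change _ = φ (y • w) * A' * φ a
      rw [mul_assoc, hA2, mul_one, LinearMapClass.map_smul_of_tower]
  choose u hu using fun i => hC.snd.ex (φ a) (e4 i)
  have hu' : ∀ i, io C.G (u i) = rv C.G (inc C.G (φ a)) * io C.G (e4 i) * inc C.G (φ a) := hu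
  have inj := LinearMap.ker_eq_bot.1 (io_inj hC.alg)
  obtain ⟨n, hn, c, -, hdet⟩ := hC.snd.norm (φ a)
  refine ⟨a, h, u, n, d + d, y * y, hob, ha, hu, fun m => ?_, ?_, fun i j => ?_, hy.mul hy,
    fun m i j w hw w' hw' => ?_⟩
  · have : S m (φ a) (φ a) = (2 : ℂ) • u m := inj (by
      rw [hS, ps_apply, two_smul, map_add, hu'])
    rw [this, smul_smul, inv_mul_cancel₀ two_ne_zero, one_smul]
  · rintro rfl
    have : LinearMap.mulRight K A' ∘ₗ LinearMap.mulRight K (φ a) = LinearMap.id :=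
      LinearMap.ext fun z => by
        change z * φ a * A' = z
        rw [mul_assoc, hA, mul_one]
    have := congrArg LinearMap.det this
    rw [LinearMap.det_comp, hdet, LinearMap.det_id] at this
    simp at this
  · rw [(hn _ _ _ _ (hu i) (hu j)).2, A1a.e4_dot]
  · obtain ⟨b, b1, b2⟩ := hb i w hw
    obtain ⟨b', b3, b4⟩ := hb j w' hw'
    refine mem_sp.2 ⟨S m b b', fun r => AA_cast (key hC.alg hC.tab b1 b3 (hS m b b') r) (by ring),
      inj ?_⟩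
    have e : (y * y) • S m (φ w) (φ w') = S m (b * φ a) (b' * φ a) := by
      rw [← b2, ← b4, map_smul, map_smul, LinearMap.smul_apply, smul_smul]
    rw [e, hS, ps_mul, ← hS]
    conv_rhs => rw [← A1a.sum_e4 (S m b b')]
    simp only [map_sum, map_smul, hu', Finset.mul_sum, Finset.sum_mul, mul_smul_comm,
      smul_mul_assoc]

/-- the scale is locally the norm of the local generator -/
theorem unitN {C : Cx} (hC : Ctx C) {U : ℤ → Submodule ℂ (Fin 4 → K)} {N : ℤ → Submodule ℂ K}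
    {ν : K} {l : ℤ} (hν : ν ≠ 0) (hN : ∀ k y, y ∈ hull N k ↔ y / ν ∈ AA (k + l))
    (h1 : ∀ i j, ∀ v ∈ U i, ∀ w ∈ U j, bf C.G v w ∈ N (i + j + 0))
    (h2 : ∀ (T : K →ₗ[K] K) (d : ℤ), (∀ i j, ∀ v ∈ U i, ∀ w ∈ U j,
      T (bf C.G v w) ∈ AA (d + (i + j))) → ∀ k, ∀ z ∈ N k, T z ∈ AA (d + k))
    {p : Fin 3 → ℂ} {u : Fin 4 → Fin 4 → K} {h : ℤ} {n : K} (hn : n ≠ 0)
    (hu : ∀ i j, u i ⬝ᵥ C.G *ᵥ u j = n * C.G i j) (hb : LB U p u fun i => wz i + 2 * h) :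
    U1 p (4 * h + l - 1) (n / ν) := by
  obtain ⟨d, y, hy, hloc⟩ := hb.loc
  have a1 : n / ν ∈ AA (4 * h + l - 1) := refl_aa _ _ fun g hg => by
    obtain ⟨i, j, hij⟩ := no_com hC.nodal.sqf hg.1
    refine ⟨_, _, ⟨_, hC.degM i j, rfl, hij⟩, ?_⟩
    have := (hN _ _).1 (le_hull (h1 _ _ _ (hb.mem i) _ (hb.mem j)))
    rw [bf_apply, hu, mul_comm n, mul_div_assoc] at this
    exact AA_cast this (by ring)
  have a2 : (y * y * n⁻¹) • ν ∈ AA (d + d + (1 - 4 * h) + -l) := by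
    refine hull_map refl_aa (LinearMap.lsmul K K (y * y * n⁻¹)) _
      (h2 _ _ fun i j v hv w hw => ?_) ((hN _ _).2 ?_)
    · have := bil_sp fam_aa (n⁻¹ • bf C.G) (1 - 4 * h) (fun s t => by
        rw [LinearMap.smul_apply, LinearMap.smul_apply, bf_apply, hu, smul_eq_mul,
          inv_mul_cancel_left₀ hn]
        exact AA_cast (hC.degM s t).mem (by ring)) (hloc i v hv) (hloc j w hw)
      rw [map_smul, map_smul, LinearMap.smul_apply, LinearMap.smul_apply, LinearMap.smul_apply,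
        smul_smul, smul_smul] at this
      exact AA_cast this (by ring)
    · rw [div_self hν, neg_add_cancel]
      exact AA_one
  refine U1.of_mul a1 a2 ?_
  rw [show n / ν * (y * y * n⁻¹) • ν = y * y by rw [smul_eq_mul]; field_simp]
  exact (hy.mul hy).cast (by ring)

end A1a

open A1a in
theorem a1a (hH : stHULL) (hL : stLF) (hP : stPIC) (hA : stLFA) (hD : stDET) : stA1a := by
  intro C hC X φ
  obtain ⟨S, hS⟩ := ex_sw hC.alg hC.snd
  obtain ⟨n, v, e, hv⟩ := X.lat.fg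
  obtain ⟨U0, f1, f2, f3, f4⟩ : ∃ U0 : ℤ → Submodule ℂ (Fin 4 → K), Fam U0 ∧ FG U0 ∧
      (∀ m i j, ∀ w ∈ X.F i, ∀ w' ∈ X.F j, S m (φ w) (φ w') ∈ U0 (i + j + wz m)) ∧
      ∀ (N : ℤ → Submodule ℂ (Fin 4 → K)) (y : K) (d : ℤ), Fam N → (∀ m i j, ∀ w ∈ X.F i,
        ∀ w' ∈ X.F j, y • S m (φ w) (φ w') ∈ N (d + (i + j + wz m))) →
          ∀ k, ∀ x ∈ U0 k, y • x ∈ N (d + k) := by
    refine ⟨Sp (fun s : Fin n × Fin n × Fin 4 => S s.2.2 (φ (v s.1)) (φ (v s.2.1)))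
      fun s => e s.1 + e s.2.1 + wz s.2.2, fam_sp _ _, fg_sp _ _, fun m i j w hw w' hw' => ?_,
      fun N y d hN h k x hx => sp_map hN (LinearMap.lsmul K _ y) d (fun s => ?_) hx⟩
    · rw [hv] at hw hw'
      refine bil_sp (fam_sp _ _) ((S m).compl₁₂ (φ.restrictScalars K).toLinearMap
        (φ.restrictScalars K).toLinearMap) (wz m) (fun s t => ?_) hw hw'
      exact gen_mem (fun s : Fin n × Fin n × Fin 4 => S s.2.2 (φ (v s.1)) (φ (v s.2.1)))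
        (fun s => e s.1 + e s.2.1 + wz s.2.2) (s, t, m)
    · exact h _ _ _ _ (hv _ ▸ gen_mem v e _) _ (hv _ ▸ gen_mem v e _)
  have hl : ∀ p : Fin 3 → ℂ, Gd C.M.det p → ∃ (a : X.V) (h : ℤ) (u : Fin 4 → Fin 4 → K) (n : K),
      OB X p ![a] ![h] ∧ (∀ i, Sand C.G (φ a) (e4 i) (u i)) ∧ n ≠ 0 ∧
      (∀ i j, u i ⬝ᵥ C.G *ᵥ u j = n * C.G i j) ∧ (∀ i, u i ∈ U0 (wz i + 2 * h)) ∧
      LB (hull U0) p u fun i => wz i + 2 * h := fun p hp => by
    obtain ⟨a, h, u, n, d, y, g1, g2, g3, g4, g5, g6, g7, g8⟩ := locN hL hC X φ hS hp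
    have hm : ∀ i, u i ∈ U0 (wz i + 2 * h) := fun i => by
      rw [g4, show wz i + 2 * h = h + h + wz i by ring]
      exact Submodule.smul_mem _ _ (f3 i _ _ _ g2 _ g2)
    have li := li_gram hC.det0 g5 g6
    exact ⟨a, h, u, n, g1, g3, g5, g6, hm, fun i => le_hull (hm i), li, d, y, g7,
      fun k x hx => hull_map (refl_sp li _) (LinearMap.lsmul K _ y) d
        (f4 _ y d (fam_sp _ _) g8) hx⟩
  obtain ⟨p₀, hp₀⟩ := hC.nodal.exists_gd
  obtain ⟨-, h₀, u₀, n₀, -, -, k1, k2, k3, k4⟩ := hl p₀ hp₀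
  have hU : Lat (hull U0) := hH _ U0 f2 (full_of f1 k3
    (k4.li.span_eq_top_of_card_eq_finrank' (by simp)))
  obtain ⟨m, g, e', hg⟩ := hU.fg
  obtain ⟨N, n1, n2, n3⟩ : ∃ N : ℤ → Submodule ℂ K, FG N ∧
      (∀ i j, ∀ v ∈ hull U0 i, ∀ w ∈ hull U0 j, bf C.G v w ∈ N (i + j + 0)) ∧
      ∀ (T : K →ₗ[K] K) (d : ℤ), (∀ i j, ∀ v ∈ hull U0 i, ∀ w ∈ hull U0 j,
        T (bf C.G v w) ∈ AA (d + (i + j))) → ∀ k, ∀ z ∈ N k, T z ∈ AA (d + k) := by
    refine ⟨Sp (fun s : Fin m × Fin m => bf C.G (g s.1) (g s.2)) fun s => e' s.1 + e' s.2,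
      fg_sp _ _, fun i j v hv w hw => ?_,
      fun T d h k z hz => sp_map fam_aa T d (fun s => ?_) hz⟩
    · rw [hg] at hv hw
      refine bil_sp (fam_sp _ _) _ 0 (fun s t => ?_) hv hw
      rw [add_zero]
      exact gen_mem (fun s : Fin m × Fin m => bf C.G (g s.1) (g s.2))
        (fun s => e' s.1 + e' s.2) (s, t)
    · exact h _ _ _ (hg _ ▸ gen_mem g e' _) _ (hg _ ▸ gen_mem g e' _)
  have hN : Lat (hull N) := by
    obtain ⟨i, j, hij⟩ := no_com hC.nodal.sqf (hprime_X 0).1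
    refine hH _ N n1 (full_one (n2 _ _ _ (k4.mem i) _ (k4.mem j)) ?_)
    rw [bf_apply, k2]
    exact mul_ne_zero k1 ((hC.degM i j).ev_ne fun h0 => hij (h0 ▸ dvd_zero _))
  obtain ⟨ν, l, hν, hνl⟩ := hP _ hN
  refine ⟨hull U0, ν, l, hν, ⟨hU, hC.symm.smul _, fun x hx => C.aniso x ?_, fun k w hw j x hx => ?_,
    ⟨ν⁻¹ ^ 2 * ev C.M.det, ?_⟩, A1a.ext hA hD hC.nodal hC.hf hU fun p hp => ?_⟩, fun p hp => ?_⟩
  · rw [bf_smul] at hx
    exact (mul_eq_zero.1 hx).resolve_left (inv_ne_zero hν)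
  · have := (hνl _ _).1 (le_hull (n2 _ _ _ hx _ hw))
    rw [bf_apply, bf_smul, ← div_eq_inv_mul, ← bf_apply]
    exact AA_cast this (by ring)
  · rw [Matrix.det_smul, hC.det_eq, Fintype.card_fin]
    ring
  · obtain ⟨a, h, u, n, -, -, g3, g4, -, g6⟩ := hl p hp
    refine ⟨u, _, (n / ν) ^ 4, g6, ((unitN hC hν hνl n2 n3 g3 g4 g6).pow 4).cast ?_, ?_⟩
    · simp only [Fin.sum_univ_four, wz, Matrix.cons_val]
      push_cast
      ring
    · have : (Matrix.of fun i j => u i ⬝ᵥ (ν⁻¹ • C.G) *ᵥ u j) = (n / ν) • C.G := by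
        ext1 i j
        rw [Matrix.of_apply, bf_smul, g4, Matrix.smul_apply, smul_eq_mul]
        ring
      rw [this, Matrix.det_smul, hC.det_eq, Fintype.card_fin]
  · obtain ⟨a, h, u, n, g1, g2, g3, g4, -, g6⟩ := hl p hp
    refine ⟨a, h, u, n / ν, g1, g2, g6, unitN hC hν hνl n2 n3 g3 g4 g6, fun i j => ?_⟩
    rw [g4, mul_div_cancel₀ _ hν]

end Vale.Agent.P287Z.N
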