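import Vale.Agent.P287Z.N.Sk
import Vale.Agent.P287Z.L.A1b

/-!
The first Chern class and the Euler form of a lattice of rank one over the order (nodal case).
-/

namespace Vale.Agent.P287Z.N

open MvPolynomial Module Filter Matrix Vale.Agent.P287 Vale.Agent.P287.Theta Vale.Agent.P287Z.L
open L.A1b hiding rho rho_apply rho_bij a_mem a_ne a_loc a_nrm chern hom_iff

namespace A1b

variable {C : Cx} {X : OL C} (φ : X.V ≃ₗ[C.B] C.B)

/-- the endomorphisms are the right multiplications -/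
noncomputable def rho : C.B →ₗ[K] (X.V →ₗ[C.B] X.V) where
  toFun r := φ.symm.toLinearMap ∘ₗ LinearMap.toSpanSingleton C.B C.B r ∘ₗ φ.toLinearMap
  map_add' r r' := LinearMap.ext fun v => by
    change φ.symm (φ v * (r + r')) = φ.symm (φ v * r) + φ.symm (φ v * r')
    rw [mul_add, map_add]
  map_smul' c r := LinearMap.ext fun v => by
    change φ.symm (φ v * (c • r)) = c • φ.symm (φ v * r)
    rw [mul_smul_comm]
    exact φ.symm.toLinearMap.map_smul_of_tower c _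

lemma rho_apply (r : C.B) (v : X.V) : φ (rho φ r v) = φ v * r := φ.apply_symm_apply _

lemma rho_bij : Function.Bijective (rho φ) := by
  refine ⟨fun r r' h => ?_, fun ψ => ⟨φ (ψ (φ.symm 1)), LinearMap.ext fun v => φ.injective ?_⟩⟩
  · rw [← one_mul r, ← one_mul r', ← φ.apply_symm_apply 1, ← rho_apply, ← rho_apply, h]
  · rw [rho_apply, ← smul_eq_mul, ← map_smul, ← map_smul, ← map_smul, smul_eq_mul, mul_one,
      φ.symm_apply_apply]

variable {φ} {p : Fin 3 → ℂ} {a : X.V} {h : ℤ}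

lemma a_mem (hO : OB X p ![a] ![h]) : a ∈ X.F h := by
  have k : (1 : C.B) • a ∈ X.F (0 + h) := hO.mem (0, 0)
  rwa [one_smul, zero_add] at k

lemma a_ne (hO : OB X p ![a] ![h]) : φ a ≠ 0 := fun k => hO.li.ne_zero (0, 0) (by
  change (1 : C.B) • a = 0
  rw [one_smul, φ.map_eq_zero_iff.1 k])

lemma a_loc (hC : Ctx C) (hO : OB X p ![a] ![h]) : ∃ d y, U1 p d y ∧ ∀ k, ∀ v ∈ X.F k,
    ∃ x ∈ C.O (d + k - h), x • a = y • v := by
  obtain ⟨d, y, h1, h2⟩ := hO.loc
  refine ⟨d, y, h1, fun k v hv => Sp_le (L := fun m => (C.O (m - h)).map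
    ((LinearMap.toSpanSingleton C.B X.V a).restrictScalars ℂ)) ?_ ?_ _ (h2 k v hv)⟩
  · rintro d k c hc _ ⟨x, hx, rfl⟩
    exact ⟨c • x, (add_sub_assoc d k h).symm ▸ hC.tab.lat.fam d _ c hc x hx, smul_assoc c x a⟩
  · rintro ⟨s, t⟩
    obtain rfl := Subsingleton.elim t 0
    refine ⟨C.o s, ?_, rfl⟩
    change C.o s ∈ C.O (oz s + h - h)
    rw [add_sub_cancel_right]
    exact self_mem_Sp _ _ _

lemma a_nrm (hC : Ctx C) {u : Fin 4 → Fin 4 → K} {n : K} (hs : ∀ i, Sand C.G (φ a) (e4 i) (u i))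
    (hn : ∀ i j, u i ⬝ᵥ C.G *ᵥ u j = n * C.G i j) :
    (∀ i j, φ a * wd C.G (u i) (u j) = (n • wd C.G (e4 i) (e4 j)) * φ a) ∧
      ∃ c : ℂ, c ≠ 0 ∧ LinearMap.det (LinearMap.mulRight K (φ a)) = algebraMap ℂ K c * n ^ 2 := by
  obtain ⟨m, h1, h2⟩ := hC.snd.norm (φ a)
  obtain rfl : m = n := by
    by_contra k
    refine hC.det0 ?_
    rw [show C.G = 0 from Matrix.ext fun i j => ?_, Matrix.det_zero]
    have k1 := (h1 _ _ _ _ (hs i) (hs j)).2
    rw [hn, e4, e4, Matrix.mulVec_single_one, single_one_dotProduct] at k1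
    exact (mul_eq_mul_right_iff.1 k1).resolve_left (Ne.symm k)
  refine ⟨fun i j => ?_, h2⟩
  rw [L.wd_apply, L.wd_apply, mul_smul_comm, mul_sub, (h1 _ _ _ _ (hs i) (hs j)).1,
    (h1 _ _ _ _ (hs j) (hs i)).1, ← smul_sub, ← sub_mul, smul_mul_assoc, smul_mul_assoc, smul_comm]

theorem chern (hD : stDET) (hC : Ctx C) {U : ℤ → Submodule ℂ (Fin 4 → K)} {ν : K} {l : ℤ}
    (hL : LocU X φ U ν l) : c1 X.F = 2 * l - 14 := by
  let b := basisOfLinearIndependentOfCardEqFinrank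
    ((li hC.alg).comp (Prod.fst : Fin 8 × Fin 1 → Fin 8) fun _ _ k =>
      Prod.ext k (Subsingleton.elim _ _))
    (by rw [hC.alg.rank, Fintype.card_prod, Fintype.card_fin, Fintype.card_fin])
  obtain ⟨μ, -, h1⟩ := hD X.V X.F _ (b.map (φ.symm.restrictScalars K)) X.lat
  refine sub_eq_zero.1 (hC.nodal.unit_of (y := ν ^ 2 / μ) fun p hp => ?_).1
  obtain ⟨a, h, u, y, k1, k2, -, k3, k4⟩ := hL p hp
  obtain ⟨c, k5, k6⟩ := (a_nrm hC k2 k4).2
  have k7 := ((h1 _ _ k1.mem).2 p hp.1).1 k1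
  have k8 : (b.map (φ.symm.restrictScalars K)).det
      (fun s : Fin 8 × Fin 1 => C.o s.1 • ![a] s.2) = algebraMap ℂ K c * (ν * y) ^ 2 := by
    rw [Basis.det_map, ← k6, ← mul_one (LinearMap.det _), ← b.det_self, ← Basis.det_comp]
    refine congrArg b.det (funext fun ⟨s, t⟩ => ?_)
    obtain rfl := Subsingleton.elim t 0
    rw [Function.comp_apply, Function.comp_apply, coe_basisOfLinearIndependentOfCardEqFinrank]
    exact φ.map_smul (C.o s) a
  refine ⟨_, _, _, (u1_const p k5).mul (k3.mul k3), ?_, mul_comm _ _⟩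
  rw [k8, show algebraMap ℂ K c * (ν * y) ^ 2 / μ = algebraMap ℂ K c * (y * y) * (ν ^ 2 / μ) by
    ring] at k7
  refine k7.cast ?_
  simp [Fintype.sum_prod_type, Fin.sum_univ_eight, od, wz]
  ring

theorem hom_iff (hC : Ctx C) (hH : Refl (HomF X X)) {U : ℤ → Submodule ℂ (Fin 4 → K)} {ν : K}
    {l : ℤ} (hν : ν ≠ 0) (hL : LocU X φ U ν l) (hW : Lat (hull (bil (om hC.alg) U U))) (k : ℤ)
    (t : K × (Fin 6 → K) × K) :
    t ∈ RR (hull (bil (om hC.alg) U U)) l k ↔ rho φ (Θ C.G ν t) ∈ HomF X X k := by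
  have hR : Refl (RR (hull (bil (om hC.alg) U U)) l) :=
    refl_prod refl_AA (refl_prod hW.refl refl_AA (l - 3)) (-l)
  have hF : Fam (RR (hull (bil (om hC.alg) U U)) l) :=
    fam_prod fam_AA (fam_prod hW.fam fam_AA (l - 3)) (-l)
  have hO := hC.tab.lat
  refine ⟨fun ht => hC.nodal.locP hH fun p hp => ?_, fun ht => hC.nodal.locP hR fun p hp => ?_⟩
  all_goals
    obtain ⟨a, h, u, y, k1, k2, k3, k4, k5⟩ := hL p hp
    obtain ⟨A, hA⟩ := hC.div _ (a_ne (φ := φ) k1)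
    obtain ⟨d₀, y₀, k6, k7⟩ := a_loc hC k1
    have k8 : ∀ i j, cj A (ν⁻¹ • I6 C.G (om hC.alg (u i) (u j))) = y • wd C.G (e4 i) (e4 j) :=
      fun i j => by
        rw [I6_om, map_smul, cj_eq (hA.symm ▸ (a_nrm hC k2 k5).1 i j), mul_smul, inv_smul_smul₀ hν]
    have k9 : ∀ t, cj A (Θ C.G ν t) =
        t.1 • (1 : C.B) + (cj A (ν⁻¹ • I6 C.G t.2.1) + t.2.2 • del C.G) := fun t => by
      rw [Θ_apply, map_add, map_add, map_smul, map_smul _ t.2.2,
        cj_eq ((mul_one _).trans (one_mul _).symm), cj_eq (hC.alg.cen _).symm]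
    have k10 : ∀ r, rho φ r a = cj A r • a := fun r => φ.injective (by
      rw [rho_apply, map_smul, smul_eq_mul, ← hA, cj_mul])
  · obtain ⟨d₁, y₁, m1, m2⟩ := k3.loc
    have m3 := hull_min (L := bil (om hC.alg) U U) (fun m => Submodule.span_le.2 ?_)
      (refl_comap hO.refl ((y₁ * y₁) • (cj A ∘ₗ (ν⁻¹ • I6 C.G))) (l + (d₁ + d₁))) _ ht.2.1
    · have m4 : cj A ((y₁ * y₁) • Θ C.G ν t) ∈ C.O (d₁ + d₁ + k) := by
        rw [map_smul, k9, smul_add, smul_add]
        refine add_mem (hO.fam _ _ _ (m1.mul m1).mem _ ?_) (add_mem ?_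
          (hO.fam _ _ _ (m1.mul m1).mem _ ?_))
        · exact add_zero k ▸ hO.fam _ _ _ ht.1 _ (self_mem_Sp _ _ (0 : Fin 8))
        · exact (show k + -l + (l + (d₁ + d₁)) = d₁ + d₁ + k by ring) ▸ m3
        · exact (show k + -l + (l - 3) + 3 = k by ring) ▸
            hO.fam _ _ _ ht.2.2 _ (self_mem_Sp _ _ (7 : Fin 8))
      refine ⟨_, _, k6.mul (m1.mul m1), fun j v hv => ?_⟩
      obtain ⟨x, m5, m6⟩ := k7 j v hv
      rw [mul_smul, ← map_smul (rho φ), LinearMap.smul_apply, ← LinearMap.map_smul_of_tower, ← m6,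
        map_smul, k10, smul_smul]
      exact (show d₀ + j - h + (d₁ + d₁ + k) + h = j + (d₀ + (d₁ + d₁) + k) by ring) ▸
        X.stab _ _ _ (hC.tab.mul _ _ _ m5 _ m4) a (a_mem k1)
    · rintro _ ⟨i, j, v, w, rfl, hv, hw, rfl⟩
      obtain ⟨c, m3, m4⟩ := mem_Sp.1 (m2 i v hv)
      obtain ⟨c', m5, m6⟩ := mem_Sp.1 (m2 j w hw)
      change (y₁ * y₁) • (cj A ∘ₗ (ν⁻¹ • I6 C.G)) (om hC.alg v w) ∈ C.O _
      rw [← map_smul, mul_smul, ← LinearMap.map_smul, ← LinearMap.map_smul₂, ← m4, ← m6, bil_sum,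
        map_sum]
      refine sum_mem fun i' _ => ?_
      rw [map_sum]
      refine sum_mem fun j' _ => ?_
      rw [map_smul]
      have m7 := hO.fam _ _ _ (AA_mul (m3 i') (m5 j')) _ (hO.fam _ _ _ k4.mem _ (wd_mem C.G i' j'))
      rw [← k8, show d₁ + i - (wz i' + 2 * h) + (d₁ + j - (wz j' + 2 * h)) +
        (4 * h + l - 1 + (wz i' + wz j' + 1)) = i + j + (l + (d₁ + d₁)) by ring] at m7
      exact m7
  · obtain ⟨x, m1, m2⟩ := k7 _ _ (ht h a (a_mem k1))
    have m3 : x = y₀ • cj A (Θ C.G ν t) := by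
      have m := congrArg φ m2
      rw [k10, ← smul_assoc, map_smul, map_smul, ← hA] at m
      exact A.mul_left_inj.1 m
    have m6 := Sp_le (L := fun m =>
      ((RR (hull (bil (om hC.alg) U U)) l (4 * h + l - 1 + m)).map
        ((cj A ∘ₗ Θ C.G ν).restrictScalars ℂ)).comap
          ((y • LinearMap.id (R := K)).restrictScalars ℂ)) ?_ ?_ _ m1
    · obtain ⟨t', m4, m5⟩ := m6
      refine ⟨_, _, k4.mul k6, ?_⟩
      rw [← (Θ_bij hC.alg hν).1 (cj_inj A (m5.trans (show _ = cj A (Θ C.G ν ((y * y₀) • t)) by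
        rw [map_smul, map_smul, mul_smul, ← m3]; rfl))),
        show 4 * h + l - 1 + d₀ + k = 4 * h + l - 1 + (d₀ + (h + k) - h) by ring]
      exact m4
    · rintro d m c hc z ⟨t', n1, n2⟩
      refine ⟨c • t', (add_left_comm d _ m) ▸ hF _ _ c hc t' n1, ?_⟩
      change (cj A ∘ₗ Θ C.G ν) (c • t') = y • c • z
      rw [map_smul, smul_comm y]
      exact congrArg (c • ·) n2
    · intro s
      rcases fin8 s with rfl | rfl | ⟨s, rfl⟩
      · refine ⟨(y, 0, 0), ⟨AA_cast k4.mem (add_zero _).symm, zero_mem _, zero_mem _⟩,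
          (k9 _).trans ?_⟩
        rw [map_zero, smul_zero, map_zero, zero_smul, add_zero, add_zero]
        rfl
      · refine ⟨(0, 0, y), ⟨zero_mem _, zero_mem _, AA_cast k4.mem
          (show _ = 4 * h + l - 1 + 3 + -l + (l - 3) by ring)⟩, (k9 _).trans ?_⟩
        rw [map_zero, smul_zero, map_zero, zero_smul, zero_add, zero_add]
        rfl
      · refine ⟨(0, om hC.alg (u (pa s)) (u (pb s)), 0), ⟨zero_mem _, le_hull _ _
          (Submodule.subset_span ⟨_, _, _, _, ?_, k3.mem _, k3.mem _, rfl⟩), zero_mem _⟩,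
          (k9 _).trans ?_⟩
        · rw [show od wz 1 (mid s) = _ from oz_mid s]
          ring
        · rw [zero_smul, zero_smul, zero_add, add_zero, k8, ← o_mid]
          rfl

end A1b

open N.A1b in
theorem a1b (hD : stDET) (hW : stWEDGE) (hQ : stQC) (hX : stHPX) (hH : stHOM) : stA1b := by
  intro C hC X φ U ν l hν hU hL
  refine ⟨chern hD hC hL, ?_⟩
  have h1 := hX _ U hU.lat
  rw [Module.finrank_fin_fun, (hQ _ _ _ _ hC.hf hC.nodal.sqf.ne_zero hU).2] at h1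
  obtain ⟨h2, x, h3, h4⟩ := hW _ (om hC.alg) U _ _ (Module.finrank_fin_fun K) (om_self hC.alg)
    (om_span hC.alg) hU.lat h1
  have h5 : ∀ k, finrank ℂ (HomF X X k) = finrank ℂ (AA k) +
      (finrank ℂ (hull (bil (om hC.alg) U U) (k + -l)) + finrank ℂ (AA (k + -l + (l - 3)))) := by
    intro k
    have := h2.fg.finite (k + -l)
    obtain ⟨_, k1⟩ := rk_prod (hull (bil (om hC.alg) U U) (k + -l)) (AA (k + -l + (l - 3)))
    have k2 := (rho_bij φ).comp (Θ_bij hC.alg hν)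
    rw [← k1, ← (rk_prod _ _).2]
    refine Eq.trans (congrArg (fun S : Submodule ℂ _ => finrank ℂ S) (Submodule.ext fun ψ => ?_))
      (Submodule.equivMapOfInjective ((rho φ ∘ₗ Θ C.G ν).restrictScalars ℂ) k2.1 _).finrank_eq.symm
    obtain ⟨t, rfl⟩ := k2.2 ψ
    exact (hom_iff hC (hH C hC X X).1.refl hν hL h2 k t).symm.trans
      ⟨fun m => ⟨t, m, rfl⟩, fun ⟨_, m, m'⟩ => k2.1 m' ▸ m⟩
  suffices h6 : HP (HomF X X) 8 (-12) (2 * chi U - l ^ 2 - 3 * l) from
    (Res.hp_uniq (Res.hp_c1 h6) h6).2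
  filter_upwards [(tendsto_atTop_add_const_right _ (-l) tendsto_id).eventually h3,
    eventually_ge_atTop 1] with k k1 k2
  have k3 := finrank_AA (k := k) (by omega)
  have k4 := finrank_AA (k := k + -l + (l - 3)) (by omega)
  rw [h5]
  simp only [id] at k1
  push_cast
  linear_combination k1 + k3 + k4 + h4

end Vale.Agent.P287Z.N
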