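import Vale.Agent.P287Z.N.Sk2
import Vale.Agent.P287Z.L.LfB

/-!
The two characters at a node.
-/

namespace Vale.Agent.P287Z.N

open MvPolynomial Module Filter Matrix Vale.Agent.P287 Vale.Agent.P287.Theta Vale.Agent.P287Z.L

namespace ChrA

section

variable {V : Type} [AddCommGroup V] [Module ℂ V] [Module K V] [IsScalarTower ℂ K V]
  {F : ℤ → Submodule ℂ V} {p : Fin 3 → ℂ} {ι : Type} [Fintype ι] {u : ι → V} {e : ι → ℤ}

theorem ex_loc (hF : Fam F) (h : LB F p u e) : ∃ A : LfA.Loc F p ι, A.u = u ∧ A.e = e := by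
  obtain ⟨d, y, ⟨Y, hY, rfl, Yp⟩, h3⟩ := h.loc
  have h4 : ∀ (k : ℤ) (v : V), ∃ c : ι → P3, v ∈ F k →
      (∀ s, Hg (d + k - e s) (c s)) ∧ ev Y • v = ∑ s, ev (c s) • u s := by
    intro k v
    by_cases hv : v ∈ F k
    · obtain ⟨c, hc⟩ := LfA.mem_Sp.1 (h3 k v hv)
      exact ⟨c, fun _ => hc⟩
    · exact ⟨0, fun a => absurd a hv⟩
  choose cf hcf using h4
  exact ⟨⟨u, e, d, Y, cf, hF, h, hY, Yp, fun k v hv => (hcf k v hv).1,
    fun k v hv => (hcf k v hv).2⟩, rfl, rfl⟩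

theorem ex_chi (hF : Fam F) (h : LB F p u e) (w : ι → ℂ) : ∃ χ : ℤ → V →ₗ[ℂ] ℂ,
    (∀ j k g, Hg j g → ∀ x ∈ F k, χ (j + k) (ev g • x) = eval p g * χ k x) ∧
      ∀ t, χ (e t) (u t) = w t := by
  classical
  obtain ⟨A, rfl, rfl⟩ := ex_loc hF h
  have h1 : ∀ k, ∃ χ : V →ₗ[ℂ] ℂ, ∀ x ∈ F k, χ x = w ⬝ᵥ A.φ k x := by
    intro k
    obtain ⟨χ, hχ⟩ := LinearMap.exists_extend
      (⟨⟨fun x => w ⬝ᵥ A.φ k x, fun x y => by
        rw [Submodule.coe_add, A.φ_add x.2 y.2, dotProduct_add]⟩, fun c x =>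
        (congrArg (w ⬝ᵥ ·) (A.φ_c c x.2)).trans (dotProduct_smul _ _ _)⟩ : F k →ₗ[ℂ] ℂ)
    exact ⟨χ, fun x hx => LinearMap.congr_fun hχ ⟨x, hx⟩⟩
  choose χ hχ using h1
  refine ⟨χ, fun j k g hg x hx => ?_, fun t => ?_⟩
  · rw [hχ _ _ (A.smul_mem hg hx), hχ _ _ hx, A.φ_smul hg hx, dotProduct_smul, smul_eq_mul]
  · rw [hχ _ _ (A.lb.mem t), A.φ_u, dotProduct_single, mul_one]

theorem ext_of (h : LB F p u e) {χ : ℤ → V →ₗ[ℂ] ℂ}
    (hs : ∀ j k g, Hg j g → ∀ x ∈ F k, χ (j + k) (ev g • x) = eval p g * χ k x)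
    (T : V →ₗ[K] V) {j : ℤ} (hT : ∀ k, ∀ y ∈ F k, T y ∈ F (j + k)) {c : ℂ}
    (h0 : ∀ t, χ (j + e t) (T (u t)) = c * χ (e t) (u t)) (k : ℤ) (y : V) (hy : y ∈ F k) :
    χ (j + k) (T y) = c * χ k y := by
  obtain ⟨d, y0, ⟨Y, hY, rfl, Yp⟩, h3⟩ := h.loc
  obtain ⟨cf, hc, e1⟩ := LfA.mem_Sp.1 (h3 k y hy)
  have a1 := hs d k Y hY y hy
  have a2 := hs d (j + k) Y hY (T y) (hT k y hy)
  have b1 : ∀ t, χ (d + k) (ev (cf t) • u t) = eval p (cf t) * χ (e t) (u t) := fun t => by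
    rw [← hs _ _ _ (hc t) _ (h.mem t), sub_add_cancel]
  have b2 : ∀ t, χ (d + (j + k)) (T (ev (cf t) • u t)) =
      c * (eval p (cf t) * χ (e t) (u t)) := fun t => by
    rw [map_smul, mul_left_comm, ← h0, ← hs _ _ _ (hc t) _ (hT _ _ (h.mem t)),
      show d + k - e t + (j + e t) = d + (j + k) by ring]
  rw [e1, map_sum] at a1
  rw [← map_smul, e1, map_sum, map_sum] at a2
  simp only [b1] at a1
  simp only [b2] at a2
  rw [← Finset.mul_sum, a1] at a2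
  exact mul_left_cancel₀ Yp (by rw [← a2, mul_left_comm])

end

variable {B : Type} [Ring B] [Algebra ℂ B]

/-- the character is multiplicative on the left multiples by `x` -/
def Mu (O : ℤ → Submodule ℂ B) (χ : ℤ → B →ₗ[ℂ] ℂ) (j : ℤ) (x : B) : Prop :=
  ∀ k, ∀ y ∈ O k, χ (j + k) (x * y) = χ j x * χ k y

theorem Mu.mul {O : ℤ → Submodule ℂ B} {χ : ℤ → B →ₗ[ℂ] ℂ} {j j' n : ℤ} {x x' : B}
    (hm : ∀ j k, ∀ x ∈ O j, ∀ y ∈ O k, x * y ∈ O (j + k)) (h : Mu O χ j x) (h' : Mu O χ j' x')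
    (hx : x' ∈ O j') (e : n = j + j') : Mu O χ n (x * x') := fun k y hy => by
  rw [e, mul_assoc, add_assoc, h _ _ (hm _ _ _ hx _ hy), h' _ _ hy, h _ _ hx, mul_assoc]

end ChrA

open ChrA in
theorem chr : stCHR := by
  intro B _ _ _ _ O p d I a b α A₁ A₂ A₃ γ hF hm lb hα h₁ h₂ h₃ II aa ab bb Ia Ib hγ z₁ z₂ z₃
  obtain ⟨χ, hs, hv⟩ := ex_chi hF lb ![1, γ, 0, 0, 0, 0, 0, 0]
  have m0 : (1 : B) ∈ O 0 := lb.mem 0
  have mI : I ∈ O d := lb.mem 1
  have ma : a ∈ O d := lb.mem 2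
  have mb : b ∈ O d := lb.mem 3
  have mab : a * b ∈ O (2 * d) := lb.mem 6
  have v0 : χ 0 1 = 1 := hv 0
  have vI : χ d I = γ := hv 1
  have va : χ d a = 0 := hv 2
  have vb : χ d b = 0 := hv 3
  have vIa : χ (2 * d) (I * a) = 0 := hv 4
  have vIb : χ (2 * d) (I * b) = 0 := hv 5
  have vab : χ (2 * d) (a * b) = 0 := hv 6
  have vIab : χ (3 * d) (I * (a * b)) = 0 := hv 7
  have S : ∀ {n k : ℤ} {g : P3} {x : B}, Hg (2 * d) g → x ∈ O k → n = 2 * d + k →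
      χ n (ev g • x) = eval p g * χ k x := fun hg hx e => by rw [e, hs _ _ _ hg _ hx]
  have dd : (d : ℤ) + d = 2 * d := by ring
  have h22 := h₂.add h₂
  have z22 : eval p (A₂ + A₂) = 0 := by rw [map_add, z₂, add_zero]
  have II' : ∀ z, I * (I * z) = ev α • z := fun z => by rw [← mul_assoc, II, Algebra.smul_def]
  have aa' : ∀ z, a * (a * z) = ev A₁ • z := fun z => by rw [← mul_assoc, aa, Algebra.smul_def]
  have bb' : ∀ z, b * (b * z) = ev A₃ • z := fun z => by rw [← mul_assoc, bb, Algebra.smul_def]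
  have ba' : ∀ z, b * (a * z) = ev (A₂ + A₂) • z - a * (b * z) := fun z => by
    rw [map_add, ← two_mul, Algebra.smul_def, ← ab, add_mul, mul_assoc, mul_assoc,
      add_sub_cancel_left]
  have aI : ∀ z, a * (I * z) = -(I * (a * z)) := fun z => by
    rw [← mul_assoc, ← mul_assoc, Ia, neg_mul, neg_neg]
  have bI : ∀ z, b * (I * z) = -(I * (b * z)) := fun z => by
    rw [← mul_assoc, ← mul_assoc, Ib, neg_mul, neg_neg]
  have G : ∀ x, x ∈ O d → χ (d + d) (x * I) = χ d x * γ → χ (d + d) (x * a) = 0 →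
      χ (d + d) (x * b) = 0 → χ (d + 2 * d) (x * (I * a)) = 0 → χ (d + 2 * d) (x * (I * b)) = 0 →
      χ (d + 2 * d) (x * (a * b)) = 0 → χ (d + 3 * d) (x * (I * (a * b))) = 0 → Mu O χ d x := by
    intro x hx q1 q2 q3 q4 q5 q6 q7
    refine ext_of lb hs (LinearMap.mulLeft K x) (fun k y hy => hm _ _ _ hx _ hy) fun t => ?_
    rw [hv]
    fin_cases t
    · exact (congrArg₂ (fun n y => χ n y) (add_zero _) (mul_one x)).trans (mul_one _).symm
    · exact q1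
    · exact q2.trans (mul_zero _).symm
    · exact q3.trans (mul_zero _).symm
    · exact q4.trans (mul_zero _).symm
    · exact q5.trans (mul_zero _).symm
    · exact q6.trans (mul_zero _).symm
    · exact q7.trans (mul_zero _).symm
  have MI : Mu O χ d I := by
    refine G I mI ?_ (dd ▸ vIa) (dd ▸ vIb) ?_ ?_ ?_ ?_
    · rw [II, Algebra.algebraMap_eq_smul_one, S hα m0 (by ring), v0, vI, ← hγ, mul_one, sq]
    · rw [II', S hα ma (by ring), va, mul_zero]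
    · rw [II', S hα mb (by ring), vb, mul_zero]
    · rw [show (d : ℤ) + 2 * d = 3 * d by ring, vIab]
    · rw [II', S hα mab (by ring), vab, mul_zero]
  have N : ∀ {n k : ℤ} {y : B}, y ∈ O k → χ k y = 0 → n = d + k → χ n (-(I * y)) = 0 :=
    fun hy h0 e => by rw [map_neg, e, MI _ _ hy, h0, mul_zero, neg_zero]
  have G' : ∀ x, x ∈ O d → χ d x = 0 → (∀ z, x * (I * z) = -(I * (x * z))) →
      χ (d + d) (x * a) = 0 → χ (d + d) (x * b) = 0 → χ (d + 2 * d) (x * (a * b)) = 0 →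
      Mu O χ d x := by
    intro x hx q0 q1 q2 q3 q4
    refine G x hx ?_ q2 q3 ?_ ?_ q4 ?_
    · have := q1 1
      rw [mul_one, mul_one] at this
      rw [this, N hx q0 rfl, q0, zero_mul]
    · rw [q1, N (hm _ _ _ hx _ ma) q2 (by ring)]
    · rw [q1, N (hm _ _ _ hx _ mb) q3 (by ring)]
    · rw [q1, N (hm _ _ _ hx _ mab) q4 (by ring)]
  have Ma : Mu O χ d a := by
    refine G' a ma va aI ?_ (dd ▸ vab) ?_
    · rw [aa, Algebra.algebraMap_eq_smul_one, S h₁ m0 (by ring), z₁, zero_mul]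
    · rw [aa', S h₁ mb (by ring), z₁, zero_mul]
  have Mb : Mu O χ d b := by
    refine G' b mb vb bI ?_ ?_ ?_
    · have := ba' 1
      rw [mul_one, mul_one] at this
      rw [this, map_sub, S h22 m0 (by ring), z22, zero_mul, dd, vab, sub_zero]
    · rw [bb, Algebra.algebraMap_eq_smul_one, S h₃ m0 (by ring), z₃, zero_mul]
    · rw [ba', map_sub, S h22 mb (by ring), z22, zero_mul, ← dd, Ma _ _ (hm _ _ _ mb _ mb), va,
        zero_mul, sub_zero]
  have Mab : Mu O χ (2 * d) (a * b) := Mu.mul hm Ma Mb mb dd.symm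
  refine ⟨χ, ⟨v0, fun j k x hx y hy => ?_, hs⟩, vI, va, vb⟩
  rw [add_comm, mul_comm (χ j x)]
  refine ext_of lb hs (LinearMap.mulRight K y)
    (fun j x hx => add_comm j k ▸ hm _ _ _ hx _ hy) (fun t => ?_) j x hx
  rw [add_comm, mul_comm (χ k y)]
  refine (?_ : Mu O χ _ _) k y hy
  fin_cases t
  · intro k y _
    change χ (0 + k) (1 * y) = χ 0 1 * χ k y
    rw [zero_add, one_mul, v0, one_mul]
  · exact MI
  · exact Ma
  · exact Mb
  · exact Mu.mul hm MI Ma ma dd.symm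
  · exact Mu.mul hm MI Mb mb dd.symm
  · exact Mab
  · exact Mu.mul hm MI Mab mab (show (3 * d : ℤ) = d + 2 * d by ring)

end Vale.Agent.P287Z.N
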