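import Vale.Agent.P287Z.N.Sk
import Vale.Agent.P287Z.L.Ctx

/-!
The facts on the fibration when the discriminant curve has nodes.
-/

namespace Vale.Agent.P287Z.N

open MvPolynomial Module Matrix Vale.Agent.P287 Vale.Agent.P287.Theta Vale.Agent.P287Z.L

lemma sqf_mul_sq_ne {R : Type*} [CommRing R] [IsDomain R] [WfDvdMonoid R] {f r b c : R}
    (hf : Prime f) (hr : ¬ f ∣ r) (hb : b ≠ 0) : f * r * b ^ 2 ≠ c ^ 2 := by
  intro h
  have hr0 : r ≠ 0 := fun h => hr (h ▸ dvd_zero f)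
  have hc : c ≠ 0 := by
    rintro rfl
    exact mul_ne_zero (mul_ne_zero hf.ne_zero hr0) (pow_ne_zero 2 hb) (by rw [h]; ring)
  obtain ⟨n, b', hb', rfl⟩ := WfDvdMonoid.max_power_factor hb hf.irreducible
  obtain ⟨m, c', hc', rfl⟩ := WfDvdMonoid.max_power_factor hc hf.irreducible
  rcases Nat.lt_or_ge n m with h1 | h1
  · obtain ⟨t, rfl⟩ := Nat.exists_eq_add_of_lt h1
    have h2 : f ^ (2 * n + 1) * (r * b' ^ 2) =
        f ^ (2 * n + 1) * (f * (f ^ (2 * t) * c' ^ 2)) := by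
      linear_combination h
    rcases hf.dvd_or_dvd ⟨_, mul_left_cancel₀ (pow_ne_zero _ hf.ne_zero) h2⟩ with h3 | h3
    · exact hr h3
    · exact hb' (hf.dvd_of_dvd_pow h3)
  · obtain ⟨t, rfl⟩ := Nat.exists_eq_add_of_le h1
    have h2 : f ^ (2 * m) * c' ^ 2 = f ^ (2 * m) * (f * (r * f ^ (2 * t) * b' ^ 2)) := by
      linear_combination -h
    exact hc' (hf.dvd_of_dvd_pow (n := 2) ⟨_, mul_left_cancel₀ (pow_ne_zero _ hf.ne_zero) h2⟩)

lemma not_isSquare_sqf {f : P3} (hf : Hg 6 f) (hp : Squarefree f) : ¬ IsSquare (ev f) := by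
  rintro ⟨x, hx⟩
  have hu : ¬ IsUnit f := fun h => by
    have := h.map (eval (0 : Fin 3 → ℂ))
    rw [hf.eval_zero (by decide)] at this
    exact not_isUnit_zero this
  obtain ⟨g, hg, r, rfl⟩ := WfDvdMonoid.exists_irreducible_factor hu hp.ne_zero
  have hr : ¬ g ∣ r := fun h => hg.not_isUnit (hp g (mul_dvd_mul_left g h))
  obtain ⟨d, y, y0, ⟨b, hb, rfl⟩, ⟨a, ha, hab⟩⟩ := exists_frac x
  change ev a = ev b * x at hab
  have hb0 : b ≠ 0 := fun h => y0 (by rw [h]; exact map_zero _)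
  refine sqf_mul_sq_ne (c := a * X 0 ^ 3) hg.prime hr hb0 ?_
  refine Hg.inj (hf.mul (Hg.pow hb 2)) (((Hg.mul ha ((hg_X 0).pow 3)).pow 2).cast (by
    push_cast; ring)) ?_
  rw [map_mul ev (g * r), map_pow, map_pow, map_mul ev a, map_pow, ev_X, tvec_zero, hx, hab]
  ring

lemma ctx0 (hA : stALG) (hS : stSND) (hT : stTAB) (C : Cx) : Ctx0 C := by
  have hs : C.G.IsSymm := C.symm.map _
  have he : C.G.det = ev C.M.det := (AlgHom.map_det ev C.M).symm
  have hf := hg_det_of C.deg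
  have h0 : C.G.det ≠ 0 := fun h => by
    obtain ⟨v, hv, hv'⟩ := Matrix.exists_mulVec_eq_zero_iff.2 h
    exact hv (C.aniso v (by rw [hv', dotProduct_zero]))
  have ha := hA _ hs h0
  refine ⟨hs, h0, he, hf, degM_of C.deg, ha, hS _ hs h0 ha, ?_⟩
  refine hT _ 1 e4 wz 1 1 hs h0 ha one_ne_zero one_ne_zero ?_ ?_ fun i j => ?_
  · rw [of_e4, Matrix.det_one, map_one, one_pow, one_mul]
  · rw [sum_wz]; norm_num
  · rw [inv_one, one_mul, e4_dot]
    exact AA_cast (degM_of C.deg i j).mem (by ring)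

theorem ctx (hA : stALG) (hS : stSND) (hD : stDIV) (hT : stTAB) (hF : stFRM) (hQ : stSQF)
    (hN : stND) : stCTX := by
  intro C
  have h := ctx0 hA hS hT C
  have h0 : C.M.det ≠ 0 := fun e => h.det0 (by rw [h.det_eq, e, map_zero])
  have hq := hQ C.M h.hf h0 (hF C)
  have hn : ¬ IsSquare C.G.det := h.det_eq ▸ not_isSquare_sqf h.hf hq.sqf
  refine ⟨h, hn, fun x hx => (hD _ h.symm C.aniso x hx).resolve_right hn, hq, fun p hp => ?_⟩
  obtain ⟨T, n, q₀, q₁, A₁, A₂, A₃, hT⟩ := hF C p hp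
  exact hN C h p T n q₀ q₁ A₁ A₂ A₃ hp.1 hT

end Vale.Agent.P287Z.N
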