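import Vale.Agent.P287Z.N.Sk
import Vale.Agent.P287Z.L.Ev

/-!
The even part of a graded Clifford module is a lattice over the even Clifford order.
-/

namespace Vale.Agent.P287Z.N

open MvPolynomial Module Filter Matrix Vale.Agent.P287 Vale.Agent.P287.Theta Vale.Agent.P287Z.L
open Vale.Agent.P287Z.L.EvH (Par prj sec prj_sec odd_of even_of sq_of blk_comm blk_inj blk_ext
  fin_eq hg2_odd hg2_inj A2_two A2_odd GM gm_prj gm_sec gm_of_mv)

namespace EvN

variable {C : Cx}

/-- the action of the vectors -/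
noncomputable def EE (N : CM C.M) : (Fin 4 → K) →ₗ[K] Matrix (Fin N.r) (Fin N.r) K :=
  Fintype.linearCombination K fun i => (N.e i).map ev

/-- the even generators -/
abbrev Pe (N : CM C.M) : Type := {a // Even (N.g a)}

/-- the projection to the even part -/
noncomputable abbrev pr (N : CM C.M) : Matrix (Pe N) (Fin N.r) K := prj K fun a => Even (N.g a)

/-- the inclusion of the even part -/
noncomputable abbrev sc (N : CM C.M) : Matrix (Fin N.r) (Pe N) K := sec K fun a => Even (N.g a)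

lemma EE_e4 (N : CM C.M) (i : Fin 4) : EE N (e4 i) = (N.e i).map ev := by
  simp [EE, e4]

lemma gm_e (N : CM C.M) (i : Fin 4) : GM N.g N.g (1 + 2 * wz i) (EE N (e4 i)) := fun a b => by
  rw [EE_e4]
  exact ⟨_, N.deg i a b, rfl⟩

lemma cl_e (N : CM C.M) (i j : Fin 4) : (N.e i).map ev * (N.e j).map ev +
    (N.e j).map ev * (N.e i).map ev = (2 * C.G i j) • (1 : Matrix (Fin N.r) (Fin N.r) K) := by
  have h := congrArg (AlgHom.mapMatrix ev) (N.cl i j)
  rw [map_add, map_mul, map_mul] at h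
  refine h.trans ?_
  ext a b
  simp only [AlgHom.mapMatrix_apply, map_apply, Matrix.smul_apply, one_apply, smul_eq_mul, mul_ite,
    mul_one, mul_zero, apply_ite ev, map_mul, map_ofNat, map_zero]

lemma par (N : CM C.M) : Par (qf4 C.G) (EE N) (pr N) (sc N) where
  sq := sq_of two_ne_zero _ _ (cl_e N)
  ps := prj_sec _
  odd u := odd_of _ fun a b h => by
    rw [EE, Fintype.linearCombination_apply, Matrix.sum_apply]
    refine Finset.sum_eq_zero fun i _ => ?_
    rw [Matrix.smul_apply, map_apply, hg2_odd (N.deg i a b), map_zero, smul_zero]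
    simp only [Int.even_iff] at h ⊢
    omega

/-- the action of the even Clifford algebra -/
noncomputable def rho (N : CM C.M) : C.B →ₐ[K] Matrix (Pe N) (Pe N) K :=
  CliffordAlgebra.even.lift (qf4 C.G) (par N).hom

lemma rho_mm (N : CM C.M) (u v : Fin 4 → K) :
    rho N (mm C.G u v) = pr N * (EE N u * (EE N v * sc N)) :=
  CliffordAlgebra.even.lift_ι _ _ _ _

/-- the even part -/
def VV (N : CM C.M) : Type := Pe N → K

noncomputable instance (N : CM C.M) : AddCommGroup (VV N) :=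
  inferInstanceAs (AddCommGroup (Pe N → K))

noncomputable instance (N : CM C.M) : Module K (VV N) := inferInstanceAs (Module K (Pe N → K))

noncomputable instance (N : CM C.M) : Module ℂ (VV N) := inferInstanceAs (Module ℂ (Pe N → K))

instance (N : CM C.M) : IsScalarTower ℂ K (VV N) := inferInstanceAs (IsScalarTower ℂ K (Pe N → K))

instance (N : CM C.M) : FiniteDimensional K (VV N) :=
  inferInstanceAs (FiniteDimensional K (Pe N → K))

noncomputable instance (N : CM C.M) : Module C.B (VV N) where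
  smul b v := (rho N b *ᵥ v : Pe N → K)
  one_smul v := (congrArg (· *ᵥ v) (map_one (rho N))).trans (one_mulVec _)
  mul_smul a b v := (congrArg (· *ᵥ v) (map_mul (rho N) a b)).trans (mulVec_mulVec _ _ _).symm
  smul_zero _ := mulVec_zero _
  smul_add _ _ _ := mulVec_add _ _ _
  add_smul a b v := (congrArg (· *ᵥ v) (map_add (rho N) a b)).trans (add_mulVec _ _ _)
  zero_smul v := (congrArg (· *ᵥ v) (map_zero (rho N))).trans (zero_mulVec _)

lemma vv_smul (N : CM C.M) (b : C.B) (v : VV N) : b • v = (rho N b *ᵥ v : Pe N → K) := rfl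

instance (N : CM C.M) : IsScalarTower K C.B (VV N) :=
  ⟨fun c b v => (congrArg (· *ᵥ v) (map_smul (rho N) c b)).trans (smul_mulVec _ _ _)⟩

instance (N : CM C.M) : IsScalarTower ℂ C.B (VV N) :=
  ⟨fun c b v => by rw [← algebraMap_smul K c b, smul_assoc, algebraMap_smul]⟩

lemma gm_mm (N : CM C.M) (i j : Fin 4) : GM (fun a : Pe N => N.g a.1) (fun a : Pe N => N.g a.1)
    (2 * (wz i + wz j + 1)) (rho N (mm C.G (e4 i) (e4 j))) := by
  rw [rho_mm]
  exact ((gm_prj _).mul ((gm_e N i).mul ((gm_e N j).mul (gm_sec _)))).cast (by ring)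

/-- the elements which preserve the free family -/
noncomputable def St (N : CM C.M) (j : ℤ) : Submodule ℂ C.B where
  carrier := {b | ∀ k, ∀ v ∈ Fr (fun a : Pe N => N.g a.1 / 2) k,
    rho N b *ᵥ v ∈ Fr (fun a : Pe N => N.g a.1 / 2) (j + k)}
  add_mem' := fun ha hb k v hv => by
    rw [map_add, add_mulVec]
    exact Submodule.add_mem _ (ha k v hv) (hb k v hv)
  zero_mem' := fun k v _ => by
    rw [map_zero, zero_mulVec]
    exact Submodule.zero_mem _
  smul_mem' := fun c b hb k v hv => by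
    rw [← algebraMap_smul K c b, map_smul, smul_mulVec, algebraMap_smul]
    exact Submodule.smul_mem _ _ (hb k v hv)

lemma le_St (hC : Ctx C) (N : CM C.M) (j : ℤ) : C.O j ≤ St N j := by
  refine hC.tab.ind (St N) (fun d k a ha b hb l v hv => ?_) (fun k v hv => ?_)
    (fun i j k x hx l v hv => ?_) j
  · rw [map_smul, smul_mulVec, add_assoc]
    exact (EvH.lat_Fr _).fam _ _ a ha _ (hb l v hv)
  · rwa [map_one, one_mulVec, zero_add]
  · rw [inv_one, one_smul, map_mul, ← mulVec_mulVec]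
    have h := (gm_mm N i j).mv (fun a => a.2) (fun a => a.2) (hx l v hv)
    rwa [show k + l + (wz i + wz j + 1) = wz i + wz j + 1 + k + l by ring] at h

/-- the lattice of a graded Clifford module -/
noncomputable def Ph (hC : Ctx C) (N : CM C.M) : OL C where
  V := VV N
  t₁ := (inferInstance : IsScalarTower ℂ K (VV N))
  t₂ := (inferInstance : IsScalarTower K C.B (VV N))
  t₃ := (inferInstance : IsScalarTower ℂ C.B (VV N))
  F := Fr fun a : Pe N => N.g a.1 / 2
  lat := EvH.lat_Fr _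
  stab j k _ hb v hv := le_St hC N j hb k v hv

variable (N N' : CM C.M)

/-- the even block -/
noncomputable def blk : Matrix (Fin N'.r) (Fin N.r) P3 →ₗ[ℂ] Matrix (Pe N') (Pe N) K where
  toFun φ := pr N' * (φ.map ev * sc N)
  map_add' φ ψ := by
    rw [Matrix.map_add _ (map_add ev), Matrix.add_mul, Matrix.mul_add]
  map_smul' c φ := by
    rw [Matrix.map_smul _ c (map_smul ev c), Matrix.smul_mul, Matrix.mul_smul, RingHom.id_apply]

/-- the underlying linear map -/
noncomputable def lk (ψ : VV N →ₗ[C.B] VV N') : (Pe N → K) →ₗ[K] (Pe N' → K) :=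
  ψ.restrictScalars K

/-- the matrix of a homomorphism -/
noncomputable def mtx : (VV N →ₗ[C.B] VV N') →ₗ[ℂ] Matrix (Pe N') (Pe N) K where
  toFun ψ := LinearMap.toMatrix' (lk N N' ψ)
  map_add' φ ψ := by
    ext a b
    rfl
  map_smul' c φ := by
    ext a b
    rfl

variable {N N'}

lemma mtx_mv (ψ : VV N →ₗ[C.B] VV N') (v : Pe N → K) : mtx N N' ψ *ᵥ v = ψ v :=
  LinearMap.toMatrix'_mulVec (lk N N' ψ) v

lemma q0 (C : Cx) : qf4 C.G (e4 0) ≠ 0 := fun h => by
  have h1 := congrFun (C.aniso (e4 0) ((toLinearMap₂'_apply' _ _ _).symm.trans h)) 0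
  simp [e4] at h1

variable {k : ℤ} {φ : Matrix (Fin N'.r) (Fin N.r) P3}

lemma ch_gm (h : φ ∈ CHom N N' k) : GM N'.g N.g (2 * k) (φ.map ev) := fun a b => ⟨_, h.1 a b, rfl⟩

lemma ch_comm (h : φ ∈ CHom N N' k) (u : Fin 4 → K) : φ.map ev * EE N u = EE N' u * φ.map ev := by
  simp only [EE, Fintype.linearCombination_apply, Matrix.mul_sum, Matrix.sum_mul, Matrix.mul_smul,
    Matrix.smul_mul]
  refine Finset.sum_congr rfl fun i _ => ?_
  rw [← Matrix.map_mul, ← Matrix.map_mul, h.2 i]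

lemma ch_even (h : φ ∈ CHom N N' k) : φ.map ev * (sc N * pr N) = sc N' * pr N' * φ.map ev :=
  even_of _ _ fun a b hab => A2_odd (ch_gm h a b) (by
    simp only [Int.even_iff] at hab ⊢
    omega)

lemma ch_to (hC : Ctx C) (h : φ ∈ CHom N N' k) :
    ∃ ψ ∈ HomF (Ph hC N) (Ph hC N') k, mtx N N' ψ = blk N N' φ := by
  have h1 : ∀ b, blk N N' φ * rho N b = rho N' b * blk N N' φ := fun b => by
    let S : Submodule K C.B :=
      { carrier := {b | blk N N' φ * rho N b = rho N' b * blk N N' φ}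
        add_mem' := fun {a b} ha hb => by
          simp only [Set.mem_ofPred_eq, map_add, Matrix.mul_add, Matrix.add_mul] at ha hb ⊢
          rw [ha, hb]
        zero_mem' := by simp
        smul_mem' := fun c b hb => by
          simp only [Set.mem_ofPred_eq, map_smul, Matrix.mul_smul, Matrix.smul_mul] at hb ⊢
          rw [hb] }
    have h2 : S = ⊤ := hC.alg.ind S (by simp [S]) fun u v x hx => by
      have h3 : blk N N' φ * rho N (mm C.G u v) = rho N' (mm C.G u v) * blk N N' φ := by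
        rw [rho_mm, rho_mm]
        exact blk_comm (par N') (ch_comm h) (ch_even h) u v
      have h4 : blk N N' φ * rho N x = rho N' x * blk N N' φ := hx
      show blk N N' φ * rho N (_ * x) = rho N' (_ * x) * blk N N' φ
      rw [map_mul, map_mul, ← Matrix.mul_assoc, h3, Matrix.mul_assoc, h4, Matrix.mul_assoc]
    exact (h2 ▸ Submodule.mem_top : b ∈ S)
  let ψ : VV N →ₗ[C.B] VV N' :=
    { toFun := fun v => (blk N N' φ *ᵥ v : Pe N' → K)
      map_add' := fun _ _ => mulVec_add _ _ _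
      map_smul' := fun b v => (mulVec_mulVec _ _ _).trans
        ((congrArg (· *ᵥ v) (h1 b)).trans (mulVec_mulVec _ _ _).symm) }
  refine ⟨ψ, fun j v hv => ?_, ext_iff_mulVec.2 fun v => mtx_mv ψ v⟩
  have h2 : GM (fun a : Pe N' => N'.g a.1) (fun a : Pe N => N.g a.1) (2 * k) (blk N N' φ) :=
    ((gm_prj _).mul ((ch_gm h).mul (gm_sec _))).cast (by ring)
  exact h2.mv (fun a => a.2) (fun a => a.2) hv

lemma ex_ndvd (hC : Ctx C) {g : P3} (hg : Prime g) : ∃ i j, ¬ g ∣ C.M i j := by
  by_contra h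
  push Not at h
  choose T hT using h
  have h1 : C.M = g • Matrix.of T := by
    ext1 i j
    exact hT i j
  have h2 : g * g ∣ C.M.det := by
    rw [h1, det_smul, Fintype.card_fin]
    exact ⟨g ^ 2 * (Matrix.of T).det, by ring⟩
  exact hg.not_isUnit (hC.nodal.sqf g h2)

lemma gm_refl (hC : Ctx C) {Y : Matrix (Fin N'.r) (Fin N.r) K}
    (h : ∀ i j, GM N'.g N.g (2 * (1 + wz i + wz j) + 2 * k) ((2 * C.G i j) • Y)) :
    GM N'.g N.g (2 * k) Y := fun a b => by
  by_cases he : Even (N.g b + 2 * k - N'.g a)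
  · obtain ⟨n, hn⟩ := he
    refine (A2_two (k := n) (by omega)).2 (Noe.ra fun g hg => ?_)
    obtain ⟨i, j, hij⟩ := ex_ndvd hC hg.1
    refine ⟨1 + wz i + wz j, C.G i j, ⟨_, hC.degM i j, rfl, hij⟩, ?_⟩
    have h1 := (AA _).smul_mem (2⁻¹ : ℂ) ((A2_two (k := 1 + wz i + wz j + n) (by omega)).1 (h i j a b))
    rwa [Matrix.smul_apply, smul_eq_mul, mul_assoc, two_mul, ← two_smul ℂ, smul_smul,
      inv_mul_cancel₀ two_ne_zero, one_smul] at h1
  · have h1 := A2_odd (h 0 0 a b) (by
      simp only [Int.even_iff] at he ⊢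
      omega)
    have h2 : C.G 0 0 ≠ 0 := fun h0 => q0 C (by
      simpa [e4, toQuadraticForm', toLinearMap₂'_apply'] using h0)
    rw [Matrix.smul_apply, smul_eq_mul] at h1
    rw [(mul_eq_zero.1 h1).resolve_left (mul_ne_zero two_ne_zero h2)]
    exact Submodule.zero_mem _

lemma ch_of (hC : Ctx C) {ψ : VV N →ₗ[C.B] VV N'} (h : ψ ∈ HomF (Ph hC N) (Ph hC N') k) :
    ∃ φ ∈ CHom N N' k, blk N N' φ = mtx N N' ψ := by
  have h1 : GM (fun a : Pe N' => N'.g a.1) (fun a : Pe N => N.g a.1) (2 * k) (mtx N N' ψ) :=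
    gm_of_mv (fun a => a.2) (fun a => a.2) fun j v hv => by
      rw [mtx_mv]
      exact h j v hv
  have h2 : ∀ b, mtx N N' ψ * rho N b = rho N' b * mtx N N' ψ := fun b =>
    ext_iff_mulVec.2 fun v => by
      rw [← mulVec_mulVec, ← mulVec_mulVec, mtx_mv, mtx_mv]
      exact ψ.map_smul b v
  obtain ⟨Y, y1, y2, y3⟩ := blk_ext (par N) (par N') (X := mtx N N' ψ)
    (fun u v => by rw [← rho_mm, ← rho_mm, h2]) (q0 C)
  have h3 : GM N'.g N.g (2 * k) (sc N' * (mtx N N' ψ * pr N)) :=
    ((gm_sec _).mul (h1.mul (gm_prj _))).cast (by ring)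
  have h4 : GM N'.g N.g (2 * k) Y := gm_refl hC fun i j => by
    have h5 := congrArg (Y * ·) (cl_e N i j)
    simp only [← EE_e4, Matrix.mul_add, ← Matrix.mul_assoc, y1, Matrix.mul_smul,
      Matrix.mul_one] at h5
    rw [← h5]
    simp only [Matrix.mul_assoc] at h3 ⊢
    have h6 : ∀ a b, GM N'.g N.g (1 + 2 * wz a + (2 * k + (1 + 2 * wz b)))
        (EE N' (e4 a) * (sc N' * (mtx N N' ψ * (pr N * EE N (e4 b))))) := fun a b => by
      have := (gm_e N' a).mul (h3.mul (gm_e N b))
      simpa only [Matrix.mul_assoc] using this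
    exact ((h6 i j).cast (by ring)).add ((h6 j i).cast (by ring))
  choose φ p1 p2 using h3.add h4
  have h5 : (Matrix.of φ).map ev = sc N' * (mtx N N' ψ * pr N) + Y := Matrix.ext p2
  refine ⟨Matrix.of φ, ⟨p1, fun i => ?_⟩, ?_⟩
  · have h6 := y2 (e4 i)
    rw [← h5, EE_e4, EE_e4, ← Matrix.map_mul, ← Matrix.map_mul] at h6
    ext1 a b
    refine hg2_inj (n := N.g b + (1 + 2 * wz i) + 2 * k - N'.g a) ?_ ?_ (congrFun₂ h6 a b)
    · refine IsWeightedHomogeneous.sum _ _ _ fun c _ => ?_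
      have := IsWeightedHomogeneous.mul (p1 a c) (N.deg i c b)
      rwa [show N.g c + 2 * k - N'.g a + (N.g b + (1 + 2 * wz i) - N.g c) =
        N.g b + (1 + 2 * wz i) + 2 * k - N'.g a by ring] at this
    · refine IsWeightedHomogeneous.sum _ _ _ fun c _ => ?_
      have := IsWeightedHomogeneous.mul (N'.deg i a c) (p1 c b)
      rwa [show N'.g c + (1 + 2 * wz i) - N'.g a + (N.g b + 2 * k - N'.g c) =
        N.g b + (1 + 2 * wz i) + 2 * k - N'.g a by ring] at this
  · show pr N' * ((Matrix.of φ).map ev * sc N) = _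
    rw [h5, y3]

lemma blk_zero (h : φ ∈ CHom N N' k) (h0 : blk N N' φ = 0) : φ = 0 := by
  have h1 : φ.map ev = 0 := blk_inj (par N) (ch_comm h) (ch_even h) (q0 C) h0
  ext1 a b
  exact hg2_inj (h.1 a b) (isWeightedHomogeneous_zero _ _ _)
    ((congrFun₂ h1 a b).trans (map_zero ev).symm)

lemma mtx_zero {ψ : VV N →ₗ[C.B] VV N'} (h0 : mtx N N' ψ = 0) : ψ = 0 := by
  refine LinearMap.ext fun v => (mtx_mv ψ v).symm.trans ?_
  rw [h0]
  exact zero_mulVec _

lemma fin_ch (hC : Ctx C) (N N' : CM C.M) (k : ℤ) :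
    finrank ℂ (CHom N N' k) = finrank ℂ (HomF (Ph hC N) (Ph hC N') k) :=
  fin_eq (CHom N N' k) (HomF (Ph hC N) (Ph hC N') k) (blk N N') (mtx N N')
    (fun _ h h0 => blk_zero h h0) (fun _ _ h0 => mtx_zero h0) (fun _ h => ch_to hC h)
    fun _ h => ch_of hC h

end EvN

theorem ev_cm : stEV := fun _ hC => ⟨EvN.Ph hC, EvN.fin_ch hC⟩

end Vale.Agent.P287Z.N
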