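import Vale.Agent.P287Z.N.Sk

/-!
Row FIB2: exact modules over the exterior algebra on two generators are free.
-/

namespace Vale.Agent.P287Z.N

open Module Matrix Submodule

namespace Fib2

theorem pencil {U W : Type} [AddCommGroup U] [Module ℂ U] [FiniteDimensional ℂ U] [AddCommGroup W]
    [Module ℂ W] {A B : U →ₗ[ℂ] W} (h : ∀ u, B u ∈ LinearMap.range A)
    (i1 : Function.Injective A) (i2 : ∀ (c : ℂ) u, B u = c • A u → u = 0) (u : U) : u = 0 := by
  by_contra k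
  have : Nontrivial U := ⟨u, 0, k⟩
  obtain ⟨c, hc⟩ := Module.End.exists_eigenvalue
    ((LinearEquiv.ofInjective A i1).symm.toLinearMap ∘ₗ B.codRestrict _ h)
  obtain ⟨v, hv⟩ := hc.exists_hasEigenvector
  refine hv.2 (i2 c v ?_)
  have e := congrArg (fun x => ((LinearEquiv.ofInjective A i1) x : W)) hv.apply_eq_smul
  simp only [LinearMap.comp_apply, LinearEquiv.coe_coe, LinearEquiv.apply_symm_apply, map_smul] at e
  exact e

variable {V : Type} [AddCommGroup V] [Module ℂ V] [FiniteDimensional ℂ V] {I a b : V →ₗ[ℂ] V}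

theorem ker_le (aa : ∀ v, a (a v) = 0) (bb : ∀ v, b (b v) = 0) (ba : ∀ v, b (a v) = -a (b v))
    (ex : ∀ s t : ℂ, s ≠ 0 ∨ t ≠ 0 → ∀ w, s • a w + t • b w = 0 → ∃ u, w = s • a u + t • b u)
    (v : V) (hv : a (b v) = 0) : ∃ x y, v = a x + b y := by
  let Q : Submodule ℂ V := LinearMap.range a ⊔ LinearMap.range b
  let R : Submodule ℂ V := LinearMap.range (a ∘ₗ b)
  have mQ : ∀ {v}, v ∈ Q ↔ ∃ x y, v = a x + b y := fun {v} =>
    ⟨fun h => let ⟨_, ⟨x, e1⟩, _, ⟨y, e2⟩, e⟩ := mem_sup.1 h; ⟨x, y, by rw [e1, e2, e]⟩,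
      fun ⟨x, y, e⟩ => e ▸ add_mem_sup ⟨x, rfl⟩ ⟨y, rfl⟩⟩
  have ha : Q ≤ R.comap a := fun v h => by
    obtain ⟨x, y, rfl⟩ := mQ.1 h
    exact ⟨y, by rw [map_add, aa, zero_add]; rfl⟩
  have hb : Q ≤ R.comap b := fun v h => by
    obtain ⟨x, y, rfl⟩ := mQ.1 h
    exact ⟨-x, by rw [map_add, bb, add_zero, ba, map_neg]; rfl⟩
  have inj : ∀ s t : ℂ, s ≠ 0 ∨ t ≠ 0 → ∀ v, s • a v + t • b v ∈ R → v ∈ Q := by
    rintro s t h v ⟨z, hz⟩
    have hz' : a (b z) = s • a v + t • b v := hz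
    obtain ⟨q, q1, q2⟩ : ∃ q ∈ Q, s • a q + t • b q = a (b z) := by
      rcases h with h | h
      · exact ⟨s⁻¹ • b z, Q.smul_mem _ (mem_sup_right ⟨z, rfl⟩), by
          rw [map_smul, map_smul, bb, smul_zero, smul_zero, add_zero, smul_inv_smul₀ h]⟩
      · exact ⟨-(t⁻¹ • a z), Q.neg_mem (Q.smul_mem _ (mem_sup_left ⟨z, rfl⟩)), by
          rw [map_neg, map_neg, map_smul, map_smul, aa, ba, smul_zero, neg_zero, smul_zero,
            zero_add, smul_neg t⁻¹, neg_neg, smul_inv_smul₀ h]⟩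
    obtain ⟨u, hu⟩ := ex s t h (v - q) (by
      rw [map_sub, map_sub, smul_sub, smul_sub, sub_add_sub_comm, q2, hz', sub_self])
    rw [sub_eq_iff_eq_add.1 hu]
    exact Q.add_mem (mQ.2 ⟨s • u, t • u, by rw [map_smul, map_smul]⟩) q1
  let U := (LinearMap.ker (a ∘ₗ b)).map Q.mkQ
  have z : ∀ v, v ∈ Q → ∀ h, (⟨Q.mkQ v, h⟩ : U) = 0 := fun v k _ =>
    Subtype.ext ((Quotient.mk_eq_zero Q).2 k)
  have := pencil (A := Q.mapQ R a ha ∘ₗ U.subtype) (B := Q.mapQ R b hb ∘ₗ U.subtype) ?_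
    ((injective_iff_map_eq_zero _).2 ?_) ?_ ⟨Q.mkQ v, v, hv, rfl⟩
  · exact mQ.1 ((Quotient.mk_eq_zero Q).1 (congrArg Subtype.val this))
  · rintro ⟨_, x, hx, rfl⟩
    have hx' : a (b x) = 0 := hx
    obtain ⟨u, hu⟩ := ex 1 0 (Or.inl one_ne_zero) (b x) (by
      rw [hx', bb, smul_zero, smul_zero, add_zero])
    rw [one_smul, zero_smul, add_zero] at hu
    refine ⟨⟨Q.mkQ u, u, ?_, rfl⟩, congrArg R.mkQ hu.symm⟩
    show a (b u) = 0
    rw [← neg_eq_zero, ← ba, ← hu, bb]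
  · rintro ⟨_, x, hx, rfl⟩ k
    refine z x (inj 1 0 (Or.inl one_ne_zero) x ?_) _
    rw [one_smul, zero_smul, add_zero]
    exact (Quotient.mk_eq_zero R).1 k
  · rintro c ⟨_, x, hx, rfl⟩ k
    refine z x (inj (-c) 1 (Or.inr one_ne_zero) x ?_) _
    rw [one_smul, neg_smul, neg_add_eq_sub]
    exact (Submodule.Quotient.eq R).1 k

theorem free {α : ℂ} (hα : α ≠ 0) (hI : ∀ v, I (I v) = α • v) (aa : ∀ v, a (a v) = 0)
    (bb : ∀ v, b (b v) = 0) (ba : ∀ v, b (a v) = -a (b v))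
    (ex : ∀ s t : ℂ, s ≠ 0 ∨ t ≠ 0 → ∀ w, s • a w + t • b w = 0 → ∃ u, w = s • a u + t • b u) :
    ∃ (n : ℕ) (w : Fin n → V), finrank ℂ V = 4 * n ∧ (∀ r, ∃ γ : ℂ, I (w r) = γ • w r) ∧
      LinearIndependent ℂ fun t : Fin 4 × Fin n =>
        ![w t.2, a (w t.2), b (w t.2), a (b (w t.2))] t.1 := by
  obtain ⟨ρ, hρ⟩ := IsAlgClosed.exists_eq_mul_self α
  have ρ0 : ρ ≠ 0 := fun e => hα (by rw [hρ, e, mul_zero])
  obtain ⟨B, b1, b2, b3⟩ := exists_linearIndependent ℂ
    ((a ∘ₗ b) '' {v | ∃ γ : ℂ, I v = γ • v})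
  have fB : B.Finite := b3.setFinite
  obtain ⟨n, ⟨e⟩⟩ := @Finite.exists_equiv_fin B fB
  choose w w1 w2 using fun r => b1 (e.symm r).2
  have li : LinearIndependent ℂ fun r => a (b (w r)) :=
    (funext w2 : (fun r => a (b (w r))) = fun r => (e.symm r : V)) ▸ b3.comp _ e.symm.injective
  have sp : ∀ v, ∃ c : Fin n → ℂ, ∑ r, c r • a (b (w r)) = a (b v) := fun v => by
    rw [← mem_span_range_iff_exists_fun]
    have k : Set.range (fun r => a (b (w r))) = B := by
      rw [show (fun r => a (b (w r))) = Subtype.val ∘ e.symm from funext w2,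
        e.symm.surjective.range_comp, Subtype.range_coe]
    have e2 : v = (2 * ρ)⁻¹ • ((ρ • v + I v) + (ρ • v - I v)) := by
      rw [add_add_sub_cancel, ← two_smul ℂ, smul_smul 2, inv_smul_smul₀ (mul_ne_zero two_ne_zero ρ0)]
    rw [k, b2, e2, map_smul, map_smul, map_add b, map_add a]
    refine smul_mem _ _ (add_mem (subset_span ⟨_, ⟨ρ, ?_⟩, rfl⟩) (subset_span ⟨_, ⟨-ρ, ?_⟩, rfl⟩))
    · rw [map_add, map_smul, hI, hρ]
      module
    · rw [map_sub, map_smul, hI, hρ]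
      module
  have L : LinearIndependent ℂ fun t : Fin 4 × Fin n =>
      ![w t.2, a (w t.2), b (w t.2), a (b (w t.2))] t.1 := by
    refine Fintype.linearIndependent_iff.2 fun g hg => ?_
    rw [Fintype.sum_prod_type, Fin.sum_univ_four] at hg
    have hg' : ∑ r, g (0, r) • w r + ∑ r, g (1, r) • a (w r) + ∑ r, g (2, r) • b (w r) +
        ∑ r, g (3, r) • a (b (w r)) = 0 := hg
    have l := Fintype.linearIndependent_iff.1 li
    have k0 := l (fun r => g (0, r)) (by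
      simpa only [map_add, map_sum, map_smul, aa, bb, ba, map_neg, map_zero, smul_zero, neg_zero,
        Finset.sum_const_zero, add_zero] using congrArg (fun x => a (b x)) hg')
    simp only [k0, zero_smul, Finset.sum_const_zero, zero_add] at hg'
    have k2 := l (fun r => g (2, r)) (by
      simpa only [map_add, map_sum, map_smul, aa, map_zero, smul_zero,
        Finset.sum_const_zero, add_zero, zero_add] using congrArg a hg')
    have k1 := l (fun r => g (1, r)) (by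
      simpa only [map_add, map_sum, map_smul, bb, ba, map_zero, smul_zero, neg_zero, smul_neg,
        Finset.sum_const_zero, add_zero, Finset.sum_neg_distrib, neg_eq_zero] using congrArg b hg')
    simp only [k1, k2, zero_smul, Finset.sum_const_zero, zero_add] at hg'
    rintro ⟨i, r⟩
    fin_cases i
    exacts [k0 r, k1 r, k2 r, l _ hg' r]
  refine ⟨n, w, ?_, w1, L⟩
  set F := span ℂ (Set.range fun t : Fin 4 × Fin n =>
    ![w t.2, a (w t.2), b (w t.2), a (b (w t.2))] t.1)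
  have m : ∀ (i : Fin 4) (c : Fin n → ℂ),
      ∑ r, c r • ![w r, a (w r), b (w r), a (b (w r))] i ∈ F := fun i c =>
    sum_mem fun r _ => smul_mem _ _ (subset_span ⟨(i, r), rfl⟩)
  have dec : ∀ v, ∃ (c : Fin n → ℂ) (x y : V), v = ∑ r, c r • w r + (a x + b y) := fun v => by
    obtain ⟨c, hc⟩ := sp v
    obtain ⟨x, y, k⟩ := ker_le aa bb ba ex (v - ∑ r, c r • w r) (by
      simp only [map_sub, map_sum, map_smul, hc, sub_self])
    exact ⟨c, x, y, sub_eq_iff_eq_add'.1 k⟩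
  have m3 : ∀ v, a (b v) ∈ F := fun v => (sp v).elim fun c hc => hc ▸ m 3 c
  have m1 : ∀ v, a v ∈ F := fun v => by
    obtain ⟨c, x, y, rfl⟩ := dec v
    simp only [map_add, map_sum, map_smul, aa, zero_add]
    exact add_mem (m 1 c) (m3 y)
  have m2 : ∀ v, b v ∈ F := fun v => by
    obtain ⟨c, x, y, rfl⟩ := dec v
    simp only [map_add, map_sum, map_smul, bb, ba, add_zero]
    exact add_mem (m 2 c) (neg_mem (m3 x))
  have top : ⊤ ≤ F := fun v _ => by
    obtain ⟨c, x, y, rfl⟩ := dec v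
    exact add_mem (m 0 c) (add_mem (m1 x) (m2 y))
  rw [finrank_eq_card_basis (Basis.mk L top), Fintype.card_prod, Fintype.card_fin, Fintype.card_fin]

end Fib2

theorem fib2 : stFIB2 := by
  intro ι _ _ I a b α hα hI aa bb ab _ _ ex
  obtain ⟨n, w, h1, h2, h3⟩ := Fib2.free (I := toLin' I) (a := toLin' a) (b := toLin' b) hα
    (fun v => by rw [toLin'_apply, toLin'_apply, mulVec_mulVec, hI, smul_mulVec, one_mulVec])
    (fun v => by rw [toLin'_apply, toLin'_apply, mulVec_mulVec, aa, zero_mulVec])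
    (fun v => by rw [toLin'_apply, toLin'_apply, mulVec_mulVec, bb, zero_mulVec])
    (fun v => by simp only [toLin'_apply, mulVec_mulVec, eq_neg_of_add_eq_zero_right ab, neg_mulVec])
    fun s t h w k => by
      simpa only [toLin'_apply, add_mulVec, smul_mulVec] using
        ex s t h w (by simpa only [toLin'_apply, add_mulVec, smul_mulVec] using k)
  refine ⟨n, w, by rw [← h1, finrank_fintype_fun_eq_card], h2, ?_⟩
  have e : (fun t : Fin 4 × Fin n => (![1, a, b, a * b] t.1) *ᵥ w t.2) = fun t =>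
      ![w t.2, toLin' a (w t.2), toLin' b (w t.2), toLin' a (toLin' b (w t.2))] t.1 := by
    funext ⟨i, r⟩
    fin_cases i
    exacts [one_mulVec _, rfl, rfl, (mulVec_mulVec _ _ _).symm]
  exact e ▸ h3

end Vale.Agent.P287Z.N
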