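import Vale.Agent.P287Z.N.Sk
import Vale.Agent.P287Z.L.Ort
import Mathlib.RingTheory.MvPolynomial.EulerIdentity

/-!
Local frames at the singular points of the discriminant curve.
-/

namespace Vale.Agent.P287Z.N

open MvPolynomial Module Matrix Vale.Agent.P287 Vale.Agent.P287.Theta Vale.Agent.P287Z.L
open Vale.Agent.P287Z.L.Ort

namespace FrmH

theorem chain {σ τ : Type} [Fintype σ] (g : σ → MvPolynomial τ ℂ) (k : τ) (f : MvPolynomial σ ℂ) :
    pderiv k (aeval g f) = ∑ l, pderiv k (g l) * aeval g (pderiv l f) := by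
  classical
  induction f using MvPolynomial.induction_on with
  | C c => simp
  | add f f' h h' => simp only [map_add, h, h', mul_add, Finset.sum_add_distrib]
  | mul_X f j h =>
    simp only [map_mul, aeval_X, Derivation.leibniz, h, smul_eq_mul, map_add, mul_add, pderiv_X,
      Pi.single_apply, Finset.sum_add_distrib, apply_ite (aeval g), map_zero, mul_ite,
      mul_one, mul_zero, Finset.sum_ite_eq, Finset.mem_univ, if_true, Finset.mul_sum]
    rw [mul_comm]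
    exact congrArg _ (Finset.sum_congr rfl fun l _ => by ring)

theorem der {σ : Type} {n : ℕ} {N : Matrix (Fin n) (Fin n) (MvPolynomial σ ℂ)} (hN : N.IsSymm)
    {V : Fin n → MvPolynomial σ ℂ} {z : σ → ℂ} (h : N.map (eval z) *ᵥ (eval z ∘ V) = 0) (k : σ) :
    eval z (pderiv k (V ⬝ᵥ N *ᵥ V)) =
      (eval z ∘ V) ⬝ᵥ (N.map fun f => eval z (pderiv k f)) *ᵥ (eval z ∘ V) := by
  have e : pderiv k (V ⬝ᵥ N *ᵥ V) = (pderiv k ∘ V) ⬝ᵥ N *ᵥ V + V ⬝ᵥ N.map (pderiv k) *ᵥ V +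
      V ⬝ᵥ N *ᵥ (pderiv k ∘ V) := by
    simp only [dotProduct, mulVec, map_sum, Derivation.leibniz, smul_eq_mul, Finset.mul_sum,
      ← Finset.sum_add_distrib, Function.comp_apply, map_apply]
    exact Finset.sum_congr rfl fun i _ => Finset.sum_congr rfl fun j _ => by ring
  rw [e, dot_comm hN V (pderiv k ∘ V), map_add, map_add, map_dot, h, dotProduct_zero, zero_add,
    add_zero, map_dot]
  rfl

variable (C : Cx) {p : Fin 3 → ℂ}

/-- the derivatives of the matrix -/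
noncomputable abbrev dM (p : Fin 3 → ℂ) (k : Fin 3) : Matrix (Fin 4) (Fin 4) ℂ :=
  C.M.map fun f => eval p (pderiv k f)

theorem sc {f : P3} {n : ℕ} (h : f.IsHomogeneous n) (t : ℂ) (p : Fin 3 → ℂ) :
    eval (t • p) f = t ^ n * eval p f := (hg_nat.2 h).eval_smul t p

/-- the smoothness of the cubic -/
theorem grad (hp : p ≠ 0) {v : Fin 4 → ℂ} (hv : C.M.map (eval p) *ᵥ v = 0)
    (h : ∀ k, v ⬝ᵥ dM C p k *ᵥ v = 0) : v = 0 := by
  let z : Fin 6 → ℂ := ![v 3 * p 0, v 3 * p 1, v 3 * p 2, v 0, v 1, v 2]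
  let Y : Fin 4 → ℂ := eval z ∘ ![X 3, X 4, X 5, 1]
  have h1 : ∀ f : P3, eval z (aeval ![X 0, X 1, X 2] f) = eval (v 3 • p) f := fun f => by
    rw [H925.eval_eq_aeval, H925.eval_eq_aeval, ← AlgHom.comp_apply, comp_aeval]
    exact congrArg (aeval · f) (funext fun i => by fin_cases i <;> simp [z])
  have h2 : ∀ i, v i = v 3 ^ H925.wt i * Y i := fun i => by
    fin_cases i <;> simp [Y, z, H925.wt]
  have h3 := C.smooth z fun k => by
    rw [← H925.eval_eq_aeval, H925.cubicOf, der (C.symm.map _) (funext fun i => ?_)]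
    · refine Eq.trans ?_ (Finset.sum_eq_zero (s := Finset.univ) fun l _ => mul_eq_zero_of_right
        (eval z (pderiv k ((![X 0, X 1, X 2] : Fin 3 → MvPolynomial (Fin 6) ℂ) l))) (h l))
      simp only [dotProduct, mulVec, map_apply, chain, map_sum, map_mul, h1, Finset.mul_sum,
        Finset.sum_mul, sc (C.deg _ _).pderiv]
      rw [Finset.sum_comm (s := (Finset.univ : Finset (Fin 3)))]
      refine Finset.sum_congr rfl fun i _ => ?_
      rw [Finset.sum_comm]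
      refine Finset.sum_congr rfl fun l _ => Finset.sum_congr rfl fun j _ => ?_
      rw [h2 i, h2 j, add_assoc, Nat.add_sub_cancel_left, pow_add]
      ring
    · refine Eq.trans ?_ (mul_eq_zero_of_right (v 3 ^ (1 + H925.wt i)) (congrFun hv i))
      simp only [dotProduct, mulVec, map_apply, h1, Finset.mul_sum, sc (C.deg _ _)]
      refine Finset.sum_congr rfl fun j _ => ?_
      rw [h2 j, pow_add]
      ring
  obtain ⟨k, hk⟩ := Function.ne_iff.1 hp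
  have h4 : v 3 * p k = 0 := by
    fin_cases k
    exacts [congrFun h3 0, congrFun h3 1, congrFun h3 2]
  funext i
  fin_cases i
  exacts [congrFun h3 3, congrFun h3 4, congrFun h3 5, (mul_eq_zero.1 h4).resolve_right hk]

theorem euler {f : P3} {n : ℕ} (h : f.IsHomogeneous n) (p : Fin 3 → ℂ) :
    ∑ k, p k * eval p (pderiv k f) = n * eval p f := by
  simpa using congrArg (eval p) h.sum_X_mul_pderiv

theorem rel {v : Fin 4 → ℂ} (hv : C.M.map (eval p) *ᵥ v = 0) :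
    ∑ k, p k * v ⬝ᵥ dM C p k *ᵥ v = 0 := by
  have e : ∑ k, p k * v ⬝ᵥ dM C p k *ᵥ v = (v + fun i => H925.wt i * v i) ⬝ᵥ C.M.map (eval p) *ᵥ v +
      v ⬝ᵥ C.M.map (eval p) *ᵥ fun i => H925.wt i * v i := by
    simp only [dotProduct, mulVec, map_apply, Finset.mul_sum, ← Finset.sum_add_distrib,
      Pi.add_apply]
    rw [Finset.sum_comm]
    refine Finset.sum_congr rfl fun i _ => ?_
    rw [Finset.sum_comm]
    refine Finset.sum_congr rfl fun j _ => ?_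
    have := euler (C.deg i j) p
    simp only [Fin.sum_univ_three, Nat.cast_add, Nat.cast_one] at this ⊢
    linear_combination v i * v j * this
  rw [e, dot_comm (C.symm.map _) v, hv, dotProduct_zero, dotProduct_zero, add_zero]

/-- the corank is at most two -/
theorem three (hp : p ≠ 0) {w : Fin 3 → Fin 4 → ℂ} (hw : LinearIndependent ℂ w) :
    ¬ ∀ i, C.M.map (eval p) *ᵥ w i = 0 := fun h => by
  obtain ⟨k, hk⟩ := Function.ne_iff.1 hp
  let B := fun l : Fin 2 => (Matrix.toLinearMap₂' ℂ (dM C p (k.succAbove l))).compl₁₂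
    (Submodule.span ℂ (Set.range w)).subtype (Submodule.span ℂ (Set.range w)).subtype
  obtain ⟨⟨v, hv⟩, h0, h1⟩ := exists_isotropic_of_finrank_lt
    ((B 0).compr₂ (LinearMap.inl ℂ ℂ ℂ) + (B 1).compr₂ (LinearMap.inr ℂ ℂ ℂ))
    (by rw [finrank_span_eq_card hw]; simp)
  have h2 : C.M.map (eval p) *ᵥ v = 0 := (Submodule.span_le (p := LinearMap.ker (mulVecLin _))).2
    (Set.range_subset_iff.2 h) hv
  have h3 : ∀ l, v ⬝ᵥ dM C p (k.succAbove l) *ᵥ v = 0 := by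
    simpa [B, Matrix.toLinearMap₂'_apply'] using h1
  have h4 := rel C h2
  rw [Fin.sum_univ_succAbove _ k] at h4
  simp only [h3, mul_zero, Finset.sum_const_zero, add_zero] at h4
  exact h0 (Subtype.ext (grad C hp h2 (k.forall_iff_succAbove.2
    ⟨(mul_eq_zero.1 h4).resolve_left hk, h3⟩)))

/-- an orthogonal basis of the fibre -/
theorem basis (hp : p ≠ 0) : ∃ a : Fin 4 → Fin 4 → ℂ, LinearIndependent ℂ a ∧
    (∀ i j, i ≠ j → a i ⬝ᵥ C.M.map (eval p) *ᵥ a j = 0) ∧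
    (∀ v, (∀ i, a i ⬝ᵥ C.M.map (eval p) *ᵥ v = 0) → C.M.map (eval p) *ᵥ v = 0) ∧
    a 0 ⬝ᵥ C.M.map (eval p) *ᵥ a 0 ≠ 0 ∧ a 1 ⬝ᵥ C.M.map (eval p) *ᵥ a 1 ≠ 0 := by
  have h0 := LinearMap.BilinForm.exists_orthogonal_basis
    (B := Matrix.toLinearMap₂' ℂ (C.M.map (eval p))) ⟨fun x y => by
      simpa only [Matrix.toLinearMap₂'_apply', RingHom.id_apply] using dot_comm (C.symm.map _) x y⟩
  rw [finrank_fin_fun] at h0
  obtain ⟨b, hb⟩ := h0
  have h1 : ∀ i j, i ≠ j → b i ⬝ᵥ C.M.map (eval p) *ᵥ b j = 0 := fun i j e =>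
    (Matrix.toLinearMap₂'_apply' _ _ _).symm.trans (hb e)
  have h2 : ∀ v : Fin 4 → ℂ, (∀ i, b i ⬝ᵥ v = 0) → v = 0 := fun v h =>
    dotProduct_eq_zero _ fun u => by
      rw [← b.sum_repr u, dotProduct_sum]
      simp only [dotProduct_comm v, smul_dotProduct, h, smul_zero, Finset.sum_const_zero]
  by_cases h : ∃ i j, i ≠ j ∧ b i ⬝ᵥ C.M.map (eval p) *ᵥ b i ≠ 0 ∧
    b j ⬝ᵥ C.M.map (eval p) *ᵥ b j ≠ 0
  · obtain ⟨i, j, e, hi, hj⟩ := h
    obtain ⟨σ, rfl, rfl⟩ : ∃ σ : Equiv.Perm (Fin 4), σ 0 = i ∧ σ 1 = j :=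
      ⟨Equiv.swap 0 i * Equiv.swap 1 (Equiv.swap 0 i j), by clear hi hj; revert i j; decide⟩
    exact ⟨b ∘ σ, b.linearIndependent.comp _ σ.injective, fun i j e => h1 _ _ (σ.injective.ne e),
      fun v k => h2 _ (σ.surjective.forall.2 k), hi, hj⟩
  obtain ⟨m, hm⟩ : ∃ m, ∀ i, i ≠ m → b i ⬝ᵥ C.M.map (eval p) *ᵥ b i = 0 := by
    by_contra k
    push Not at k
    obtain ⟨i, -, hi⟩ := k 0
    obtain ⟨j, e, hj⟩ := k i
    exact h ⟨j, i, e, hj, hi⟩
  refine (three C hp (b.linearIndependent.comp _ m.succAbove_right_injective) fun l =>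
    h2 _ fun i => ?_).elim
  by_cases e : i = m.succAbove l
  exacts [e ▸ hm _ (m.succAbove_ne l), h1 _ _ e]

theorem rows (hp : p ≠ 0) {a : Fin 4 → Fin 4 → ℂ}
    (h1 : ∀ i j, i ≠ j → a i ⬝ᵥ C.M.map (eval p) *ᵥ a j = 0)
    (h2 : a 0 ⬝ᵥ C.M.map (eval p) *ᵥ a 0 ≠ 0) (h3 : a 1 ⬝ᵥ C.M.map (eval p) *ᵥ a 1 ≠ 0) :
    ∃ (T : Fin 4 → Fin 4 → P3) (c : Fin 4 → ℂ), (∀ i, HV 13 (T i) ∧ c i ≠ 0 ∧
      eval p ∘ T i = c i • a i) ∧ (∀ j, j ≠ 0 → T 0 ⬝ᵥ C.M *ᵥ T j = 0) ∧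
        T 1 ⬝ᵥ C.M *ᵥ T 2 = 0 ∧ T 1 ⬝ᵥ C.M *ᵥ T 3 = 0 := by
  have hM : ∀ i j, Hg (1 + wz i + wz j) (C.M i j) := fun i j =>
    (hg_nat.2 (C.deg i j)).cast (by rw [wz_eq, wz_eq]; push_cast; rfl)
  obtain ⟨k, hk⟩ := Function.ne_iff.1 hp
  obtain ⟨L, hL, hL'⟩ : ∃ L, Hg 1 L ∧ eval p L = 1 :=
    ⟨_, (hg_X k).C_mul (p k)⁻¹, by simpa using inv_mul_cancel₀ hk⟩
  obtain ⟨U, hU, hU'⟩ : ∃ U : Fin 4 → Fin 4 → P3, (∀ i, HV 1 (U i)) ∧ ∀ i, eval p ∘ U i = a i :=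
    ⟨fun i j => MvPolynomial.C (a i j) * ![L, L, L, 1] j, fun i j => Hg.C_mul (by
      fin_cases j
      exacts [hL, hL, hL, hg_one]) _, fun i => funext fun j => by fin_cases j <;> simp [hL']⟩
  have pad : ∀ (n : ℕ) {m : ℤ} {V}, HV m V → HV (n + m) (L ^ n • V) := fun n _ _ h i =>
    ((hL.pow n).mul (h i)).cast (by ring)
  have pad' : ∀ (n : ℕ) (V : Fin 4 → P3), eval p ∘ (L ^ n • V) = eval p ∘ V := fun n V =>
    funext fun i => by simp [hL']
  have o1 : ∀ a x, a ⬝ᵥ C.M *ᵥ gs C.M a x = 0 := fun a x => by rw [dot_gs, mul_comm, sub_self]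
  have o2 : ∀ x y, U 0 ⬝ᵥ C.M *ᵥ gs C.M (gs C.M (U 0) x) (gs C.M (U 0) y) = 0 := fun x y => by
    rw [dot_gs, o1, o1, mul_zero, mul_zero, sub_zero]
  have e1 : ∀ j, j ≠ 0 → eval p ∘ gs C.M (U 0) (U j) = (a 0 ⬝ᵥ C.M.map (eval p) *ᵥ a 0) • a j :=
    fun j e => by rw [map_gs, hU', hU', gs_apply, h1 _ _ e.symm, zero_smul, sub_zero]
  set d := a 0 ⬝ᵥ C.M.map (eval p) *ᵥ a 0
  have e2 : ∀ j, j ≠ 0 → j ≠ 1 → eval p ∘ gs C.M (gs C.M (U 0) (U 1)) (gs C.M (U 0) (U j)) =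
      (d * (d * a 1 ⬝ᵥ C.M.map (eval p) *ᵥ a 1) * d) • a j := fun j e e' => by
    rw [map_gs, e1 j e, e1 1 one_ne_zero]
    simp only [gs_apply, mulVec_smul, smul_dotProduct, dotProduct_smul, h1 _ _ e'.symm, mul_zero,
      zero_mul, zero_smul, sub_zero, smul_smul, smul_eq_mul]
  have e3 := mul_ne_zero (mul_ne_zero h2 (mul_ne_zero h2 h3)) h2
  have d1 := fun j => hv_gs hM (hU 0) (hU j)
  refine ⟨![L ^ 12 • U 0, L ^ 9 • gs C.M (U 0) (U 1),
    gs C.M (gs C.M (U 0) (U 1)) (gs C.M (U 0) (U 2)),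
    gs C.M (gs C.M (U 0) (U 1)) (gs C.M (U 0) (U 3))],
    ![1, d, d * (d * a 1 ⬝ᵥ C.M.map (eval p) *ᵥ a 1) * d, d * (d * a 1 ⬝ᵥ C.M.map (eval p) *ᵥ a 1) * d],
    fun i => ?_, fun j e => ?_, ?_, ?_⟩
  · fin_cases i
    exacts [⟨pad 12 (hU 0), one_ne_zero, (pad' _ _).trans ((hU' 0).trans (one_smul _ _).symm)⟩,
      ⟨pad 9 (d1 1), h2, (pad' _ _).trans (e1 1 one_ne_zero)⟩,
      ⟨hv_gs hM (d1 1) (d1 2), e3, e2 2 (by decide) (by decide)⟩,
      ⟨hv_gs hM (d1 1) (d1 3), e3, e2 3 (by decide) (by decide)⟩]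
  · fin_cases j
    · exact absurd rfl e
    all_goals simp [mulVec_smul, o1, o2]
  all_goals simp [o1]

theorem blk {G : Matrix (Fin 4) (Fin 4) P3} (h : ∀ i j, G i j = G j i) (h1 : ∀ j, j ≠ 0 → G 0 j = 0)
    (h2 : G 1 2 = 0) (h3 : G 1 3 = 0) :
    G = !![G 0 0, 0, 0, 0; 0, G 1 1, 0, 0; 0, 0, G 2 2, G 2 3; 0, 0, G 2 3, G 3 3] := by
  ext1 i j
  fin_cases i <;> fin_cases j <;> simp [h1, h2, h3, h _ 0, h 2 1, h 3 1, h 3 2]

theorem det4 (a b c d e : P3) :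
    det !![a, 0, 0, 0; 0, b, 0, 0; 0, 0, c, d; 0, 0, d, e] = a * b * (c * e - d ^ 2) := by
  simp [det_succ_row_zero, Fin.sum_univ_succ, Fin.succAbove]
  ring

end FrmH

open FrmH in
theorem frm : stFRM := by
  intro C p ⟨hp, hd⟩
  obtain ⟨a, h1, h2, h3, h4, h5⟩ := basis C hp
  obtain ⟨T, c, k1, k2, k3, k4⟩ := rows C hp h2 h4 h5
  have ev : ∀ i j, eval p (T i ⬝ᵥ C.M *ᵥ T j) = c i * (c j * a i ⬝ᵥ C.M.map (eval p) *ᵥ a j) :=
    fun i j => by simp only [map_dot, (k1 _).2.2, mulVec_smul, smul_dotProduct, dotProduct_smul,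
      smul_eq_mul, mul_left_comm]
  have u : ∀ i, a i ⬝ᵥ C.M.map (eval p) *ᵥ a i ≠ 0 → eval p (T i ⬝ᵥ C.M *ᵥ T i) ≠ 0 := fun i h =>
    ev i i ▸ mul_ne_zero (k1 i).2.1 (mul_ne_zero (k1 i).2.1 h)
  have z : ∀ i j, i ≠ j → eval p (T i ⬝ᵥ C.M *ᵥ T j) = 0 := fun i j e => by
    rw [ev, h2 i j e, mul_zero, mul_zero]
  have g0 : of T * C.M * (of T)ᵀ = of fun i j => T i ⬝ᵥ C.M *ᵥ T j :=
    Matrix.ext fun i j => (dotProduct_mulVec _ _ _).symm
  have gram := g0.trans (blk (fun i j => dot_comm C.symm _ _) k2 k3 k4)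
  simp only [of_apply] at gram
  have li : LinearIndependent ℂ fun i => eval p ∘ T i := by
    simp only [(k1 _).2.2]
    exact h1.units_smul fun i => Units.mk0 _ (k1 i).2.1
  have gr : ∀ s t : ℂ, s ≠ 0 ∨ t ≠ 0 → s * eval p (T 2 ⬝ᵥ C.M *ᵥ T 2) = 0 →
      t * eval p (T 3 ⬝ᵥ C.M *ᵥ T 3) = 0 → ∃ k, eval p (pderiv k (MvPolynomial.C (s ^ 2) *
        T 2 ⬝ᵥ C.M *ᵥ T 2 + MvPolynomial.C (2 * s * t) * T 2 ⬝ᵥ C.M *ᵥ T 3 +
          MvPolynomial.C (t ^ 2) * T 3 ⬝ᵥ C.M *ᵥ T 3)) ≠ 0 := fun s t h e e' => by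
    have l1 : eval p ∘ ((MvPolynomial.C s : P3) • T 2 + (MvPolynomial.C t : P3) • T 3) =
        s • eval p ∘ T 2 + t • eval p ∘ T 3 := funext fun i => by simp
    have l2 : C.M.map (eval p) *ᵥ (s • eval p ∘ T 2 + t • eval p ∘ T 3) = 0 := h3 _ fun i => by
      refine (smul_eq_zero.1 ?_).resolve_left (k1 i).2.1
      rw [← smul_dotProduct, ← (k1 i).2.2, mulVec_add, mulVec_smul, mulVec_smul, dotProduct_add,
        dotProduct_smul, dotProduct_smul, ← map_dot, ← map_dot, smul_eq_mul, smul_eq_mul]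
      fin_cases i
      all_goals simp [z, e, e']
    by_contra l3
    refine (fun l4 => h.elim (· (l4 2)) (· (l4 3))) (Fintype.linearIndependent_iff.1 li ![0, 0, s, t]
      (Eq.trans (by simp [Fin.sum_univ_four]) (grad C hp l2 fun k => ?_)))
    rw [← l1, ← der C.symm (l1 ▸ l2), ← not_not.1 (not_exists.1 l3 k)]
    simp only [mulVec_add, mulVec_smul, dotProduct_add, add_dotProduct, smul_dotProduct,
      dotProduct_smul, smul_eq_mul, dot_comm C.symm (T 3) (T 2), map_mul, map_pow, map_ofNat]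
    exact congrArg _ (congrArg _ (by ring))
  have dt : eval p (of T).det ≠ 0 := by
    rw [RingHom.map_det, ← isUnit_iff_ne_zero, ← isUnit_iff_isUnit_det]
    exact linearIndependent_rows_iff_isUnit.1 li
  have d0 : eval p C.M.det = 0 := by
    have := euler (hg_nat.1 ((hg_det C.M (fun i => -1 - wz i) wz fun i j =>
      (hg_nat.2 (C.deg i j)).cast (by rw [wz_eq, wz_eq]; push_cast; ring)).cast
        (j := (6 : ℕ)) (by simp [wz, Fin.sum_univ_four]))) p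
    simpa [hd] using this
  have d1 := congrArg det gram
  rw [det_mul, det_mul, det4] at d1
  have d2 := congrArg (eval p) d1
  have d3 := fun k => congrArg (fun f => eval p (pderiv k f)) d1
  have z2 := z 2 3 (by decide)
  simp only [map_mul, map_sub, map_pow, d0, z2, mul_zero, zero_mul, zero_eq_mul, u 0 h4, u 1 h5,
    mul_eq_zero, false_or, sub_zero, ne_eq, OfNat.ofNat_ne_zero, not_false_eq_true, zero_pow] at d2
  simp only [Derivation.leibniz, Derivation.leibniz_pow, smul_eq_mul, map_add, map_mul, map_sub,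
    map_pow, d0, hd, z2, map_nsmul, Nat.add_one_sub_one, pow_one] at d3
  have uu := mul_ne_zero (u 0 h4) (u 1 h5)
  have z1 : eval p (T 2 ⬝ᵥ C.M *ᵥ T 2) = 0 := by
    by_contra k
    obtain ⟨l, hl⟩ := gr 0 1 (.inr one_ne_zero) (zero_mul _) (by rw [d2.resolve_left k, mul_zero])
    have := d3 l
    rw [d2.resolve_left k] at this
    exact mul_ne_zero (mul_ne_zero uu k) (by simpa using hl) (by linear_combination -this)
  have z3 : eval p (T 3 ⬝ᵥ C.M *ᵥ T 3) = 0 := by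
    by_contra k
    obtain ⟨l, hl⟩ := gr 1 0 (.inl one_ne_zero) (by rw [z1, mul_zero]) (zero_mul _)
    have := d3 l
    rw [z1] at this
    exact mul_ne_zero (mul_ne_zero uu k) (by simpa using hl) (by linear_combination -this)
  exact ⟨_, 13, _, _, _, _, _, fun i => (k1 i).1, dt, gram, u 0 h4, u 1 h5, z1, z2, z3,
    fun s t h => gr s t h (by rw [z1, mul_zero]) (by rw [z3, mul_zero])⟩

end Vale.Agent.P287Z.N
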