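import Vale.Agent.P287Z.N.Symm
import Vale.Agent.P287Z.L.H1

/-!
The first Chern class of the lattice of homomorphisms.
-/

namespace Vale.Agent.P287Z.N

open MvPolynomial Module Filter Matrix Vale.Agent.P287 Vale.Agent.P287.Theta Vale.Agent.P287Z.L

namespace H1N

open L.SymA SymN

variable {C : Cx}

theorem deg_zero {f : P3} (hf : Nodal f) {ρ : K} {δ : ℤ} (h0 : ρ ≠ 0)
    (h : ∀ p : Fin 3 → ℂ, Gd f p → ∃ d u u', U1 p d u ∧ U1 p (d + δ) u' ∧ u * ρ = u') :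
    δ = 0 := by
  have h1 : ρ ∈ AA δ := hf.locP refl_AA fun p hp => by
    obtain ⟨d, u, u', k1, k2, e⟩ := h p hp
    exact ⟨d, u, k1, by rw [smul_eq_mul, e]; exact k2.mem⟩
  have h2 : ρ⁻¹ ∈ AA (-δ) := hf.locP refl_AA fun p hp => by
    obtain ⟨d, u, u', k1, k2, e⟩ := h p hp
    refine ⟨d + δ, u', k2, ?_⟩
    rw [smul_eq_mul, ← e, mul_inv_cancel_right₀ h0, add_neg_cancel_right]
    exact k1.mem
  have := AA_nonneg h1 h0
  have := AA_nonneg h2 (inv_ne_zero h0)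
  omega

theorem repr_mem (hC : Ctx C) {k : ℤ} {z : C.B} (hz : z ∈ C.O k) (s : Fin 8) :
    (bo hC).repr z s ∈ AA (k - oz s) := by
  obtain ⟨c, hc, rfl⟩ := Noe.sp.1 hz
  rw [show ob C.G 1 e4 = bo hC from funext fun i => (bo_apply hC i).symm, (bo hC).repr_sum_self]
  exact hc s

variable {X Y : OL C} {p : Fin 3 → ℂ} {a b : ℕ} {v : Basis (Fin a) C.B X.V}
  {w : Basis (Fin b) C.B Y.V} {h : Fin a → ℤ} {h' : Fin b → ℤ} {d d' : ℤ} {y y' : K}

theorem lb_hom (hC : Ctx C) (hv : LO X p v h d y) (hw : LO Y p w h' d' y') :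
    LB (HomF X Y) p (fun t => y • hb (bo hC) v w t)
      fun t => d + (oz t.2.1 + h' t.2.2) - h t.1 := by
  refine ⟨fun t => ?_, (hb (bo hC) v w).linearIndependent.units_smul
    fun _ => Units.mk0 y hv.unit.ne, _, _, hv.unit.mul hw.unit, fun k ψ hψ => Noe.sp.2
      ⟨fun t => y' * (hb (bo hC) v w).repr ψ t, fun t => ?_, ?_⟩⟩
  · rw [hb_apply, bo_apply]
    exact hv.el_mem _ (Y.stab _ _ _ (o_mem _) _ (hw.mem _))
  · have h1 := repr_mem hC (hw.loc _ _ (hψ _ _ (hv.mem t.1)) t.2.2) t.2.1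
    rw [map_smul, Finsupp.smul_apply, smul_eq_mul, ← hb_repr] at h1
    exact AA_cast h1 (by ring)
  · conv_rhs => rw [← (hb (bo hC) v w).sum_repr ψ, Finset.smul_sum]
    refine Finset.sum_congr rfl fun t _ => ?_
    rw [smul_smul, smul_smul]
    congr 1
    ring

end H1N

open L.SymA SymN H1N in
theorem h1 (hH : stHOM) (hL : stLF) (hD : stDET) : stH1 := by
  intro C hC X Y a b ha hb'
  obtain ⟨q, hq⟩ := hC.nodal.exists_gd
  obtain ⟨v₀, -⟩ := exists_lo hC hL X ha hq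
  obtain ⟨w₀, -⟩ := exists_lo hC hL Y hb' hq
  have := fd_hom (F := K) (B := C.B) (X := X.V) (Y := Y.V)
  obtain ⟨νX, nX, dX⟩ := hD _ X.F _ ((bo hC).smulTower v₀) X.lat
  obtain ⟨νY, nY, dY⟩ := hD _ Y.F _ ((bo hC).smulTower w₀) Y.lat
  obtain ⟨νH, nH, dH⟩ := hD _ (HomF X Y) _ (hb (bo hC) v₀ w₀) (hH C hC X Y).1
  have key := deg_zero hC.nodal (ρ := νH * νX ^ b / νY ^ a)
    (δ := a * c1 Y.F - b * c1 X.F - 12 * a * b - c1 (HomF X Y))
    (div_ne_zero (mul_ne_zero nH (pow_ne_zero _ nX)) (pow_ne_zero _ nY)) fun p hp => by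
      obtain ⟨v, h, d, y, hv⟩ := exists_lo hC hL X ha hp
      obtain ⟨w, h', d', y', hw⟩ := exists_lo hC hL Y hb' hp
      have k1 := ((dX _ _ hv.ob.mem).2 p hp.1).1 hv.ob
      have k2 := ((dY _ _ hw.ob.mem).2 p hp.1).1 hw.ob
      have k3 := ((dH _ _ (lb_hom hC hv hw).mem).2 p hp.1).1 (lb_hom hC hv hw)
      have e := det_hb hC.alg.lam_comm (lam_nd hC) (bo hC) v₀ v w₀ w
      simp only [bo_apply, Fintype.card_fin] at e
      rw [AlternatingMap.map_smul_univ, Finset.prod_const, smul_eq_mul, H1x.sum_hom, Finset.card_univ,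
        Fintype.card_sigma, Finset.sum_const, Finset.card_univ, Fintype.card_prod,
        Fintype.card_fin, Fintype.card_fin, Fintype.card_fin, smul_eq_mul] at k3
      rw [H1x.sum_oz] at k1 k2
      refine ⟨_, _, _, k3.mul (k1.pow b),
        ((hv.unit.pow (a * (8 * b))).mul (k2.pow a)).cast (by push_cast; ring), ?_⟩
      rw [div_pow, div_pow, ← e]
      field_simp
  omega

end Vale.Agent.P287Z.N
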