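import Vale.Agent.P287Z.N.Sk
import Vale.Agent.P287Z.L.Hom

/-!
The family of homomorphisms between two lattices over the order is a lattice.
-/

namespace Vale.Agent.P287Z.N

open MvPolynomial Module Filter Matrix Vale.Agent.P287 Vale.Agent.P287.Theta Vale.Agent.P287Z.L
open Vale.Agent.P287Z.L.HomA (ex_basis fg_ind fam_comap fam_map fg_back full_fin fg_pi)

namespace HomN

variable {C : Cx}

theorem nontriv (h : Ctx C) : Nontrivial C.B :=
  Module.nontrivial_of_finrank_pos (R := K) (by rw [h.alg.rank]; norm_num)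

theorem basis (h : Ctx C) (X : OL C) : ∃ a : ℕ, Nonempty (Basis (Fin a) C.B X.V) ∧ rk X = 8 * a :=
  have := nontriv h
  h.alg.rank ▸ ex_basis K C.B X.V h.div

theorem hom_fam (X Y : OL C) : Fam (HomF X Y) := fun d k a ha φ hφ j v hv => by
  rw [add_left_comm]
  exact Y.lat.fam _ _ a ha _ (hφ j v hv)

/-- it suffices to test a homomorphism on generators -/
theorem hom_of {X Y : OL C} {n : ℕ} {u : Fin n → X.V} {e : Fin n → ℤ}
    (h : ∀ M, Fam M → (∀ i, u i ∈ M (e i)) → ∀ k, X.F k ≤ M k) {φ : X.V →ₗ[C.B] Y.V} {k : ℤ}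
    (hφ : ∀ i, φ (u i) ∈ Y.F (e i + k)) : φ ∈ HomF X Y k := fun j _ hv =>
  h _ (fam_comap (φ.restrictScalars K) Y.lat.fam k) hφ j hv

theorem hom_lat (hN : stNOETH) (X Y : OL C) : Lat (HomF X Y) := by
  obtain ⟨n, u, e, h1, h2⟩ := fg_ind X.lat.fg
  refine ⟨hom_fam X Y, ?_, fun φ => ?_, fun k φ h j v hv => Y.lat.refl _ _ fun g hg => ?_⟩
  · let T : (X.V →ₗ[C.B] Y.V) →ₗ[K] (Fin n → Y.V) :=
      ⟨⟨fun φ i => φ (u i), fun _ _ => rfl⟩, fun _ _ => rfl⟩
    refine fg_back T ((injective_iff_map_eq_zero T).2 fun φ hφ => LinearMap.ext fun v => ?_)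
      (hom_fam X Y) (hN _ _ _ (fg_pi Y.lat.fam Y.lat.fg e) (fam_map T (hom_fam X Y)) ?_)
    · obtain ⟨k, y, y0, hy⟩ := X.lat.full v
      have h3 := h2 _ (fam_comap (N := fun _ => ⊥) (φ.restrictScalars K)
        (fun _ _ a _ w hw => by rw [(Submodule.mem_bot ℂ).1 hw, smul_zero]; exact zero_mem _) 0)
        (fun i => congrFun hφ i) k hy
      have h4 : y • φ v = 0 := (LinearMap.map_smul_of_tower φ y v).symm.trans h3
      exact (smul_eq_zero.1 h4).resolve_left y0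
    · rintro k _ ⟨φ, hφ, rfl⟩ i -
      exact hφ _ _ (h1 i)
  · obtain ⟨d, k, y, y0, -, hy⟩ := full_fin Y.lat.fam Y.lat.full (fun i => φ (u i)) e
    exact ⟨k, y, y0, hom_of h2 fun i => hy i k le_rfl⟩
  · obtain ⟨d, y, k1, k2⟩ := h g hg
    refine ⟨d, y, k1, ?_⟩
    rw [add_left_comm]
    exact k2 j v hv

theorem fd_hom (X Y : OL C) : FiniteDimensional K (X.V →ₗ[C.B] Y.V) :=
  FiniteDimensional.of_injective (LinearMap.restrictScalarsₗ K C.B X.V Y.V K)
    (LinearMap.restrictScalars_injective K)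

end HomN

open HomN in
theorem hom (hN : stNOETH) : stHOM := by
  intro C h X Y
  obtain ⟨a, ⟨b⟩, ha⟩ := basis h X
  refine ⟨hom_lat hN X Y, ?_, ⟨a, ha⟩, fun h8 => ?_⟩
  · rw [← (b.constr K : (Fin a → Y.V) ≃ₗ[K] (X.V →ₗ[C.B] Y.V)).finrank_eq, ha,
      Module.finrank_pi_fintype, Finset.sum_const, Finset.card_univ, Fintype.card_fin, smul_eq_mul,
      mul_assoc]
  · obtain rfl : a = 1 := by omega
    exact ⟨b.equivFun.trans (LinearEquiv.funUnique (Fin 1) C.B C.B)⟩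

end Vale.Agent.P287Z.N
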