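import Vale.Agent.P287Z.N.Hom
import Vale.Agent.P287Z.L.Iso

/-!
Sums of lattices over the order, the free lattices of rank one, and the odd Clifford lattice.
-/

namespace Vale.Agent.P287Z.N

open MvPolynomial Module Filter Matrix Vale.Agent.P287 Vale.Agent.P287.Theta Vale.Agent.P287Z.L
open Vale.Agent.P287Z.L.HomA (sp sp_fam sp_mem lat_prod)
open Vale.Agent.P287Z.L.O1A (T T_base T_smul T_mul bb mem_bb bb_smul ww u8 d8 T_le u8_mem q_e DD
  hp_iff chi_congr hp_eq hp_add rank_of hp_sp)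

namespace O1N

variable {C : Cx}

/-- the generators of the Clifford algebra -/
noncomputable abbrev ee (C : Cx) (i : Fin 4) : CliffordAlgebra (qf4 C.G) :=
  CliffordAlgebra.ι (qf4 C.G) (e4 i)

/-- the products of two generators -/
noncomputable abbrev m (C : Cx) (i j : Fin 4) : C.B := mm C.G (e4 i) (e4 j)

theorem inc_m (i j : Fin 4) : inc C.G (m C i j) = ee C i * ee C j := rfl

theorem inc_inj' : Function.Injective (inc C.G) := Subtype.val_injective

theorem ee_sq (i : Fin 4) : ee C i * ee C i = algebraMap K _ (C.G i i) := by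
  rw [CliffordAlgebra.ι_sq_scalar]
  exact congrArg _ (q_e C.G i i)

theorem ee_swap (h : C.G.IsSymm) (i j : Fin 4) :
    ee C i * ee C j + ee C j * ee C i = algebraMap K _ (C.G i j + C.G i j) := by
  rw [CliffordAlgebra.ι_mul_ι_add_swap]
  refine congrArg _ ((LinearMap.BilinMap.polar_toQuadraticMap (B := bf C.G) _ _).trans ?_)
  rw [q_e, q_e, h.apply i j]

/-- the basis of the lattice -/
noncomputable def v8 (C : Cx) : Fin 8 → C.B :=
  ![m C 0 0, m C 1 0, m C 2 0, m C 3 0, m C 0 1 * m C 2 0, m C 0 1 * m C 3 0, m C 0 2 * m C 3 0,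
    m C 1 2 * m C 3 0]

theorem inc_v8 (s : Fin 8) : inc C.G (v8 C s) = u8 (ee C) (ee C 0) s := by
  fin_cases s
  exacts [rfl, rfl, rfl, rfl, mul_assoc _ _ _, mul_assoc _ _ _, mul_assoc _ _ _, mul_assoc _ _ _]

/-- the filtration of the Clifford algebra -/
noncomputable abbrev TT (C : Cx) : ℤ → AddSubgroup (CliffordAlgebra (qf4 C.G)) :=
  T (ee C) ww (bb DD (ee C 0)) [0, 1, 2, 3]

theorem TT_smul {a : K} {d : ℤ} (ha : a ∈ AA d) : ∀ n, ∀ x ∈ TT C n, a • x ∈ TT C (n + 2 * d) :=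
  T_smul (bb_smul (D := DD) (fun _ _ _ h _ h' => AA_mul h h') ha) _

theorem TT_mul (h : Ctx C) (i : Fin 4) : ∀ n, ∀ x ∈ TT C n, ee C i * x ∈ TT C (n + ww i) := by
  refine T_mul (g := C.G) (fun i j n x hx => ?_) ee_sq (ee_swap h.symm) _ i (by fin_cases i <;> simp)
  have k := bb_smul (D := DD) (fun _ _ _ h _ h' => AA_mul h h') (h.degM i j).mem n x hx
  rwa [show n + 2 * (1 + wz i + wz j) = n + (ww i + ww j) by simp only [ww]; ring] at k

theorem mem_iff (h : Ctx C) {k : ℤ} {x : C.B} :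
    x ∈ Sp (v8 C) d8 k ↔ inc C.G x ∈ TT C (2 * k + 1) := by
  refine ⟨fun hx => ?_, fun hx => ?_⟩
  · obtain ⟨c, h1, rfl⟩ := sp.1 hx
    rw [map_sum]
    refine sum_mem fun s _ => ?_
    have k1 := TT_smul (h1 s) _ _ (u8_mem (S := TT C)
      (T_base _ _ (one_smul K (ee C 0) ▸ mem_bb (D := DD) AA_one rfl)) (TT_mul h) s)
    rwa [map_smul, inc_v8, show 2 * k + 1 = 2 * d8 s + 1 + 2 * (k - d8 s) by ring]
  · obtain ⟨y, hy, h1⟩ := T_le (D := DD)
      (N := fun k => (Sp (v8 C) d8 k).toAddSubgroup.map (inc C.G).toLinearMap.toAddMonoidHom)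
      (by
        rintro d k a ha _ ⟨y, hy, rfl⟩
        exact ⟨a • y, sp_fam _ _ _ _ a ha y hy, map_smul (inc C.G) a y⟩)
      (fun s => ⟨_, sp_mem _ _ s, inc_v8 s⟩) k hx
    exact inc_inj' h1 ▸ hy

theorem m_mul (h : Ctx C) (i j : Fin 4) {k : ℤ} {x : C.B} (hx : x ∈ Sp (v8 C) d8 k) :
    m C i j * x ∈ Sp (v8 C) d8 (wz i + wz j + 1 + k) := by
  rw [mem_iff h] at hx ⊢
  rw [map_mul, inc_m, mul_assoc,
    show 2 * (wz i + wz j + 1 + k) + 1 = 2 * k + 1 + ww j + ww i by simp only [ww]; ring]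
  exact TT_mul h i _ _ (TT_mul h j _ _ hx)

theorem stab (h : Ctx C) (j k : ℤ) : ∀ b ∈ C.O j, ∀ v ∈ Sp (v8 C) d8 k,
    b • v ∈ Sp (v8 C) d8 (j + k) := by
  let S : ℤ → Submodule ℂ C.B := fun j => ⨅ k, ⨅ v ∈ Sp (v8 C) d8 k,
    (Sp (v8 C) d8 (j + k)).comap (LinearMap.mulRight ℂ v)
  have hS : ∀ j b, b ∈ S j ↔ ∀ k, ∀ v ∈ Sp (v8 C) d8 k, b * v ∈ Sp (v8 C) d8 (j + k) := by
    intro j b
    simp only [S, Submodule.mem_iInf, Submodule.mem_comap, LinearMap.mulRight_apply]
  refine fun b hb => (hS j b).1 (h.tab.ind S (fun d k a ha x hx => (hS _ _).2 fun l v hv => ?_)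
    ((hS _ _).2 fun l v hv => ?_) (fun i j k x hx => (hS _ _).2 fun l v hv => ?_) j hb) k
  · rw [smul_mul_assoc, add_assoc]
    exact sp_fam _ _ _ _ a ha _ ((hS _ _).1 hx l v hv)
  · rwa [one_mul, zero_add]
  · rw [inv_one, one_smul, mul_assoc, add_assoc]
    exact m_mul h i j ((hS _ _).1 hx l v hv)

theorem span_top (h : Ctx C) : ⊤ ≤ Submodule.span K (Set.range (v8 C)) := by
  intro b _
  obtain ⟨k, y, y0, hy⟩ := h.tab.lat.full b
  obtain ⟨c, -, hc⟩ := sp.1 (stab h _ _ _ hy _ (sp_mem (v8 C) d8 0))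
  have k0 : C.G 0 0 ≠ 0 := fun h0 => by
    have k1 := congrFun (C.aniso (e4 0) (by simpa [e4] using h0)) 0
    simp [e4] at k1
  have k1 : v8 C 0 = algebraMap K C.B (C.G 0 0) :=
    inc_inj' ((ee_sq 0).trans ((inc C.G).commutes _).symm)
  rw [k1, smul_eq_mul, ← Algebra.commutes, ← Algebra.smul_def, smul_smul] at hc
  rw [← Submodule.smul_mem_iff _ (mul_ne_zero k0 y0), ← hc]
  exact Submodule.sum_mem _ fun i _ => Submodule.smul_mem _ _ (Submodule.subset_span ⟨i, rfl⟩)

theorem li8 (h : Ctx C) : LinearIndependent K (v8 C) :=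
  linearIndependent_of_top_le_span_of_card_eq_finrank (span_top h) (by rw [h.alg.rank]; rfl)

theorem one_mem (C : Cx) : (1 : C.B) ∈ C.O 0 := sp_mem C.o oz 0

theorem li_o (h : Ctx C) : LinearIndependent K C.o := by
  refine h.alg.li 1 e4 one_ne_zero ?_
  have k : Matrix.of e4 = 1 := by
    ext i j
    simp [e4, Pi.single_apply, Matrix.one_apply, eq_comm]
  rw [k, Matrix.det_one]
  exact one_ne_zero

/-- the sum of two lattices -/
noncomputable def sumL (X Y : OL C) : OL C where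
  V := X.V × Y.V
  F k := (X.F k).prod (Y.F k)
  lat := lat_prod X.lat Y.lat
  stab j k b hb _ hv := ⟨X.stab j k b hb _ hv.1, Y.stab j k b hb _ hv.2⟩

end O1N

open HomN O1N

theorem o1 : stO1 := fun C h =>
  ⟨{ V := C.B
     F := Sp (v8 C) d8
     lat := lat_Sp (li8 h) (top_le_iff.1 (span_top h)) _
     stab := stab h }, h.alg.rank, hp_sp (li8 h) d8 fun k => by
      simp [Fin.sum_univ_eight, d8]
      ring⟩

theorem sum (hH : stHOM) (hX : stHPX) : stSUM := by
  intro C h X Y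
  refine ⟨sumL X Y, ⟨LinearEquiv.refl _ _, fun _ _ => Iff.rfl⟩, Module.finrank_prod, ?_, fun W => ?_⟩
  · refine (hp_eq (hp_add (fun k => ?_) (hX _ _ X.lat) (hX _ _ Y.lat))).1
    have := X.lat.fg.finite k
    have := Y.lat.fg.finite k
    exact rank_of (LinearEquiv.refl ℂ _) fun _ _ => Iff.rfl
  · have := fd_hom W X
    have := fd_hom W Y
    refine (hp_eq (hp_add (fun k => ?_) (hX _ _ (hH C h W X).1) (hX _ _ (hH C h W Y).1))).2
    have := (hH C h W X).1.fg.finite k
    have := (hH C h W Y).1.fg.finite k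
    exact rank_of (LinearMap.prodEquiv ℂ) fun a b =>
      ⟨fun hz => ⟨fun j v hv => (hz j v hv).1, fun j v hv => (hz j v hv).2⟩,
        fun hz j v hv => ⟨hz.1 j v hv, hz.2 j v hv⟩⟩

theorem iso : stISO := by
  intro C h
  refine ⟨fun m => ⟨{ V := C.B
                      F := sh C.O (-m)
                      lat := h.tab.lat.sh _
                      stab := fun j k b hb v hv => ?_ }, LinearEquiv.refl _ _, fun _ _ => Iff.rfl⟩,
    ?_⟩
  · exact mem_cast (L := C.O) (h.tab.mul _ _ b hb v hv) (add_assoc _ _ _).symm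
  · rintro P m ⟨φ, hφ⟩
    have h1 : φ.symm 1 ∈ P.F m := by
      rw [hφ, φ.apply_symm_apply, sub_self]
      exact one_mem C
    refine ⟨(φ.restrictScalars K).finrank_eq.trans h.alg.rank, ?_, fun Y => chi_congr fun k => ?_⟩
    · refine (hp_iff (N := Sp C.o fun i => oz i + m) (fun k => ?_) _ _ _).2
        (hp_sp (li_o h) _ fun k => ?_)
      · refine ((φ.restrictScalars ℂ).ofSubmodules _ _ (Submodule.ext fun b => ?_)).finrank_eq
        rw [Submodule.mem_map_equiv, hφ]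
        simp only [LinearEquiv.restrictScalars_symm_apply, LinearEquiv.apply_symm_apply, L.Ord, sp,
          sub_sub, add_comm m]
      · simp [Fin.sum_univ_eight, od, wz]
        ring
    · let T : (P.V →ₗ[C.B] Y.V) →ₗ[ℂ] Y.V :=
        ⟨⟨fun ψ => ψ (φ.symm 1), fun _ _ => rfl⟩, fun _ _ => rfl⟩
      have hT : Function.Injective T := fun ψ ψ' e => LinearMap.ext fun v => by
        have k1 : v = φ v • φ.symm 1 := by rw [← map_smul, smul_eq_mul, mul_one, φ.symm_apply_apply]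
        rw [k1, map_smul ψ, map_smul ψ']
        exact congrArg _ e
      rw [(Submodule.equivMapOfInjective T hT _).finrank_eq]
      refine congrArg (fun s : Submodule ℂ Y.V => finrank ℂ s) (Submodule.ext fun y => ⟨?_, ?_⟩)
      · rintro ⟨ψ, hψ, rfl⟩
        exact mem_cast (L := Y.F) (hψ m _ h1) (add_comm _ _)
      · refine fun hy => ⟨LinearMap.toSpanSingleton C.B Y.V y ∘ₗ φ.toLinearMap,
          fun j v hv => ?_, by simp [T]⟩
        exact mem_cast (L := Y.F) (Y.stab _ _ _ ((hφ j v).1 hv) y hy) (by ring)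

end Vale.Agent.P287Z.N
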