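import Vale.Agent.P287Z.N.Iso

/-!
Free lattices, lattices of relations, generators of the kernel of a character.
-/

namespace Vale.Agent.P287Z.N

open MvPolynomial Module Filter Matrix Vale.Agent.P287 Vale.Agent.P287.Theta Vale.Agent.P287Z.L
open Vale.Agent.P287Z.L.HomA (fg_pi full_fin fg_ind)

namespace KerN

section gen

variable {V : Type} [AddCommGroup V] [Module ℂ V] [Module K V] [IsScalarTower ℂ K V]
variable {L : ℤ → Submodule ℂ V}

omit [IsScalarTower ℂ K V] in
theorem fam_pi (h : Fam L) (ι : Type) (m : ℤ) :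
    Fam fun k => Submodule.pi Set.univ fun _ : ι => L (k - m) :=
  fun _ _ _ ha _ hv i _ => h.smul ha (hv i trivial) (add_sub_assoc _ _ _).symm

theorem lat_pi (h : Lat L) (ι : Type) [Fintype ι] (m : ℤ) :
    Lat fun k => Submodule.pi Set.univ fun _ : ι => L (k - m) := by
  refine ⟨fam_pi h.fam ι m, ?_, fun v => ?_, fun k v hv i _ => h.refl _ _ fun g hg => ?_⟩
  · simpa only [neg_add_eq_sub] using fg_pi h.fam h.fg fun _ : ι => -m
  · obtain ⟨d, k, y, y0, -, hy⟩ := full_fin h.fam h.full v fun _ => -m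
    exact ⟨k, y, y0, fun i _ => mem_cast (hy i k le_rfl) (neg_add_eq_sub _ _)⟩
  · obtain ⟨d, y, k1, k2⟩ := hv g hg
    exact ⟨d, y, k1, mem_cast (k2 i trivial) (add_sub_assoc _ _ _)⟩

/-- a finitely generated family is generated by one degree in large degrees -/
theorem one_deg (h : FG L) (m₀ : ℤ) : ∃ (m : ℤ) (n : ℕ) (g : Fin n → V), m₀ ≤ m ∧
    (∀ i, g i ∈ L m) ∧ ∀ k, m ≤ k → L k ≤ Sp g (fun _ => m) k := by
  have hL := h.fam
  obtain ⟨r, u, e, hu⟩ := id h
  obtain ⟨b, hb⟩ := (Set.finite_range e).bddAbove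
  have := h.finite (max m₀ b)
  obtain ⟨n, g, hg⟩ := Submodule.fg_iff_exists_fin_generating_family.1
    (Submodule.FG.of_finite (N := L (max m₀ b)))
  refine ⟨max m₀ b, n, g, le_max_left _ _, fun i => hg ▸ Submodule.subset_span ⟨i, rfl⟩, ?_⟩
  have key : ∀ k, max m₀ b ≤ k → ∀ i, ∀ a ∈ AA (k - e i),
      a • u i ∈ Sp g (fun _ => max m₀ b) k := by
    intro k hk
    induction k, hk using Int.leInduction with
    | base =>
      intro i a ha
      have h1 : a • u i ∈ L (max m₀ b) := hL.smul ha (hu.mem i) (sub_add_cancel _ _)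
      rw [← hg] at h1
      refine Submodule.span_le.2 ?_ h1
      rintro _ ⟨j, rfl⟩
      exact self_mem_Sp g (fun _ => max m₀ b) j
    | succ k hk ih =>
      intro i a ha
      have h1 : e i ≤ b := hb ⟨i, rfl⟩
      have h2 := le_max_right m₀ b
      obtain ⟨c, h3, rfl⟩ := AA_comb ha (by omega)
      rw [Finset.sum_smul]
      refine Submodule.sum_mem _ fun j _ => ?_
      rw [mul_smul]
      exact (fam_Sp _ _).smul (tvec_mem j) (ih i _ (AA_cast (h3 j) (by ring))) (add_comm _ _)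
  intro k hk v hv
  rw [hu k] at hv
  obtain ⟨c, h1, rfl⟩ := mem_Sp.1 hv
  exact Submodule.sum_mem _ fun i _ => key k hk i _ (h1 i)

end gen

variable {C : Cx}

/-- the free lattice -/
noncomputable def frL (h : Ctx C) (ι : Type) [Fintype ι] (m : ℤ) : OL C where
  V := ι → C.B
  F k := Submodule.pi Set.univ fun _ => C.O (k - m)
  lat := lat_pi h.tab.lat ι m
  stab _ _ b hb _ hv i _ :=
    mem_cast (L := C.O) (h.tab.mul _ _ b hb _ (hv i trivial)) (add_sub_assoc _ _ _).symm

/-- the order as a lattice -/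
noncomputable def oL (h : Ctx C) : OL C where
  V := C.B
  F := C.O
  lat := h.tab.lat
  stab := h.tab.mul

/-- the saturated sublattice in a submodule -/
noncomputable def subL (hN : stNOETH) (X : OL C) (S : Submodule C.B X.V) : OL C :=
  have := FiniteDimensional.of_injective (S.subtype.restrictScalars K) S.injective_subtype
  have f := X.lat.fam.comap (S.subtype.restrictScalars K)
  { V := S
    F k := (X.F k).comap (S.subtype.restrictScalars ℂ)
    lat := ⟨f, FG.of_map (S.subtype.restrictScalars K) S.injective_subtype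
        (hN _ _ _ X.lat.fg (f.map _) fun _ => Submodule.map_comap_le _ _),
      fun v => X.lat.full v.1, X.lat.refl.comap (S.subtype.restrictScalars K)⟩
    stab j k b hb v hv := X.stab j k b hb v.1 hv }

theorem chr_smul {p : Fin 3 → ℂ} {χ : ℤ → C.B →ₗ[ℂ] ℂ} (hχ : Chr C.O p χ) {d k : ℤ} {a : K}
    (ha : a ∈ AA d) {x : C.B} (hx : x ∈ C.O k) (h0 : χ k x = 0) : χ (d + k) (a • x) = 0 := by
  obtain ⟨g, hg, rfl⟩ := mem_AA.1 ha
  rw [hχ.smul d k g hg x hx, h0, mul_zero]

end KerN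

open KerN

theorem ker (hN : stNOETH) : stKER := by
  intro C h
  refine ⟨fun ι _ m g => ?_, fun ι _ m => ⟨frL h ι m, LinearEquiv.refl _ _,
    fun k v => ⟨fun hv i => hv i trivial, fun hv i _ => hv i⟩⟩, fun p χ hχ m₀ => ?_⟩
  · let S : Submodule C.B (ι → C.B) := LinearMap.ker (Fintype.linearCombination C.B g)
    refine ⟨subL hN (frL h ι m) S, S.subtype, S.injective_subtype, fun x => ?_,
      fun k v => ⟨fun hv i => hv i trivial, fun hv i _ => hv i⟩⟩
    exact ⟨fun ⟨v, hv⟩ => hv ▸ v.2, fun hx => ⟨⟨x, hx⟩, rfl⟩⟩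
  · have hf : Fam fun k => C.O k ⊓ LinearMap.ker (χ k) := fun d k a ha x hx =>
      ⟨h.tab.lat.fam _ _ a ha x hx.1, chr_smul hχ ha hx.1 hx.2⟩
    obtain ⟨m, n, g, h1, h2, h3⟩ := one_deg (hN _ _ _ h.tab.lat.fg hf fun _ => inf_le_left) m₀
    refine ⟨m, n, g, h1, h2, fun k hk x hx h0 => ?_⟩
    obtain ⟨c, h4, h5⟩ := mem_Sp.1 (h3 k hk (x := x) ⟨hx, h0⟩)
    refine ⟨fun i => c i • 1, fun i => h.tab.lat.fam.smul (h4 i) (O1N.one_mem C) (add_zero _), ?_⟩
    simp only [smul_mul_assoc, one_mul, h5]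

end Vale.Agent.P287Z.N
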