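import Vale.Agent.P287Z.N.Sk2
import Vale.Agent.P287Z.L.Spl

/-!
The relation between the three entries of the block at a node.
-/

namespace Vale.Agent.P287Z.N

open MvPolynomial Module Filter Matrix Vale.Agent.P287 Vale.Agent.P287.Theta Vale.Agent.P287Z.L

namespace MuA

theorem root (a b c : ℂ) :
    ∃ s t : ℂ, (s ≠ 0 ∨ t ≠ 0) ∧ s ^ 2 * a + 2 * s * t * b + t ^ 2 * c = 0 := by
  by_cases ha : a = 0
  · exact ⟨1, 0, Or.inl one_ne_zero, by rw [ha]; ring⟩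
  · obtain ⟨r, hr⟩ := IsAlgClosed.exists_eq_mul_self (b ^ 2 - a * c)
    exact ⟨r - b, a, Or.inr ha, by linear_combination (-a) * hr⟩

theorem res (u₁ u₂ u₃ v₁ v₂ v₃ : ℂ)
    (h : 4 * (u₂ * v₃ - u₃ * v₂) * (u₁ * v₂ - u₂ * v₁) - (u₃ * v₁ - u₁ * v₃) ^ 2 = 0) :
    ∃ s t : ℂ, (s ≠ 0 ∨ t ≠ 0) ∧ s ^ 2 * u₁ + 2 * s * t * u₂ + t ^ 2 * u₃ = 0 ∧
      s ^ 2 * v₁ + 2 * s * t * v₂ + t ^ 2 * v₃ = 0 := by
  by_cases h1 : u₂ * v₃ - u₃ * v₂ = 0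
  · by_cases h3 : u₁ * v₂ - u₂ * v₁ = 0
    · have h2 : u₃ * v₁ - u₁ * v₃ = 0 := by
        rw [h1, mul_zero, zero_mul, zero_sub, neg_eq_zero] at h
        exact pow_eq_zero_iff two_ne_zero |>.1 h
      by_cases k : u₁ = 0 ∧ u₂ = 0 ∧ u₃ = 0
      · obtain ⟨s, t, a, b⟩ := root v₁ v₂ v₃
        exact ⟨s, t, a, by rw [k.1, k.2.1, k.2.2]; ring, b⟩
      · obtain ⟨s, t, a, b⟩ := root u₁ u₂ u₃
        refine ⟨s, t, a, b, ?_⟩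
        by_contra c
        refine k ⟨mul_left_cancel₀ c ?_, mul_left_cancel₀ c ?_, mul_left_cancel₀ c ?_⟩
        · linear_combination v₁ * b + 2 * s * t * h3 - t ^ 2 * h2
        · linear_combination v₂ * b - s ^ 2 * h3 + t ^ 2 * h1
        · linear_combination v₃ * b + s ^ 2 * h2 - 2 * s * t * h1
    · exact ⟨u₃ * v₁ - u₁ * v₃, 2 * (u₁ * v₂ - u₂ * v₁), Or.inr (mul_ne_zero two_ne_zero h3),
        by linear_combination (-u₁) * h, by linear_combination (-v₁) * h⟩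
  · exact ⟨2 * (u₂ * v₃ - u₃ * v₂), u₃ * v₁ - u₁ * v₃, Or.inl (mul_ne_zero two_ne_zero h1),
      by linear_combination (-u₃) * h, by linear_combination (-v₃) * h⟩

theorem ll_p {p : Fin 3 → ℂ} {i : Fin 3} (hi : p i ≠ 0) (a : Fin 2) :
    eval p (Spl.ll p i a) = 0 := by
  rw [Spl.ll, map_sub, map_mul, eval_X, eval_X, eval_C, div_mul_cancel₀ _ hi, sub_self]

theorem der {p : Fin 3 → ℂ} {l₀ l₁ U W : P3} (h₀ : eval p l₀ = 0) (h₁ : eval p l₁ = 0)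
    (hU : eval p U = 0) (hW : eval p W = 0) (k : Fin 3) :
    eval p (pderiv k (l₀ * U + l₁ * W)) = 0 := by
  simp only [map_add, pderiv_mul, map_mul, h₀, h₁, hU, hW, mul_zero, zero_mul, add_zero]

end MuA

open MuA in
theorem mu : stMU := by
  intro p D A₁ A₂ A₃ hp h₁ h₂ h₃ z₁ z₂ z₃ hg
  obtain ⟨i, hi⟩ := Function.ne_iff.1 hp
  have hi' : p i ≠ 0 := hi
  obtain ⟨g₁, d₁, e₁⟩ := Spl.ll_ex (i := i) hi' h₁ z₁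
  obtain ⟨g₂, d₂, e₂⟩ := Spl.ll_ex (i := i) hi' h₂ z₂
  obtain ⟨g₃, d₃, e₃⟩ := Spl.ll_ex (i := i) hi' h₃ z₃
  have k₁ : Hg (D - 1 + (D - 1)) (g₂ 0 * g₃ 1 - g₃ 0 * g₂ 1) :=
    ((d₂ 0).mul (d₃ 1)).sub ((d₃ 0).mul (d₂ 1))
  have k₂ : Hg (D - 1 + (D - 1)) (g₃ 0 * g₁ 1 - g₁ 0 * g₃ 1) :=
    ((d₃ 0).mul (d₁ 1)).sub ((d₁ 0).mul (d₃ 1))
  have k₃ : Hg (D - 1 + (D - 1)) (g₁ 0 * g₂ 1 - g₂ 0 * g₁ 1) :=
    ((d₁ 0).mul (d₂ 1)).sub ((d₂ 0).mul (d₁ 1))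
  have m₁ := k₁.add k₁
  have m₃ := k₃.add k₃
  have hy : eval p ((g₂ 0 * g₃ 1 - g₃ 0 * g₂ 1 + (g₂ 0 * g₃ 1 - g₃ 0 * g₂ 1)) *
      (g₁ 0 * g₂ 1 - g₂ 0 * g₁ 1 + (g₁ 0 * g₂ 1 - g₂ 0 * g₁ 1)) -
      (g₃ 0 * g₁ 1 - g₁ 0 * g₃ 1) ^ 2) ≠ 0 := by
    intro h0
    simp only [map_sub, map_mul, map_add, map_pow] at h0
    obtain ⟨s, t, a, b, c⟩ := res (eval p (g₁ 0)) (eval p (g₂ 0)) (eval p (g₃ 0))
      (eval p (g₁ 1)) (eval p (g₂ 1)) (eval p (g₃ 1)) (by linear_combination h0)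
    obtain ⟨k, hk⟩ := hg s t a
    refine hk ?_
    have e : C (s ^ 2) * A₁ + C (2 * s * t) * A₂ + C (t ^ 2) * A₃ =
        Spl.ll p i 0 * (C (s ^ 2) * g₁ 0 + C (2 * s * t) * g₂ 0 + C (t ^ 2) * g₃ 0) +
        Spl.ll p i 1 * (C (s ^ 2) * g₁ 1 + C (2 * s * t) * g₂ 1 + C (t ^ 2) * g₃ 1) := by
      linear_combination C (s ^ 2) * e₁ + C (2 * s * t) * e₂ + C (t ^ 2) * e₃
    rw [e]
    refine der (ll_p hi' 0) (ll_p hi' 1) ?_ ?_ k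
    · simpa only [map_add, map_mul (eval p), eval_C] using b
    · simpa only [map_add, map_mul (eval p), eval_C] using c
  refine ⟨⟨_, _, _, _, m₁, k₂, m₃, ?_, hy⟩, 4 * D - 4, _,
    ((m₁.mul m₃).cast (by ring)).sub ((k₂.pow 2).cast (by push_cast; ring)), hy,
    fun k g dg zg => ?_⟩
  · linear_combination (2 * (g₂ 0 * g₃ 1 - g₃ 0 * g₂ 1)) * e₁ +
      (2 * (g₃ 0 * g₁ 1 - g₁ 0 * g₃ 1)) * e₂ + (2 * (g₁ 0 * g₂ 1 - g₂ 0 * g₁ 1)) * e₃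
  · obtain ⟨w, dw, ew⟩ := Spl.ll_ex (i := i) hi' dg zg
    have q := ((dw 1).mul (d₁ 0)).sub ((dw 0).mul (d₁ 1))
    refine ⟨_, _, _,
      (((dw 0).mul (((m₁.add m₁).mul (d₂ 1)).add (k₂.mul (d₃ 1)))).sub
        ((dw 1).mul (((m₁.add m₁).mul (d₂ 0)).add (k₂.mul (d₃ 0))))).cast (by ring),
      ((m₁.add m₁).mul q).cast (by ring), (k₂.mul q).cast (by ring), ?_⟩
    rw [ew]
    set l₀ := Spl.ll p i 0
    set l₁ := Spl.ll p i 1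
    rw [e₁, e₂, e₃]
    ring

end Vale.Agent.P287Z.N
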