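import Vale.Agent.P287Z.N.Sk
import Vale.Agent.P287Z.V.Wt

/-!
The rational end given by a net of quadrics.
-/

namespace Vale.Agent.P287Z.N

open Module Matrix MvPolynomial Filter Vale.Agent.P287 Vale.Agent.P287.Theta Vale.Agent.P287.H925

theorem net : stNET := by
  rintro C ν hν ⟨Q, c, hc, ψ, hψ⟩
  refine NetResult.net_result _ (cubicOf_homogeneous C.M C.deg) C.smooth (qM C.M) (fun w => by
    rw [qM_apply, aeval_wvec_cubicOf C.M C.deg]) Q ?_
  let τ : (Fin 4 → RatK) ≃ₗ[RatK] (Fin 4 → RatK) := LinearEquiv.funCongrLeft RatK RatK perm4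
  refine ⟨c * ν⁻¹, mul_ne_zero hc (inv_ne_zero hν), (τ.prodCongr
    ((LinearEquiv.smulOfNeZero RatK RatK ν⁻¹ (inv_ne_zero hν)).prodCongr
      (LinearEquiv.refl RatK RatK))).trans ψ, fun v a b => ?_⟩
  refine (hψ (v ∘ perm4) (ν⁻¹ * a) b).trans ?_
  rw [qM_apply, smul_mulVec, dotProduct_smul, smul_eq_mul, mul_assoc ν⁻¹, ← mul_add, mul_assoc]
  rfl

end Vale.Agent.P287Z.N
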