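import Vale.Agent.P287Z.N.OlmA

/-!
The parity argument when the discriminant curve has nodes.
-/

namespace Vale.Agent.P287Z.N

open MvPolynomial Module Filter Matrix Vale.Agent.P287 Vale.Agent.P287.Theta Vale.Agent.P287Z.L
open L.Olm (zo f2 cast_eq dvd_of_cast)

namespace Olm

variable {C : Cx} {r : ℕ} {ν : Fin r → ND C}

/-- induction on the defect of the multiplicities at the nodes -/
lemma ind (H : Hyp) (hC : Ctx C) (hν : Sys C ν) (Pr : OL C → ℕ → Prop)
    (h0 : ∀ X a, rk X = 8 * a → Nm ν X a → Pr X a)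
    (h1 : ∀ X a i s L b S, rk X = 8 * a → IsL ν i s L b → Sm ν S X L → Pr S (a + 2 * b) →
      Pr X a) (X : OL C) (a : ℕ) (hX : rk X = 8 * a) : Pr X a := by
  generalize hd : ∑ t : Fin r × Bool, (a - (ty ((ν t.1).χ t.2) X + 1)) = d
  induction d using Nat.strong_induction_on generalizing X a with
  | _ d ih =>
  by_cases hN : Nm ν X a
  · exact h0 X a hX hN
  · obtain ⟨i, hi⟩ := not_forall.1 hN
    obtain ⟨s, hs⟩ := not_forall.1 hi
    obtain ⟨L, b, hL⟩ := ex_L H hC hν i s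
    obtain ⟨S, hS⟩ := ex_sum H hC ν X L
    refine h1 X a i s L b S hX hL hS (ih _ ?_ S _ (by rw [hS.h1, hX, hL.h1]; ring) rfl)
    rw [← hd]
    refine Finset.sum_lt_sum (fun t _ => ?_) ⟨(i, s), Finset.mem_univ _, ?_⟩
    · obtain ⟨j, s'⟩ := t
      rw [hS.h4]
      by_cases hj : j = i
      · subst hj
        have t1 := ty_two H hC (ν j) s X hX
        have t2 := hL.h5
        have t3 := hL.h6
        by_cases h : s' = s
        · subst h
          dsimp only
          omega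
        · obtain rfl : s' = !s := Bool.eq_not.2 h
          dsimp only
          omega
      · have := hL.h7 j hj s'
        dsimp only
        omega
    · rw [hS.h4]
      have := hL.h5
      dsimp only
      omega

lemma evens (H : Hyp) (hC : Ctx C) (hn : ¬ C.Rat) (hν : Sys C ν) (X : OL C) :
    2 ∣ c1 X.F ∧ 2 ∣ eu X X := by
  obtain ⟨a, ha⟩ := (H.hom C hC X X).2.2.1
  refine ind H hC hν (fun X _ => 2 ∣ c1 X.F ∧ 2 ∣ eu X X) (fun X a ha hN => ?_)
    (fun X a i s L b S _ hL hS h => ?_) X a ha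
  · obtain ⟨P, hP⟩ := (H.iso C hC).1 0
    obtain ⟨p1, p2, -⟩ := (H.iso C hC).2 P 0 hP
    obtain ⟨S, s1, s2, s3, s4⟩ := ex_sum H hC ν X P
    obtain ⟨e, e1, e2, -, ⟨t, e4⟩⟩ := reduce H hC hn hν a S (by omega) fun i s => by
      rw [s4, ty_O H hC _ s hP]
      exact Nat.succ_le_succ (hN i s)
    obtain ⟨l, hl, ⟨s, hs⟩, -⟩ := rank_one H hC hn e e1
    have h1 := eu_sum H hC s3
    rw [eu_OO H hC hP] at h1
    rw [p2.c1_eq] at s2
    refine ⟨by omega, ⟨2 * t + s + a * (1 + chi e.F) - 1 - eu X P, ?_⟩⟩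
    linear_combination e4 + hs - h1
  · have h1 := eu_sum H hC hS.h3
    have h2 := hS.h2
    have h3 := hL.h2
    have h4 := hL.h3
    omega

lemma red (H : Hyp) (hC : Ctx C) (hn : ¬ C.Rat) (hν : Sys C ν) (X : OL C) (a : ℕ)
    (ha : rk X = 8 * a) (hN : Nm ν X a) (ho : a % 2 = 1) :
    (4 ∣ c1 X.F → 4 ∣ eu X X - 2) ∧ (4 ∣ c1 X.F - 2 → ∃ E : OL C, GoodE E) := by
  obtain ⟨t, rfl⟩ : ∃ t, a = 2 * t + 1 := ⟨a / 2, by omega⟩
  obtain ⟨e, e1, e2, -, ⟨s, e4⟩⟩ := reduce H hC hn hν _ X ha hN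
  obtain ⟨l, hl, -, h3, h4⟩ := rank_one H hC hn e e1
  refine ⟨fun h => ?_, fun h => h4 (by rw [Int.even_iff]; omega)⟩
  obtain ⟨u, hu⟩ := h3 (by rw [Int.odd_iff]; omega)
  refine ⟨s + t * (1 + chi e.F) + u, ?_⟩
  push_cast at e4
  linear_combination e4 + hu

lemma case_A (H : Hyp) (hC : Ctx C) (hn : ¬ C.Rat) (hν : Sys C ν) (X : OL C) (a : ℕ)
    (ha : rk X = 8 * a) (ho : a % 2 = 1) (h4 : 4 ∣ c1 X.F) : 4 ∣ eu X X - 2 := by
  refine (ind H hC hν (fun X a => a % 2 = 1 → 4 ∣ c1 X.F → 4 ∣ eu X X - 2 ∧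
    ∀ i s, ty ((ν i).χ s) X % 2 = 1) (fun X a ha hN ho h4 => ?_)
    (fun X a i s L b S ha hL hS h ho h4 => ?_) X a ha ho h4).1
  · have k1 := (red H hC hn hν X a ha hN ho).1 h4
    have key : ∀ i s, ty ((ν i).χ s) X + 1 ≠ a := by
      intro i s hs
      obtain ⟨L, b, hL⟩ := ex_L H hC hν i s
      obtain ⟨S, hS⟩ := ex_sum H hC ν X L
      have h1 := eu_sum H hC hS.h3
      have h2 := hS.h2
      have h3 := hL.h2
      have h5 := hL.h3
      have h6 := hL.h4 X (by omega)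
      have h7 := (red H hC hn hν S (a + 2 * b) (by rw [hS.h1, ha, hL.h1]; ring)
        (fun j s' => ?_) (by omega)).1 (by omega)
      · omega
      rw [hS.h4]
      by_cases hj : j = i
      · subst hj
        have t1 := ty_two H hC (ν j) s X ha
        have t2 := hL.h5
        have t3 := hL.h6
        by_cases h : s' = s
        · subst h
          omega
        · obtain rfl : s' = !s := Bool.eq_not.2 h
          omega
      · have := hL.h7 j hj s'
        have := hN j s'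
        omega
    refine ⟨k1, fun i s => ?_⟩
    have t1 := ty_two H hC (ν i) s X ha
    have t2 := key i s
    have t3 := key i (!s)
    have t4 := hN i s
    have t5 := hN i (!s)
    omega
  · have h1 := eu_sum H hC hS.h3
    have h2 := hS.h2
    have h3 := hL.h2
    have h5 := hL.h3
    have h6 := hL.h4 X (by omega)
    obtain ⟨k1, k2⟩ := h (by omega) (by omega)
    have k3 : ∀ j s', ty ((ν j).χ s') X % 2 = 1 := by
      intro j s'
      have := k2 j s'
      rw [hS.h4] at this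
      by_cases hj : j = i
      · subst hj
        have t2 := hL.h5
        have t3 := hL.h6
        by_cases h : s' = s
        · subst h
          omega
        · obtain rfl : s' = !s := Bool.eq_not.2 h
          omega
      · have := hL.h7 j hj s'
        omega
    have := k3 i s
    exact ⟨by omega, k3⟩

lemma case_B (H : Hyp) (hC : Ctx C) (hn : ¬ C.Rat) (hν : Sys C ν) (X : OL C) (a : ℕ)
    (ha : rk X = 8 * a) (ho : a % 2 = 1) (h4 : 4 ∣ c1 X.F - 2) : ∃ E : OL C, GoodE E := by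
  refine ind H hC hν (fun X a => a % 2 = 1 → 4 ∣ c1 X.F - 2 → ∃ E : OL C, GoodE E)
    (fun X a ha hN ho h4 => (red H hC hn hν X a ha hN ho).2 h4)
    (fun X a i s L b S ha hL hS h ho h4 => ?_) X a ha ho h4
  have h2 := hS.h2
  have h3 := hL.h2
  exact h (by omega) (by omega)

lemma comb_one (H : Hyp) (hC : Ctx C) (X : OL C) (n : ℕ) (S : OL C) :
    ∃ S' : OL C, ∀ W, eu W S' = eu W S + n * eu W X := by
  induction n with
  | zero => exact ⟨S, fun W => by simp⟩
  | succ n ih =>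
    obtain ⟨S', h⟩ := ih
    obtain ⟨S'', -, -, -, h'⟩ := H.sum C hC S' X
    exact ⟨S'', fun W => by rw [h', h]; push_cast; ring⟩

lemma comb (H : Hyp) (hC : Ctx C) {ι : Type} (X : ι → OL C) (v : ι → ℤ) (s : Finset ι) :
    ∃ S : OL C, ∀ W, 4 ∣ eu W S - ∑ i ∈ s, v i * eu W (X i) := by
  classical
  induction s using Finset.induction_on with
  | empty =>
    obtain ⟨P, -⟩ := (H.iso C hC).1 0
    obtain ⟨S, h⟩ := comb_one H hC P 3 P
    exact ⟨S, fun W => ⟨eu W P, by rw [h, Finset.sum_empty]; push_cast; ring⟩⟩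
  | insert i s hi ih =>
    obtain ⟨S, h⟩ := ih
    obtain ⟨S', h'⟩ := comb_one H hC (X i) (v i % 4).toNat S
    refine ⟨S', fun W => ?_⟩
    obtain ⟨t, ht⟩ := h W
    refine ⟨t - v i / 4 * eu W (X i), ?_⟩
    rw [h', Finset.sum_insert hi, Int.toNat_of_nonneg (Int.emod_nonneg _ (by norm_num))]
    linear_combination ht + eu W (X i) * Int.emod_add_mul_ediv (v i) 4

theorem core (H : Hyp) (hC : Ctx C) (hn : ¬ C.Rat) (v w : OL C) (hv : 4 ∣ eu v v)
    (hw : Odd (eu w v)) : False := by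
  obtain ⟨r, z, z1, z2, z3⟩ := hC.nodal.fin
  choose ν hν using fun i => hC.nd (z i) (z1 i)
  have hS : Sys C ν := ⟨fun i => (hν i).symm ▸ z1 i, fun i j c h => z2 i j c (by
    rwa [hν, hν] at h), fun p hp => by simpa only [hν] using z3 p hp⟩
  choose add s0 s1 s2 s3 using H.sum C hC
  have h8 : ∀ X : OL C, 8 ∣ rk X := fun X => (H.hom C hC X X).2.2.1
  choose a ha using h8
  choose ρ hρ using fun X : OL C => (evens H hC hn hS X).1
  choose q hq using fun X : OL C => (evens H hC hn hS X).2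
  obtain ⟨P, hP⟩ := (H.iso C hC).1 0
  obtain ⟨p1, p2, -⟩ := (H.iso C hC).2 P 0 hP
  obtain ⟨P₁, r1, r2⟩ := H.o1 C hC
  have one : ∀ X : OL C, rk X = 8 → a X = 1 := fun X h => by have := ha X; omega
  have odd : ∀ X : OL C, (((a X : ℕ) : ℤ) : ZMod 2) = 1 → a X % 2 = 1 := by
    intro X hX
    have := dvd_of_cast (y := 1) (by rw [hX, Int.cast_one])
    omega
  have hAA : ∀ X : OL C, (((a X : ℕ) : ℤ) : ZMod 2) = 1 → (ρ X : ZMod 2) = 0 →
      (q X : ZMod 2) = 1 := by
    intro X h1 h2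
    have k4 := dvd_of_cast (y := 0) (by rw [h2, Int.cast_zero])
    have k3 := hρ X
    have k5 := case_A H hC hn hS X _ (ha X) (odd X h1) (by omega)
    have := hq X
    rw [← Int.cast_one]
    exact cast_eq (by omega)
  have hQ : ∀ X Y, (q (add X Y) : ZMod 2) = q X + q Y + eu X Y := by
    intro X Y
    have h1 := eu_sum H hC (s3 X Y)
    rw [hq, hq X, hq Y] at h1
    rw [← Int.cast_add, ← Int.cast_add]
    exact cast_eq (by omega)
  have hA : ∀ X Y, (((a (add X Y) : ℕ) : ℤ) : ZMod 2) = ((a X : ℕ) : ℤ) + ((a Y : ℕ) : ℤ) := by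
    intro X Y
    have h1 := s1 X Y
    rw [ha, ha X, ha Y] at h1
    rw [← Int.cast_add]
    exact cast_eq (by omega)
  have hR : ∀ X Y, (ρ (add X Y) : ZMod 2) = ρ X + ρ Y := by
    intro X Y
    have h1 := s2 X Y
    rw [hρ, hρ X, hρ Y] at h1
    rw [← Int.cast_add]
    exact cast_eq (by omega)
  have aP : (((a P : ℕ) : ℤ) : ZMod 2) = 1 := by rw [one P p1]; rfl
  have aP₁ : (((a P₁ : ℕ) : ℤ) : ZMod 2) = 1 := by rw [one P₁ r1]; rfl
  have ρP : (ρ P : ZMod 2) = 0 := by
    have := hρ P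
    rw [p2.c1_eq] at this
    rw [← Int.cast_zero]
    exact cast_eq (by omega)
  have ρP₁ : (ρ P₁ : ZMod 2) = 0 := by
    have := hρ P₁
    rw [r2.c1_eq] at this
    rw [← Int.cast_zero]
    exact cast_eq (by omega)
  refine f2 (Q := fun X => (q X : ZMod 2)) (b := fun X Y => (eu X Y : ZMod 2)) (add := add)
    (fun X => (((a X : ℕ) : ℤ) : ZMod 2)) (fun X => (ρ X : ZMod 2)) hA hR
    (fun W X Y => by rw [s3, Int.cast_add]) (fun X Y => by rw [H.symm C hC]) hQ P aP ρP
    (add P P₁) (by rw [hA, aP, aP₁]; decide) (by rw [hR, ρP, ρP₁, add_zero]) ?_ hAA ?_ v w ?_ ?_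
  · rw [hQ, hAA P aP ρP, hAA P₁ aP₁ ρP₁, eu_O H hC hP, r2.chi_eq]
    simp only [ne_eq, OfNat.ofNat_ne_zero, not_false_eq_true, zero_pow, mul_zero, add_zero,
      EuclideanDomain.zero_div]
    decide
  · intro u h1 h2
    have k4 := dvd_of_cast (y := 1) (by rw [h2, Int.cast_one])
    have k3 := hρ u
    obtain ⟨E, E1, E2, E3⟩ := case_B H hC hn hS u _ (ha u) (odd u h1) (by omega)
    refine ⟨E, by rw [one E E1]; rfl, ?_, fun Y => ?_⟩
    · have := hq E
      rw [← Int.cast_one]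
      exact cast_eq (by omega)
    · obtain ⟨t, ht⟩ := E3 Y (a Y) (ha Y)
      rw [hρ E, hρ Y] at ht
      rw [← Int.cast_mul, ← Int.cast_add]
      refine cast_eq ⟨t - ρ Y, ?_⟩
      have : 2 * (eu Y E - (a Y * ρ E + ρ Y)) = 2 * (2 * (t - ρ Y)) := by linear_combination ht
      exact mul_left_cancel₀ (by norm_num) this
  · have := hq v
    rw [← Int.cast_zero]
    exact cast_eq (by omega)
  · rw [← Int.cast_one]
    rw [Int.odd_iff] at hw
    exact cast_eq (by omega)

end Olm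

theorem olm (hX : stCTX) (H : N.Olm.Hyp) : stOLM := by
  intro C ι _ X v w hv hw
  by_contra hn
  have hC := hX C
  obtain ⟨V, hV⟩ := N.Olm.comb H hC X v Finset.univ
  obtain ⟨W, hW⟩ := N.Olm.comb H hC X w Finset.univ
  have key : ∀ (S : OL C) (s : ι → ℤ), (∀ Y, 4 ∣ eu Y S - ∑ i, s i * eu Y (X i)) →
      4 ∣ eu S V - ∑ i, ∑ j, s i * v j * eu (X i) (X j) := by
    intro S s hS
    have h1 := hS V
    have h2 : 4 ∣ ∑ i, s i * (eu (X i) V - ∑ j, v j * eu (X i) (X j)) :=
      Finset.dvd_sum fun i _ => (hV (X i)).mul_left _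
    have h3 : eu S V - ∑ i, ∑ j, s i * v j * eu (X i) (X j) =
        (eu V S - ∑ i, s i * eu V (X i)) +
          ∑ i, s i * (eu (X i) V - ∑ j, v j * eu (X i) (X j)) := by
      simp only [mul_sub, Finset.sum_sub_distrib, Finset.mul_sum, mul_assoc, H.symm C hC V]
      ring
    rw [h3]
    exact dvd_add h1 h2
  have k1 := key V v hV
  have k2 := key W w hW
  refine N.Olm.core H hC hn V W (by omega) ?_
  rw [Int.odd_iff] at hw ⊢
  omega

end Vale.Agent.P287Z.N
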