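import Vale.Agent.P287Z.N.Sk
import Vale.Agent.P287Z.L.Ort

/-!
Two anticommuting elements of the even Clifford order which are units at given points off the
nodes.
-/

namespace Vale.Agent.P287Z.N

open MvPolynomial Module Matrix Vale.Agent.P287 Vale.Agent.P287.Theta Vale.Agent.P287Z.L

namespace OrtN

open L.Ort

/-- the rank is at least three off the nodes -/
theorem adj_gd {M : Matrix (Fin 4) (Fin 4) P3} {z : Fin 3 → ℂ} (hz : Gd M.det z) :
    (M.map (eval z)).adjugate ≠ 0 := by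
  intro h0
  have ha : ∀ i j, eval z (M.adjugate i j) = 0 := fun i j => by
    have := congrFun (congrFun (RingHom.map_adjugate (eval z) M) i) j
    exact this.trans (congrFun (congrFun h0 i) j)
  have hd : (M.map (eval z)).det = 0 := by
    have := congrFun (congrFun (mul_adjugate (M.map (eval z))) 0) 0
    rw [h0, Matrix.mul_zero] at this
    simpa using this.symm
  obtain ⟨l, hl⟩ := hz.2
  refine hl ?_
  have e : M.map (eval z) * (M.adjugate.map fun p => eval z (pderiv l p)) =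
      eval z (pderiv l M.det) • (1 : Matrix (Fin 4) (Fin 4) ℂ) := by
    ext i j
    have := congrArg (fun p => eval z (pderiv l p)) (congrFun (congrFun (mul_adjugate M) i) j)
    simp only [Matrix.mul_apply, map_sum, Derivation.leibniz, smul_eq_mul, map_add, map_mul, ha,
      zero_mul, add_zero, Matrix.smul_apply, Matrix.one_apply] at this
    simp only [Matrix.mul_apply, Matrix.map_apply, Matrix.smul_apply, Matrix.one_apply, this]
    split_ifs <;> simp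
  have := congrArg Matrix.det e
  rw [det_mul, hd, zero_mul, det_smul, det_one, mul_one] at this
  exact pow_eq_zero_iff (by simp) |>.1 this.symm

theorem mm_ord {C : Cx} (H : Ctx C) {m m' : ℤ} {U U' : Fin 4 → P3} (h : HV m U) (h' : HV m' U')
    {k : ℤ} (hk : m + m' + 1 = k) : mm C.G (ev ∘ U) (ev ∘ U') ∈ C.O k := by
  subst hk
  have e : ∀ v : Fin 4 → K, v = ∑ i, v i • e4 i := fun v => by
    ext j
    simp [e4, Pi.single_apply]
  rw [e (ev ∘ U), e (ev ∘ U'), LinearMap.map_sum₂]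
  refine Submodule.sum_mem _ fun i _ => ?_
  rw [map_sum]
  refine Submodule.sum_mem _ fun j _ => ?_
  rw [map_smul, LinearMap.map_smul₂, smul_smul]
  have k := H.tab.lat.fam (m' - wz j + (m - wz i)) _ ((ev ∘ U') j * (ev ∘ U) i)
    ⟨U' j * U i, IsWeightedHomogeneous.mul (h' j) (h i), map_mul ev _ _⟩ _ (H.tab.mem i j)
  rw [inv_one, one_smul, show m' - wz j + (m - wz i) + (wz i + wz j + 1) = m + m' + 1 by ring] at k
  exact k

theorem ex_gd {M : Matrix (Fin 4) (Fin 4) P3} (hs : M.IsSymm)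
    (hM : ∀ i j, Hg (1 + wz i + wz j) (M i j)) (Z : Finset (Fin 3 → ℂ))
    (hZ : ∀ z ∈ Z, Gd M.det z) :
    ∃ N0 N1 N2 : Fin 4 → P3, HV 1 N0 ∧ HV 4 N1 ∧ HV 13 N2 ∧ N0 ⬝ᵥ M *ᵥ N1 = 0 ∧
      N0 ⬝ᵥ M *ᵥ N2 = 0 ∧ N1 ⬝ᵥ M *ᵥ N2 = 0 ∧ ∀ z ∈ Z, eval z (N0 ⬝ᵥ M *ᵥ N0) ≠ 0 ∧
        eval z (N1 ⬝ᵥ M *ᵥ N1) ≠ 0 ∧ eval z (N2 ⬝ᵥ M *ᵥ N2) ≠ 0 := by
  obtain ⟨l, hl⟩ := common Z (fun z => (LinearMap.mul ℂ ℂ).compl₁₂ (dotProductBilin ℂ ℂ z)
    (dotProductBilin ℂ ℂ z)) fun z hz => by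
    obtain ⟨i, hi⟩ := Function.ne_iff.1 (hZ z hz).1
    exact ⟨Pi.single i 1, by simpa using hi⟩
  let L : P3 := ∑ i, C (l i) * X i
  have hL : Hg 1 L := IsWeightedHomogeneous.sum _ _ _ fun i _ =>
    hg_cast (IsWeightedHomogeneous.mul (isWeightedHomogeneous_C _ (l i))
      (isWeightedHomogeneous_X ℂ _ i)) (zero_add 1)
  let D : Fin 4 → P3 := ![L, L, L, 1]
  have hD : ∀ c : Fin 4 → ℂ, HV 1 (fun i => C (c i) * D i) := by
    intro c i
    refine hg_cast (IsWeightedHomogeneous.mul (isWeightedHomogeneous_C _ (c i)) (n := 1 - wz i) ?_)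
      (zero_add _)
    fin_cases i
    · exact hL
    · exact hL
    · exact hL
    · exact isWeightedHomogeneous_one ℂ _
  have hE : ∀ (z : Fin 3 → ℂ) (c : Fin 4 → ℂ),
      eval z ∘ (fun i => C (c i) * D i) = c * fun i => eval z (D i) := by
    intro z c
    ext i
    simp
  obtain ⟨c, c', c'', hc⟩ := choice Z (fun z => M.map (eval z)) (fun z i => eval z (D i))
    (fun z => hs.map _) (fun z hz => adj_gd (hZ z hz)) fun z hz i => by
    have k : eval z L ≠ 0 := by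
      have := hl z hz
      simp only [LinearMap.compl₁₂_apply, LinearMap.mul_apply', dotProductBilin_apply_apply,
        ne_eq, mul_self_eq_zero] at this
      simpa [L, dotProduct, mul_comm] using this
    fin_cases i
    · exact k
    · exact k
    · exact k
    · exact (map_one (eval z)).trans_ne one_ne_zero
  have d0 := hD c
  have d1 := hv_gs hM d0 (hD c')
  have d2 := hv_gs hM d1 (hv_gs hM d0 (hD c''))
  simp only [← hE, ← map_gs, ← map_dot] at hc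
  have o1 : ∀ a x, a ⬝ᵥ M *ᵥ gs M a x = 0 := fun a x => by rw [dot_gs, mul_comm, sub_self]
  refine ⟨_, _, _, d0, d1, d2, o1 _ _, ?_, o1 _ _, hc⟩
  rw [dot_gs, o1, o1, mul_zero, mul_zero, sub_zero]

end OrtN

open L.Ort OrtN in
theorem ort : stORT := by
  intro C H Z hZ
  obtain ⟨N0, N1, N2, d0, d1, d2, o1, o2, o3, hc⟩ := ex_gd C.symm H.degM Z hZ
  have p : ∀ {x y : Fin 4 → P3}, x ⬝ᵥ C.M *ᵥ y = 0 → (ev ∘ x) ⬝ᵥ C.G *ᵥ (ev ∘ y) = 0 := fun h => by
    rw [← ev_dot, h, map_zero]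
  have s : ∀ {x y : Fin 4 → P3}, x ⬝ᵥ C.M *ᵥ y = 0 →
      mm C.G (ev ∘ x) (ev ∘ y) * mm C.G (ev ∘ x) (ev ∘ y) =
        algebraMap K C.B (ev (-(x ⬝ᵥ C.M *ᵥ x * y ⬝ᵥ C.M *ᵥ y))) := fun h => by
    rw [map_neg, map_mul, ev_dot, ev_dot]
    exact mm_sq H.symm (p h)
  refine ⟨mm C.G (ev ∘ N0) (ev ∘ N1), mm C.G (ev ∘ N0) (ev ∘ N2), 6, 15, _, _,
    mm_ord H d0 d1 (by norm_num), mm_ord H d0 d2 (by norm_num),
    mm_anti H.symm (p o1) (p o2) (p o3), s o1, s o2, hg_cast (hg_neg H.degM d0 d1) (by norm_num),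
    hg_cast (hg_neg H.degM d0 d2) (by norm_num), fun z hz => ?_⟩
  obtain ⟨k0, k1, k2⟩ := hc z hz
  rw [map_neg, map_neg, map_mul, map_mul]
  exact ⟨neg_ne_zero.2 (mul_ne_zero k0 k1), neg_ne_zero.2 (mul_ne_zero k0 k2)⟩

end Vale.Agent.P287Z.N
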