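import Vale.Agent.P287Z.N.Lf

/-!
Row PJ: lattices over the even Clifford order are locally projective.
-/

namespace Vale.Agent.P287Z.N

open MvPolynomial Module Matrix Vale.Agent.P287 Vale.Agent.P287.Theta Vale.Agent.P287Z.L

namespace Pj

open L.LfA (Loc Dg hcast exists_loc lb_reindex)
open LfN (act act_apply dg_act o_mem)

section

variable {V : Type} [AddCommGroup V] [Module ℂ V] [Module K V] [IsScalarTower ℂ K V]
  {F : ℤ → Submodule ℂ V} {p : Fin 3 → ℂ} {ι : Type} [Fintype ι] [DecidableEq ι]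

theorem exact_of (A : Loc F p ι) {T : Module.End K V} {j : ℤ} {f : P3} (h : Dg F T j)
    (hf : Hg (j + j) f) (hT : T * T = algebraMap K (Module.End K V) (ev f)) {i : Fin 3}
    (hi : eval p (pderiv i f) ≠ 0) (h0 : eval p f = 0) (w : ι → ℂ) (hw : A.m T j *ᵥ w = 0) :
    ∃ w', w = A.m T j *ᵥ w' := by
  have h1 : A.mat T j * A.mat T j = (A.Y * A.Y * f) • (1 : Matrix ι ι P3) := by
    rw [A.mat_mul h h, hT, A.mat_sc hf, smul_smul, mul_assoc, mul_comm f]
  have hY := A.Yp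
  set B := (A.mat T j).map (eval p) with hB
  set B' := (A.mat T j).map fun q => eval p (pderiv i q) with hB'
  have h2 : B' * B + B * B' =
      (eval p A.Y * eval p A.Y * eval p (pderiv i f)) • (1 : Matrix ι ι ℂ) := by
    ext s t
    have h3 := congrArg (fun q => eval p (pderiv i q)) (congrFun (congrFun h1 s) t)
    simp only [Matrix.mul_apply, map_sum, pderiv_mul, map_add, map_mul, Finset.sum_add_distrib,
      Matrix.smul_apply, smul_eq_mul, h0] at h3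
    simp only [hB, hB', Matrix.add_apply, Matrix.mul_apply, Matrix.map_apply, Matrix.smul_apply,
      smul_eq_mul]
    rw [h3]
    by_cases e : s = t
    · subst e
      simp
    · simp [e]
  have h3 : B *ᵥ w = 0 := by
    rw [Loc.m, smul_mulVec, smul_eq_zero] at hw
    exact hw.resolve_left (inv_ne_zero hY)
  have h4 := congrArg (· *ᵥ w) h2
  simp only [add_mulVec, ← mulVec_mulVec, h3, mulVec_zero, zero_add, smul_mulVec,
    one_mulVec] at h4
  refine ⟨(eval p A.Y * eval p (pderiv i f))⁻¹ • B' *ᵥ w, ?_⟩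
  rw [Loc.m, smul_mulVec, mulVec_smul, h4, smul_smul, smul_smul]
  have e : (eval p A.Y)⁻¹ * (eval p A.Y * eval p (pderiv i f))⁻¹ *
      (eval p A.Y * eval p A.Y * eval p (pderiv i f)) = 1 := by field_simp
  rw [e, one_smul]

end

variable {C : Cx} {Y : OL C} {p : Fin 3 → ℂ}

theorem m_lin {ι : Type} [Fintype ι] (A : Loc Y.F p ι) (s t : ℂ) {a b : C.B} {j : ℤ}
    (ha : a ∈ C.O j) (hb : b ∈ C.O j) :
    A.m (act Y (s • a + t • b)) j = s • A.m (act Y a) j + t • A.m (act Y b) j := by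
  ext1 x y
  have h1 := Y.stab _ _ _ ha _ (A.lb.mem y)
  have h2 := Y.stab _ _ _ hb _ (A.lb.mem y)
  show A.φ (j + A.e y) ((s • a + t • b) • A.u y) x = _
  rw [add_smul, smul_assoc, smul_assoc,
    A.φ_add (Submodule.smul_mem _ _ h1) (Submodule.smul_mem _ _ h2), A.φ_c s h1, A.φ_c t h2]
  rfl

theorem coords (hO : Fam C.O) {σ : Type} [Fintype σ] {n : ℕ} {l : σ → C.B} {e : σ → ℤ}
    (hl : ∀ s, l s ∈ C.O (e s)) {v : Fin n → Y.V} {h : Fin n → ℤ}
    (hb : LB Y.F p (fun q : σ × Fin n => l q.1 • v q.2) fun q => e q.1 + h q.2) :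
    ∃ (ψ : Fin n → Y.V →ₗ[K] C.B) (d : ℤ) (y : K), U1 p d y ∧ (∀ x, ∑ r, ψ r x • v r = x) ∧
      (∀ r j, ∀ x ∈ Y.F j, y • ψ r x ∈ C.O (j + (d - h r))) ∧
      ∀ T : C.B, (∀ s, T * l s ∈ Submodule.span K (Set.range l)) →
        ∀ r x, ψ r (T • x) = T * ψ r x := by
  let bs := Basis.mk hb.li (hb.span Y.lat.full).ge
  have hbs : ∀ q, bs q = l q.1 • v q.2 := Basis.mk_apply _ _
  let ψ : Fin n → Y.V →ₗ[K] C.B := fun r => ∑ s, (bs.coord (s, r)).smulRight (l s)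
  have e1 : ∀ r x, ψ r x = ∑ s, bs.repr x (s, r) • l s := fun r x => LinearMap.sum_apply _ _ _
  have e2 : ∀ k : σ × Fin n → K, ∑ r, (∑ s, k (s, r) • l s) • v r = ∑ q, k q • bs q := fun k => by
    simp only [Fintype.sum_prod_type_right, Finset.sum_smul, hbs, smul_assoc]
  have e3 : ∀ (k : σ × Fin n → K) r, ψ r (∑ q, k q • bs q) = ∑ s, k (s, r) • l s := fun k r => by
    rw [e1, bs.repr_sum_self]
  have e4 : ∀ x, ∑ r, ψ r x • v r = x := fun x => by
    simp only [e1]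
    rw [e2 fun q => bs.repr x q, bs.sum_repr]
  obtain ⟨d, y, hy, k⟩ := hb.loc
  refine ⟨ψ, d, y, hy, e4, fun r j x hx => ?_, fun T hT r x => ?_⟩
  · obtain ⟨c, c1, c2⟩ := mem_Sp.1 (k j x hx)
    simp only [← hbs] at c2
    rw [← map_smul, ← c2, e3]
    exact Submodule.sum_mem _ fun s _ => hO.smul (c1 (s, r)) (hl s) (by ring)
  · have m : ∀ r, ∃ c : σ → K, ∑ s, c s • l s = T * ψ r x := fun r => by
      rw [← Submodule.mem_span_range_iff_exists_fun, e1, Finset.mul_sum]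
      exact Submodule.sum_mem _ fun s _ => by
        rw [mul_smul_comm]
        exact Submodule.smul_mem _ _ (hT s)
    choose c hc using m
    have e5 : T • x = ∑ q : σ × Fin n, c q.2 q.1 • bs q := by
      rw [← e2]
      simp only [hc, mul_smul]
      rw [← Finset.smul_sum, e4]
    rw [e5, e3, hc]

theorem pj_of {n : ℕ} (f : Fin n → Y.V →ₗ[K] C.B) {κ : Type} {g : κ → C.B}
    (hg : Submodule.span K (Set.range g) = ⊤) (hf : ∀ r i x, f r (g i • x) = g i * f r x)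
    {v : Fin n → Y.V} {h : Fin n → ℤ} {d : ℤ} {y : K} (hy : U1 p d y) (hv : ∀ r, v r ∈ Y.F (h r))
    (h1 : ∀ r j, ∀ x ∈ Y.F j, f r x ∈ C.O (j + (d - h r))) (h2 : ∀ x, ∑ r, f r x • v r = y • x) :
    PJ Y p := by
  have k : ∀ r (T : C.B) x, f r (T • x) = T * f r x := fun r T x => by
    have hT : T ∈ Submodule.span K (Set.range g) := hg ▸ Submodule.mem_top
    induction hT using Submodule.span_induction with
    | mem _ e => exact e.elim fun i e => e ▸ hf r i x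
    | zero => rw [zero_smul, map_zero, zero_mul]
    | add _ _ _ _ a b => rw [add_smul, map_add, a, b, add_mul]
    | smul c _ _ a => rw [smul_assoc, map_smul, a, smul_mul_assoc]
  exact ⟨n, fun r => ⟨⟨f r, (f r).map_add⟩, k r⟩, v, h, d, y, hy, hv, h1, h2⟩

theorem gd (hL : N.stLF) (hH : N.stHOM) (hC : Ctx C) (hp : Gd C.M.det p) : PJ Y p := by
  obtain ⟨a, ha⟩ := (hH C hC Y Y).2.2.1
  obtain ⟨v, h, k⟩ := hL C hC Y a ha {p} fun z hz => Finset.mem_singleton.1 hz ▸ hp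
  have k' := k p (Finset.mem_singleton_self p)
  have sp : Submodule.span K (Set.range C.o) = ⊤ := Gen.span (fun _ => rfl) hC.tab.lat.full
  obtain ⟨ψ, d, y, k1, k2, k3, k4⟩ := coords hC.tab.lat.fam o_mem k'
  refine pj_of (v := v) (fun r => y • ψ r) sp (fun r i x => ?_) k1 (fun r => ?_) k3 fun x => ?_
  · rw [LinearMap.smul_apply, LinearMap.smul_apply, k4 _ fun _ => sp ▸ Submodule.mem_top,
      mul_smul_comm]
  · have : (1 : C.B) • v r ∈ Y.F (0 + h r) := k'.mem (0, r)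
    rwa [one_smul, zero_add] at this
  · simp only [LinearMap.smul_apply, smul_assoc]
    rw [← Finset.smul_sum, k2]

theorem alg_C (c : ℂ) (q : P3) :
    algebraMap K C.B (ev (MvPolynomial.C c * q)) = c • algebraMap K C.B (ev q) := by
  rw [map_mul, ← MvPolynomial.algebraMap_eq, AlgHom.commutes, ← smul_eq_mul, algebraMap_smul,
    Algebra.algebraMap_eq_smul_one, Algebra.algebraMap_eq_smul_one, smul_assoc]

theorem basis_nd (hF : stFIB2) (hA : stLFA) (hD : stDET) (hC : Ctx C) (ν : ND C) (Y : OL C) :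
    ∃ (n : ℕ) (v : Fin n → Y.V) (h : ℤ), (∀ r, v r ∈ Y.F h) ∧
      LB Y.F ν.p (fun q : Fin 4 × Fin n => ![1, ν.a, ν.b, ν.a * ν.b] q.1 • v q.2)
        fun q => ![0, (ν.d : ℤ), ν.d, ν.d + ν.d] q.1 + h := by
  obtain ⟨u, e, k⟩ := hA Y.V Y.F Y.lat ν.p ν.hp
  obtain ⟨A⟩ := exists_loc Y.lat.fam k
  have h1 : (1 : C.B) ∈ C.O 0 := ν.lb.mem 0
  have hI : ν.I ∈ C.O ν.d := ν.lb.mem 1
  have ha : ν.a ∈ C.O ν.d := ν.lb.mem 2
  have hb : ν.b ∈ C.O ν.d := ν.lb.mem 3
  have mul : ∀ {j k : ℤ} {x y : C.B}, x ∈ C.O j → y ∈ C.O k → x * y ∈ C.O (j + k) :=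
    fun hx hy => hC.tab.mul _ _ _ hx _ hy
  have mm : ∀ {j k : ℤ} {x y : C.B}, x ∈ C.O j → y ∈ C.O k →
      A.m (act Y x) j * A.m (act Y y) k = A.m (act Y (x * y)) (j + k) := fun hx hy => by
    rw [A.m_mul (dg_act Y hx) (dg_act Y hy), map_mul]
  have d1 := hcast ν.h₁ (two_mul _)
  have d2 := hcast ν.h₂ (two_mul _)
  have d3 := hcast ν.h₃ (two_mul _)
  have dC : ∀ (c : ℂ) {q : P3}, Hg (ν.d + ν.d) q → Hg (ν.d + ν.d) (MvPolynomial.C c * q) :=
    fun c _ h => hcast ((hg_C c).mul h) (zero_add _)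
  have ab : ν.a * ν.b + ν.b * ν.a = (2 : ℂ) • algebraMap K C.B (ev ν.A₂) := by
    rw [ν.ab, two_mul, map_add, two_smul]
  obtain ⟨n, w, w1, -, w2⟩ := hF _ (A.m (act Y ν.I) ν.d) (A.m (act Y ν.a) ν.d)
    (A.m (act Y ν.b) ν.d) (eval ν.p ν.α) (ν.cc ▸ pow_ne_zero 2 ν.c0)
    (by rw [mm hI hI, ν.II, AlgHom.commutes, A.m_sc (hcast ν.hα (two_mul _))])
    (by rw [mm ha ha, ν.aa, AlgHom.commutes, A.m_sc d1, ν.z₁, zero_smul])
    (by rw [mm hb hb, ν.bb, AlgHom.commutes, A.m_sc d3, ν.z₃, zero_smul])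
    (by
      have := m_lin A 1 1 (mul ha hb) (mul hb ha)
      simp only [one_smul] at this
      rw [mm ha hb, mm hb ha, ← this, ab, ← alg_C, AlgHom.commutes, A.m_sc (dC 2 d2), map_mul,
        ν.z₂, mul_zero, zero_smul])
    (by rw [mm hI ha, mm ha hI, ν.Ia, map_neg, A.m_neg (dg_act Y (mul ha hI))])
    (by rw [mm hI hb, mm hb hI, ν.Ib, map_neg, A.m_neg (dg_act Y (mul hb hI))])
    fun s t hst w hw => by
      obtain ⟨i, hi⟩ := ν.grad s t hst
      rw [← m_lin A s t ha hb] at hw ⊢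
      refine exact_of A (dg_act Y (add_mem (Submodule.smul_mem _ s ha) (Submodule.smul_mem _ t hb)))
        (((dC _ d1).add (dC _ d2)).add (dC _ d3)) ?_ hi ?_ w hw
      · rw [← map_mul, ← (act Y).commutes]
        refine congrArg (act Y) ?_
        rw [map_add ev, map_add ev, map_add, map_add, alg_C, alg_C, alg_C, ← ν.aa, ← ν.bb, mul_assoc,
          mul_comm (2 : ℂ), mul_smul, ← ab]
        simp only [add_mul, mul_add, smul_mul_smul_comm, smul_add, pow_two, mul_comm t s]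
        abel
      · simp only [map_add, map_mul, ν.z₁, ν.z₂, ν.z₃, mul_zero, add_zero]
  obtain ⟨h, hh⟩ := Finite.exists_le A.e
  choose v hv hv' using fun r => A.φ_onto ν.hp hh (w r)
  have e1 : A.m (act Y 1) 0 = 1 := by
    have := A.m_sc (j := 0) (β := 1) hg_one
    rw [map_one, map_one, map_one, one_smul] at this
    rw [map_one, this]
  have lm : ∀ i : Fin 4, ![1, ν.a, ν.b, ν.a * ν.b] i ∈ C.O (![0, (ν.d : ℤ), ν.d, ν.d + ν.d] i) ∧
      A.m (act Y (![1, ν.a, ν.b, ν.a * ν.b] i)) (![0, (ν.d : ℤ), ν.d, ν.d + ν.d] i) =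
        ![1, A.m (act Y ν.a) ν.d, A.m (act Y ν.b) ν.d,
          A.m (act Y ν.a) ν.d * A.m (act Y ν.b) ν.d] i := fun i => by
    fin_cases i
    exacts [⟨h1, e1⟩, ⟨ha, rfl⟩, ⟨hb, rfl⟩, ⟨mul ha hb, (mm ha hb).symm⟩]
  let σ : Fin (finrank K Y.V) ≃ Fin 4 × Fin n := Fintype.equivOfCardEq (by
    rw [w1, Fintype.card_prod, Fintype.card_fin, Fintype.card_fin])
  have k1 := A.lb_of hD Y.lat ν.hp (Fintype.card_fin _)
    (w := (fun q : Fin 4 × Fin n => ![1, ν.a, ν.b, ν.a * ν.b] q.1 • v q.2) ∘ σ)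
    (g := (fun q : Fin 4 × Fin n => ![0, (ν.d : ℤ), ν.d, ν.d + ν.d] q.1 + h) ∘ σ)
    (fun x => Y.stab _ _ _ (lm _).1 _ (hv _)) (((Matrix.isUnit_iff_isUnit_det _).1
      (Matrix.linearIndependent_cols_iff_isUnit.1 (by
        have := w2.comp σ σ.injective
        simp only [← hv', ← fun i => (lm i).2,
          ← fun i r => A.φ_op (dg_act Y (lm i).1) (hv r)] at this
        exact this))).ne_zero)
  have k2 := lb_reindex k1 σ.symm
  rw [Function.comp_assoc, Function.comp_assoc, σ.self_comp_symm, Function.comp_id,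
    Function.comp_id] at k2
  exact ⟨n, v, h, hv, k2⟩

theorem nd (hF : stFIB2) (hA : stLFA) (hD : stDET) (hC : Ctx C) (ν : ND C) : PJ Y ν.p := by
  obtain ⟨n, v, h, hv, k⟩ := basis_nd hF hA hD hC ν Y
  have hI : ν.I ∈ C.O ν.d := ν.lb.mem 1
  have ha : ν.a ∈ C.O ν.d := ν.lb.mem 2
  have hb : ν.b ∈ C.O ν.d := ν.lb.mem 3
  obtain ⟨ψ, d, y, k1, k2, k3, k4⟩ := coords (l := ![1, ν.a, ν.b, ν.a * ν.b])
    (e := ![0, (ν.d : ℤ), ν.d, ν.d + ν.d]) (h := fun _ => h) hC.tab.lat.fam (fun i => by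
      fin_cases i
      exacts [ν.lb.mem 0, ha, hb, hC.tab.mul _ _ _ ha _ hb]) k
  set S := Submodule.span K (Set.range ![1, ν.a, ν.b, ν.a * ν.b])
  have s0 : (1 : C.B) ∈ S := Submodule.subset_span ⟨0, rfl⟩
  have s1 : ν.a ∈ S := Submodule.subset_span ⟨1, rfl⟩
  have s2 : ν.b ∈ S := Submodule.subset_span ⟨2, rfl⟩
  have s3 : ν.a * ν.b ∈ S := Submodule.subset_span ⟨3, rfl⟩
  have sm : ∀ (c : K) {x}, x ∈ S → algebraMap K C.B c * x ∈ S := fun c x hx => by
    rw [← Algebra.smul_def]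
    exact S.smul_mem c hx
  have s4 : ∀ c : K, algebraMap K C.B c ∈ S := fun c => mul_one (algebraMap K C.B c) ▸ sm c s0
  have ba := eq_sub_of_add_eq' ν.ab
  have pa := k4 ν.a fun i => by
    fin_cases i
    · exact (mul_one ν.a).symm ▸ s1
    · exact ν.aa.symm ▸ s4 _
    · exact s3
    · show ν.a * (ν.a * ν.b) ∈ S
      rw [← mul_assoc, ν.aa]
      exact sm _ s2
  have pb := k4 ν.b fun i => by
    fin_cases i
    · exact (mul_one ν.b).symm ▸ s2
    · exact ba.symm ▸ sub_mem (s4 _) s3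
    · exact ν.bb.symm ▸ s4 _
    · show ν.b * (ν.a * ν.b) ∈ S
      rw [← mul_assoc, ba, sub_mul, mul_assoc, ν.bb, ← Algebra.commutes]
      exact sub_mem (sm _ s2) (sm _ s1)
  have II : ∀ x : Y.V, ν.I • ν.I • x = ev ν.α • x := fun x => by
    rw [← mul_smul, ν.II, algebraMap_smul]
  let f : Fin n → Y.V →ₗ[K] C.B := fun r =>
    ev ν.α • ψ r + LinearMap.mulLeft K ν.I ∘ₗ ψ r ∘ₗ act Y ν.I
  have ef : ∀ r x, f r x = ev ν.α • ψ r x + ν.I * ψ r (ν.I • x) := fun _ _ => rfl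
  have an : ∀ T : C.B, (∀ r x, ψ r (T • x) = T * ψ r x) → ν.I * T = -(T * ν.I) →
      ∀ r x, f r (T • x) = T * f r x := fun T p1 p2 r x => by
    rw [ef, ef, p1, ← mul_smul, p2, neg_smul, map_neg, mul_smul, p1, mul_neg, ← mul_assoc, p2,
      neg_mul, neg_neg, mul_add, mul_smul_comm, mul_assoc]
  have fa := an _ pa ν.Ia
  have fb := an _ pb ν.Ib
  have fI : ∀ r x, f r (ν.I • x) = ν.I * f r x := fun r x => by
    rw [ef, ef, II, (ψ r).map_smul, mul_add, ← mul_assoc, ν.II, ← Algebra.smul_def, add_comm]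
  have u2 : U1 ν.p (2 * ν.d) (ev ν.α) := ⟨_, ν.hα, rfl, ν.cc ▸ pow_ne_zero 2 ν.c0⟩
  refine pj_of (fun r => y • f r) (ν.lb.span hC.tab.lat.full) (fun r i x => ?_)
    (k1.mul ((u1_const ν.p two_ne_zero).mul u2)) hv (fun r j x hx => ?_) fun x => ?_
  · rw [LinearMap.smul_apply, LinearMap.smul_apply, mul_smul_comm]
    refine congrArg (y • ·) ?_
    fin_cases i
    · exact (congrArg (f r) (one_smul _ x)).trans (one_mul _).symm
    · exact fI r x
    · exact fa r x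
    · exact fb r x
    · show f r ((ν.I * ν.a) • x) = ν.I * ν.a * _
      rw [mul_smul, fI, fa, mul_assoc]
    · show f r ((ν.I * ν.b) • x) = ν.I * ν.b * _
      rw [mul_smul, fI, fb, mul_assoc]
    · show f r ((ν.a * ν.b) • x) = ν.a * ν.b * _
      rw [mul_smul, fa, fb, mul_assoc]
    · show f r ((ν.I * (ν.a * ν.b)) • x) = ν.I * (ν.a * ν.b) * _
      rw [mul_smul, mul_smul, fI, fa, fb, mul_assoc, mul_assoc]
  · rw [LinearMap.smul_apply, ef, smul_add, smul_comm, ← mul_smul_comm]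
    exact add_mem (hC.tab.lat.fam.smul u2.mem (k3 r j x hx) (by ring))
      (mem_cast (hC.tab.mul _ _ _ hI _ (k3 r _ _ (Y.stab _ _ _ hI _ hx))) (by ring))
  · simp only [LinearMap.smul_apply, ef, smul_assoc, add_smul, mul_smul]
    rw [← Finset.smul_sum, Finset.sum_add_distrib, ← Finset.smul_sum, ← Finset.smul_sum, k2, k2, II,
      algebraMap_smul, two_smul]

end Pj

theorem pj (hF : stFIB2) (hL : N.stLF) (hH : N.stHOM) (hA : stLFA) (hD : stDET) : stPJ := by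
  intro C hC Y p hp
  rcases gd_or_nd C.M.det hp with h | h
  · exact Pj.gd hL hH hC h
  · obtain ⟨ν, rfl⟩ := hC.nd p h
    exact Pj.nd hF hA hD hC ν

end Vale.Agent.P287Z.N
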