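import Vale.Agent.P287Z.St
import Vale.Agent.P287.Theta.Wrap

/-!
# Linear changes of coordinates
-/

open MvPolynomial Matrix Vale.Agent.P287 Vale.Agent.P287.H925 Vale.Agent.P287.Theta

namespace Vale.Agent.P287Z.N.Lin

/-- substitution of linear forms -/
noncomputable def sb (T : Matrix (Fin 6) (Fin 6) ℂ) :
    MvPolynomial (Fin 6) ℂ →ₐ[ℂ] MvPolynomial (Fin 6) ℂ := aeval fun i => ∑ j, C (T i j) * X j

variable {T T' : Matrix (Fin 6) (Fin 6) ℂ} {F : MvPolynomial (Fin 6) ℂ}

lemma aeval_sb {A : Type} [CommRing A] [Algebra ℂ A] (z : Fin 6 → A) (p : MvPolynomial (Fin 6) ℂ) :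
    aeval z (sb T p) = aeval (fun i => ∑ j, T i j • z j) p := by
  rw [sb, ← AlgHom.comp_apply, comp_aeval]
  congr 2
  funext i
  simp [Algebra.smul_def]

lemma sum_sum {A : Type} [AddCommGroup A] [Module ℂ A] (h : T * T' = 1) (z : Fin 6 → A)
    (i : Fin 6) : ∑ j, T i j • ∑ k, T' j k • z k = z i := by
  simp only [Finset.smul_sum, smul_smul]
  rw [Finset.sum_comm]
  simp only [← Finset.sum_smul, ← Matrix.mul_apply, h, one_apply, ite_smul, one_smul, zero_smul]
  simp

lemma sb_sb (h : T * T' = 1) (p : MvPolynomial (Fin 6) ℂ) : sb T' (sb T p) = p := by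
  rw [sb.eq_1 T', aeval_sb]
  simp only [← smul_eq_C_mul, sum_sum h]
  exact aeval_X_left_apply p

lemma lin_hom (i : Fin 6) : (∑ j, C (T i j) * X j : MvPolynomial (Fin 6) ℂ).IsHomogeneous 1 :=
  IsHomogeneous.sum _ _ _ fun _ _ => isHomogeneous_C_mul_X _ _

lemma sb_hom {n : ℕ} (h : F.IsHomogeneous n) : (sb T F).IsHomogeneous n := by
  have := h.aeval _ (lin_hom (T := T))
  rwa [one_mul] at this

lemma eval_sb (z : Fin 6 → ℂ) (p : MvPolynomial (Fin 6) ℂ) :
    eval z (sb T p) = eval (T *ᵥ z) p := by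
  rw [eval_eq_aeval, eval_eq_aeval, aeval_sb]
  rfl

lemma pderiv_sb (k : Fin 6) (p : MvPolynomial (Fin 6) ℂ) :
    pderiv k (sb T p) = ∑ i, C (T i k) * sb T (pderiv i p) := by
  induction p using MvPolynomial.induction_on with
  | C c => simp [sb]
  | add p q hp hq => simp only [map_add, hp, hq, mul_add, Finset.sum_add_distrib]
  | mul_X p n hp =>
    have h1 : pderiv k (sb T (X n)) = C (T n k) := by simp [sb, Pi.single_apply]
    rw [map_mul, pderiv_mul, hp, h1, Finset.sum_mul]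
    simp only [pderiv_mul, map_add, map_mul, mul_add, Finset.sum_add_distrib, mul_assoc]
    congr 1
    rw [Finset.sum_eq_single n (fun i _ hi => by simp [pderiv_X_of_ne hi.symm]) (by simp)]
    simp [mul_comm]

lemma sb_smooth (h : T * T' = 1) (hs : IsSmoothForm F) : IsSmoothForm (sb T F) := by
  intro z hz
  have h1 : (fun i => eval (T *ᵥ z) (pderiv i F)) ᵥ* T = 0 := funext fun k => by
    have := hz k
    simp only [pderiv_sb, map_sum, map_mul, eval_C, eval_sb] at this
    exact (Finset.sum_congr rfl fun i _ => mul_comm _ _).trans this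
  have h2 := congrArg (· ᵥ* T') h1
  simp only [vecMul_vecMul, h, vecMul_one, zero_vecMul] at h2
  have h3 := congrArg (T' *ᵥ ·) (hs _ (congrFun h2))
  simpa only [mulVec_mulVec, mul_eq_one_comm.1 h, one_mulVec, mulVec_zero] using h3

lemma ne_zero (hs : IsSmoothForm F) : F ≠ 0 := by
  rintro rfl
  exact one_ne_zero (congr_fun (hs 1 fun i => by simp) 0)

lemma prime (hf : F.IsHomogeneous 3) (hs : IsSmoothForm F) : Prime F := by
  have u : ∀ a : MvPolynomial (Fin 6) ℂ, a.IsHomogeneous 0 → a ≠ 0 → IsUnit a := fun a ha h0 => by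
    have h2 : a = C (a.coeff 0) := totalDegree_eq_zero_iff_eq_C.1 (ha.totalDegree h0)
    rw [h2]
    exact (IsUnit.mk0 _ fun h => h0 (by rw [h2, h, map_zero])).map C
  have z : ∀ (a : MvPolynomial (Fin 6) ℂ) d, a.IsHomogeneous d → d ≠ 0 →
      aeval (0 : Fin 6 → ℂ) a = 0 := fun a d ha hd => by
    have h1 := aeval_scale (S := ℂ) ha 0 (0 : Fin 6 → ℂ)
    rw [zero_pow hd, zero_mul] at h1
    rw [← h1]
    congr 2
    funext i
    simp
  refine irreducible_iff_prime.1 ⟨fun hu => ?_, fun a b hab => ?_⟩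
  · obtain ⟨c, _, hc⟩ := isUnit_iff_eq_C_of_isReduced.1 hu
    have h1 := hf.totalDegree (ne_zero hs)
    rw [hc, totalDegree_C] at h1
    omega
  · have hab0 : a * b ≠ 0 := hab ▸ ne_zero hs
    obtain ⟨m, hm⟩ := homog_of_mul (hab ▸ hf) hab0
    obtain ⟨n, _, hn⟩ := degree_le_of_mul hm (hab ▸ hf) hab0
    by_cases hm0 : m = 0
    · exact Or.inl (u a (hm0 ▸ hm) (left_ne_zero_of_mul hab0))
    by_cases hn0 : n = 0
    · exact Or.inr (u b (hn0 ▸ hn) (right_ne_zero_of_mul hab0))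
    obtain ⟨x, hx, hx'⟩ := exists_common_zero (n := 6) (r := 2) (by norm_num) ![a, b] (by
      intro i
      fin_cases i
      exacts [z a m hm hm0, z b n hn hn0])
    refine (hx (hs x fun i => ?_)).elim
    have h1 : eval x a = 0 := by rw [eval_eq_aeval]; exact hx' 0
    have h2 : eval x b = 0 := by rw [eval_eq_aeval]; exact hx' 1
    rw [hab, pderiv_mul, map_add, map_mul, map_mul, h1, h2, mul_zero, zero_mul, add_zero]

lemma not_dvd (hf : F.IsHomogeneous 3) : ¬ F ∣ X 0 := by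
  rintro ⟨c, hc⟩
  obtain ⟨n, hn, -⟩ := degree_le_of_mul hf (hc ▸ isHomogeneous_X ℂ (0 : Fin 6))
    (hc ▸ X_ne_zero 0)
  omega

lemma dvd_of_dehom (hf : F.IsHomogeneous 3) (hp : Prime F) {P : MvPolynomial (Fin 6) ℂ} {d : ℕ}
    (hP : P.IsHomogeneous d) (h : dehom F ∣ dehom P) : F ∣ P := by
  obtain ⟨c, hc⟩ := h
  obtain ⟨e, he⟩ := exists_homogenisation c
  obtain ⟨E, h1, h2⟩ := he (e + d) (by omega)
  have h3 : P * X 0 ^ (3 + e) - F * E = 0 := by
    have e1 := hP.mul (isHomogeneous_X_pow (R := ℂ) (0 : Fin 6) (3 + e))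
    have e2 : d + (3 + e) = 3 + (e + d) := by ring
    rw [e2] at e1
    apply dehom_inj (e1.sub (hf.mul h1))
    rw [map_sub, map_mul, map_mul, h2, hc]
    simp [dehom]
  exact (hp.dvd_or_dvd (Dvd.intro E (sub_eq_zero.1 h3).symm)).resolve_right fun h =>
    not_dvd hf (hp.dvd_of_dvd_pow h)

/-- the function field from a generic point -/
lemma of_generic (hf : F.IsHomogeneous 3) {L : Type} [Field L] [Algebra ℂ L] (ξ : Fin 6 → L)
    (h1 : ∀ (P : MvPolynomial (Fin 6) ℂ) d, P.IsHomogeneous d → (aeval ξ P = 0 ↔ F ∣ P))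
    (h2 : ξ 0 ≠ 0 → ∀ E : IntermediateField ℂ L, (∀ i, (ξ 0)⁻¹ * ξ i ∈ E) → E = ⊤) :
    Nonempty (FractionRing (MvPolynomial (Fin 5) ℂ ⧸ Ideal.span {dehom F}) ≃ₐ[ℂ] L) := by
  have h0 : ξ 0 ≠ 0 := fun h => not_dvd hf ((h1 _ 1 (isHomogeneous_X ℂ 0)).1 (by rwa [aeval_X]))
  let φ : MvPolynomial (Fin 5) ℂ →ₐ[ℂ] L := aeval fun i => (ξ 0)⁻¹ * ξ i.succ
  have e1 : ∀ (P : MvPolynomial (Fin 6) ℂ) d, P.IsHomogeneous d →
      φ (dehom P) = (ξ 0)⁻¹ ^ d * aeval ξ P := fun P d hP => by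
    rw [← aeval_scale hP, dehom, ← AlgHom.comp_apply, comp_aeval]
    congr 2
    funext i
    refine Fin.cases ?_ (fun i => ?_) i
    · simp [h0]
    · simp [φ]
  have e2 : ∀ G, φ G = 0 ↔ G ∈ Ideal.span {dehom F} := fun G => by
    rw [Ideal.mem_span_singleton]
    refine ⟨fun h => ?_, ?_⟩
    · obtain ⟨d, hd⟩ := exists_homogenisation G
      obtain ⟨P, hP, rfl⟩ := hd d le_rfl
      rw [e1 P d hP] at h
      exact map_dvd dehom ((h1 P d hP).1 ((mul_eq_zero.1 h).resolve_left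
        (pow_ne_zero _ (inv_ne_zero h0))))
    · rintro ⟨c, rfl⟩
      rw [map_mul, e1 F 3 hf, (h1 F 3 hf).2 dvd_rfl, mul_zero, zero_mul]
  let ψ := Ideal.Quotient.liftₐ (Ideal.span {dehom F}) φ fun G => (e2 G).2
  have hψ : Function.Injective ψ := (injective_iff_map_eq_zero _).2 fun x hx => by
    obtain ⟨G, rfl⟩ := Ideal.Quotient.mk_surjective x
    exact Ideal.Quotient.eq_zero_iff_mem.2 ((e2 G).1 hx)
  have := hψ.isDomain ψ
  let θ : FractionRing (MvPolynomial (Fin 5) ℂ ⧸ Ideal.span {dehom F}) →ₐ[ℂ] L :=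
    IsFractionRing.liftAlgHom hψ
  refine ⟨AlgEquiv.ofBijective θ ⟨θ.toRingHom.injective, fun x => ?_⟩⟩
  refine ((h2 h0 θ.fieldRange fun i => ?_).ge IntermediateField.mem_top : x ∈ θ.fieldRange)
  refine Fin.cases ?_ (fun i =>
    ⟨algebraMap _ _ (Ideal.Quotient.mk (Ideal.span {dehom F}) (X i)), ?_⟩) i
  · rw [inv_mul_cancel₀ h0]
    exact one_mem _
  · exact (IsFractionRing.lift_algebraMap hψ _).trans (aeval_X _ _)

lemma sb_rational (h : T * T' = 1) (hf : F.IsHomogeneous 3) (hs : IsSmoothForm F)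
    (hr : IsRationalForm (sb T F)) : IsRationalForm F := by
  have h' := mul_eq_one_comm.1 h
  let A := MvPolynomial (Fin 5) ℂ ⧸ Ideal.span {dehom (sb T F)}
  obtain ⟨e⟩ : Nonempty (FractionRing A ≃ₐ[ℂ] FractionRing (MvPolynomial (Fin 4) ℂ)) := hr
  let π : MvPolynomial (Fin 5) ℂ →ₐ[ℂ] FractionRing (MvPolynomial (Fin 4) ℂ) :=
    (e.toAlgHom.comp (IsScalarTower.toAlgHom ℂ A (FractionRing A))).comp
      (Ideal.Quotient.mkₐ ℂ _)
  let η : Fin 6 → FractionRing (MvPolynomial (Fin 4) ℂ) := fun i => π (dehom (X i))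
  have e1 : ∀ P, aeval η P = π (dehom P) := fun P => by
    have : aeval η = π.comp dehom := algHom_ext fun i => aeval_X _ _
    rw [this, AlgHom.comp_apply]
  have e0 : η 0 = 1 := by simp [η, dehom]
  refine of_generic hf (fun i => ∑ j, T i j • η j) (fun P d hP => ?_) fun h0 E hE => ?_
  · rw [← aeval_sb, e1]
    refine ⟨fun h0 => ?_, fun h0 => ?_⟩
    · have h1 : Ideal.Quotient.mk (Ideal.span {dehom (sb T F)}) (dehom (sb T P)) = 0 :=
        IsFractionRing.injective A (FractionRing A) (e.injective (h0.trans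
          ((congrArg e (map_zero _)).trans (map_zero e)).symm))
      have h2 := map_dvd (sb T') (dvd_of_dehom (sb_hom hf) (prime (sb_hom hf) (sb_smooth h hs))
        (sb_hom hP) (Ideal.mem_span_singleton.1 (Ideal.Quotient.eq_zero_iff_mem.1 h1)))
      rwa [sb_sb h, sb_sb h] at h2
    · have h1 : Ideal.Quotient.mk (Ideal.span {dehom (sb T F)}) (dehom (sb T P)) = 0 :=
        Ideal.Quotient.eq_zero_iff_mem.2
          (Ideal.mem_span_singleton.2 (map_dvd dehom (map_dvd (sb T) h0)))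
      exact (congrArg (fun x => e (algebraMap A (FractionRing A) x)) h1).trans
        ((congrArg e (map_zero _)).trans (map_zero e))
  · have h1 : ∀ j, (∑ j, T 0 j • η j)⁻¹ * η j ∈ E := fun j => by
      rw [← sum_sum h' η j, Finset.mul_sum]
      exact sum_mem fun i _ => by
        rw [mul_smul_comm]
        exact E.smul_mem (hE i)
    have h2 : (∑ j, T 0 j • η j)⁻¹ ≠ 0 := inv_ne_zero h0
    have h3 : ∀ j, η j ∈ E := fun j => by
      have := E.mul_mem (E.inv_mem (h1 0)) (h1 j)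
      rwa [e0, mul_one, inv_mul_cancel_left₀ h2] at this
    have h4 : ∀ G, π G ∈ E := fun G => by
      induction G using MvPolynomial.induction_on with
      | C c => exact (π.commutes c).symm ▸ E.algebraMap_mem c
      | add p q hp hq => exact map_add π p q ▸ E.add_mem hp hq
      | mul_X p n hp =>
        have := h3 n.succ
        simp only [η, dehom, aeval_X, Fin.cons_succ] at this
        exact map_mul π p (X n) ▸ E.mul_mem hp this
    refine eq_top_iff.2 fun x _ => ?_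
    obtain ⟨⟨a, b⟩, hab⟩ := IsLocalization.surj (nonZeroDivisors A) (e.symm x)
    obtain ⟨G, hG⟩ := Ideal.Quotient.mk_surjective a
    obtain ⟨H, hH⟩ := Ideal.Quotient.mk_surjective b.1
    have h5 : x * π H = π G := by
      have := congrArg e hab
      rw [map_mul, e.apply_symm_apply] at this
      exact (congrArg (fun y => x * e (algebraMap A _ y)) hH).trans
        (this.trans (congrArg (fun y => e (algebraMap A _ y)) hG.symm))
    have h6 : π H ≠ 0 := ((IsLocalization.map_units (FractionRing A) b).map e).ne_zero ∘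
      (congrArg (fun y => e (algebraMap A _ y)) hH.symm).trans
    rw [eq_div_of_mul_eq h6 h5]
    exact E.div_mem (h4 G) (h4 H)

end Vale.Agent.P287Z.N.Lin
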