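import Vale.Agent.P287Z.N.Top
import Vale.Agent.P287Z.N.Lin
import Vale.Agent.P287Z.T.Xi

/-!
# The theorem for all smooth cubics containing a plane
-/

open CategoryTheory MvPolynomial Module Matrix Vale.Agent.P294Z

universe w w'

namespace Vale.Agent.P287Z.N.Pl

open O.V T T3 Lin N.Top Vale.Agent.P287

/-- the statement for a cubic which vanishes on a subspace of dimension three -/
def ThmP : Prop :=
  ∀ (F : MvPolynomial (Fin 6) ℂ) [Fact (F.IsHomogeneous 3)] (_ : IsSmoothForm F)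
    (W : Submodule ℂ (Fin 6 → ℂ)) (_ : finrank ℂ W = 3) (_ : ∀ z ∈ W, eval z F = 0)
    {ν : ℕ} (I : Ideal (MvPolynomial (Fin ν) ℂ)) [Fact (IsHom I)]
    (_ : 1 ≤ topologicalKrullDim (PI I))
    [HasDerivedCategory.{w} (Coh (PI I))] [HasDerivedCategory.{w'} (Coh (PI (Ideal.span {F})))]
    (Φ : DbP I ⥤ DbP (Ideal.span {F})) [Φ.Additive] [Φ.Linear ℂ] [Φ.CommShift ℤ] [Φ.Full]
    [Φ.Faithful] (_ : ∀ E, Ku (Ideal.span {F}) (Φ.obj E)), IsRationalForm F

theorem exists_T (W : Submodule ℂ (Fin 6 → ℂ)) (h : finrank ℂ W = 3) :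
    ∃ T T' : Matrix (Fin 6) (Fin 6) ℂ, T * T' = 1 ∧
      ∀ z : Fin 6 → ℂ, z 0 = 0 → z 1 = 0 → z 2 = 0 → T *ᵥ z ∈ W := by
  obtain ⟨W', hc⟩ := W.exists_isCompl
  have h' : finrank ℂ W' = 3 := by
    have := Submodule.finrank_add_eq_of_isCompl hc
    rw [h, finrank_fin_fun] at this
    omega
  let b := finBasisOfFinrankEq ℂ W h
  let B : Basis (Fin 6) ℂ (Fin 6 → ℂ) := (((finBasisOfFinrankEq ℂ W' h').prod b).map
    (Submodule.prodEquivOfIsCompl W' W hc.symm)).reindex finSumFinEquiv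
  have hB : ∀ k : Fin 3, B (Fin.natAdd 3 k) ∈ W := fun k => by
    rw [Basis.reindex_apply, finSumFinEquiv_symm_apply_natAdd]
    simp
  refine ⟨(Pi.basisFun ℂ _).toMatrix B, B.toMatrix (Pi.basisFun ℂ _),
    Basis.toMatrix_mul_toMatrix_flip _ _, fun z h0 h1 h2 => ?_⟩
  have : (Pi.basisFun ℂ _).toMatrix B *ᵥ z = ∑ j, z j • B j := by
    funext i
    simp [mulVec, dotProduct, Basis.toMatrix_apply, mul_comm]
  rw [this, Fin.sum_univ_six, h0, h1, h2, zero_smul, zero_smul, zero_smul, zero_add, zero_add,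
    zero_add]
  exact add_mem (add_mem (W.smul_mem _ (hB 0)) (W.smul_mem _ (hB 1))) (W.smul_mem _ (hB 2))

/-- the cubics in normal form -/
noncomputable def NF : Submodule ℂ (MvPolynomial (Fin 6) ℂ) where
  carrier := {G | ∃ M, IsFibrationMatrix M ∧ G = cubicForm M}
  zero_mem' := ⟨0, ⟨isSymm_zero, fun _ _ => isHomogeneous_zero _ _ _⟩, by simp [cubicForm]⟩
  add_mem' := by
    rintro _ _ ⟨M, h, rfl⟩ ⟨M', h', rfl⟩
    refine ⟨M + M', ⟨h.symm.add h'.symm, fun i j => (h.homogeneous i j).add (h'.homogeneous i j)⟩,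
      ?_⟩
    rw [cubicForm, cubicForm, cubicForm, Matrix.map_add _ (map_add _), add_mulVec, dotProduct_add]
  smul_mem' := by
    rintro c _ ⟨M, h, rfl⟩
    refine ⟨c • M, ⟨h.symm.smul c, fun i j =>
      (homogeneousSubmodule _ _ _).smul_mem c (h.homogeneous i j)⟩, ?_⟩
    rw [cubicForm, cubicForm, Matrix.map_smul _ _ (map_smul _ _), smul_mulVec, dotProduct_smul]

theorem pair_mem (i j : Fin 4) (r : MvPolynomial (Fin 3) ℂ)
    (h : r.IsHomogeneous (1 + weight i + weight j)) :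
    aeval ![X 0, X 1, X 2] r * (![X 3, X 4, X 5, 1] i * ![X 3, X 4, X 5, 1] j) ∈ NF := by
  have h2 : (2 : ℂ) • (aeval ![X 0, X 1, X 2] r *
      (![X 3, X 4, X 5, 1] i * ![X 3, X 4, X 5, 1] j)) ∈ NF := by
    refine ⟨single i j r + single j i r, ⟨?_, fun k l => IsHomogeneous.add ?_ ?_⟩, ?_⟩
    · rw [IsSymm, transpose_add, transpose_single, transpose_single, add_comm]
    · rw [single, of_apply]
      split_ifs with e
      · exact e.1 ▸ e.2 ▸ h
      · exact isHomogeneous_zero _ _ _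
    · rw [single, of_apply]
      split_ifs with e
      · exact e.1 ▸ e.2 ▸ (add_right_comm 1 _ _ ▸ h)
      · exact isHomogeneous_zero _ _ _
    · rw [cubicForm, Matrix.map_add _ (map_add _), add_mulVec, dotProduct_add, map_single,
        map_single, single_mulVec, single_mulVec, two_smul]
      change _ = _ ⬝ᵥ Pi.single _ _ + _ ⬝ᵥ Pi.single _ _
      rw [dotProduct_single, dotProduct_single]
      ring
  exact (NF.smul_mem_iff two_ne_zero).1 h2

theorem mono_mem (a : Fin 3) (b c : Fin 6) : X (Fin.castAdd 3 a) * X b * X c ∈ NF := by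
  let co : Fin 6 → MvPolynomial (Fin 3) ℂ := ![X 0, X 1, X 2, 1, 1, 1]
  let ix : Fin 6 → Fin 4 := ![3, 3, 3, 0, 1, 2]
  have h1 : ∀ b, (co b).IsHomogeneous (weight (ix b)) := fun b => by
    fin_cases b
    exacts [isHomogeneous_X _ _, isHomogeneous_X _ _, isHomogeneous_X _ _, isHomogeneous_one _ _,
      isHomogeneous_one _ _, isHomogeneous_one _ _]
  have h2 : ∀ b, (X b : MvPolynomial (Fin 6) ℂ) =
      aeval ![X 0, X 1, X 2] (co b) * ![X 3, X 4, X 5, 1] (ix b) := fun b => by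
    fin_cases b <;> simp [co, ix]
  have h3 : (X (Fin.castAdd 3 a) : MvPolynomial (Fin 6) ℂ) =
      aeval ![X 0, X 1, X 2] (X a : MvPolynomial (Fin 3) ℂ) := by
    fin_cases a <;> simp
  have h4 := pair_mem (ix b) (ix c) _ (((isHomogeneous_X ℂ a).mul (h1 b)).mul (h1 c))
  rw [map_mul, map_mul, ← h3, mul_assoc (X _), mul_assoc (X _), mul_mul_mul_comm, ← h2, ← h2,
    ← mul_assoc] at h4
  exact h4

theorem normal_form {F : MvPolynomial (Fin 6) ℂ} (hF : F.IsHomogeneous 3)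
    (h : ∀ z : Fin 6 → ℂ, z 0 = 0 → z 1 = 0 → z 2 = 0 → eval z F = 0) : F ∈ NF := by
  let ρ : MvPolynomial (Fin 6) ℂ →ₐ[ℂ] MvPolynomial (Fin 6) ℂ := aeval ![0, 0, 0, X 3, X 4, X 5]
  have h1 : ρ F = 0 := MvPolynomial.funext fun z => by
    rw [map_zero, ← h (fun i => eval z (![0, 0, 0, X 3, X 4, X 5] i)) (by simp) (by simp) (by simp)]
    rw [H925.eval_eq_aeval, H925.eval_eq_aeval, ← AlgHom.comp_apply, comp_aeval]
    rfl
  have h2 : ∀ a : Fin 6, (ρ (X a) = 0 ∧ ∃ a', a = Fin.castAdd 3 a') ∨ ρ (X a) = X a := fun a => by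
    fin_cases a
    exacts [.inl ⟨aeval_X _ _, 0, rfl⟩, .inl ⟨aeval_X _ _, 1, rfl⟩, .inl ⟨aeval_X _ _, 2, rfl⟩,
      .inr (aeval_X _ _), .inr (aeval_X _ _), .inr (aeval_X _ _)]
  have h3 : homogeneousSubmodule (Fin 6) ℂ 3 ≤ NF.comap (LinearMap.id - ρ.toLinearMap) := by
    rw [← homogeneousSubmodule_one_pow, homogeneousSubmodule_one_eq_span_X, pow_three',
      Submodule.span_mul_span, Submodule.span_mul_span, Submodule.span_le]
    rintro _ ⟨_, ⟨_, ⟨a, rfl⟩, _, ⟨b, rfl⟩, rfl⟩, _, ⟨c, rfl⟩, rfl⟩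
    change X a * X b * X c - ρ (X a * X b * X c) ∈ NF
    rw [map_mul, map_mul]
    rcases h2 a with ⟨ha, a, rfl⟩ | ha
    · rw [ha, zero_mul, zero_mul, sub_zero]
      exact mono_mem a b c
    rcases h2 b with ⟨hb, b, rfl⟩ | hb
    · rw [hb, mul_zero, zero_mul, sub_zero, mul_comm (X a)]
      exact mono_mem b a c
    rcases h2 c with ⟨hc, c, rfl⟩ | hc
    · rw [hc, mul_zero, sub_zero, mul_comm, ← mul_assoc]
      exact mono_mem c a b
    · rw [ha, hb, hc, sub_self]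
      exact zero_mem _
  have h4 : F - ρ F ∈ NF := h3 hF
  rwa [h1, sub_zero] at h4

variable {T T' : Matrix (Fin 6) (Fin 6) ℂ} {F : MvPolynomial (Fin 6) ℂ}

theorem hg_sb {a : ℤ} {f : MvPolynomial (Fin 6) ℂ} (h : Hg a f) : Hg a (sb T f) :=
  hg_aeval _ (fun i => hg_of_hom (lin_hom i)) h

/-- the matrix factorization in the new coordinates -/
noncomputable def gm (T : Matrix (Fin 6) (Fin 6) ℂ) {n : ℕ} (X : GMF F n) : GMF (sb T F) n where
  p := X.p
  d := X.d.map (sb T)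
  deg i j := hg_sb (X.deg i j)
  sq := by
    rw [← Matrix.map_mul, X.sq]
    ext i j
    simp [one_apply, apply_ite (sb T)]

theorem gm_equiv (h : T * T' = 1) {m n : ℕ} (X : GMF F m) (Y : GMF F n) (k : ℤ) :
    Nonempty (HQ (ZM X Y k) (BM X Y k) ≃ₗ[ℂ]
      HQ (ZM (gm T X) (gm T Y) k) (BM (gm T X) (gm T Y) k)) := by
  have h' := mul_eq_one_comm.1 h
  have e : ∀ {a b : ℕ} (g : Matrix (Fin a) (Fin b) (MvPolynomial (Fin 6) ℂ)),
      (g.map (sb T)).map (sb T') = g := fun g => Matrix.ext fun i j => sb_sb h _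
  have e' : ∀ {a b : ℕ} (g : Matrix (Fin a) (Fin b) (MvPolynomial (Fin 6) ℂ)),
      (g.map (sb T')).map (sb T) = g := fun g => Matrix.ext fun i j => sb_sb h' _
  refine hq_equiv (sb T).toLinearMap.mapMatrix (fun z hz => ⟨fun i l => hg_sb (hz.1 i l), ?_⟩)
    (fun z _ => ⟨?_, ?_⟩) fun z hz => ⟨z.map (sb T'), ⟨fun i l => hg_sb (hz.1 i l), ?_⟩, ?_⟩
  · exact Matrix.map_mul.symm.trans ((congrArg (·.map (sb T)) hz.2).trans Matrix.map_mul)
  · rintro ⟨g, g1, g2⟩
    refine ⟨g.map (sb T'), fun i l => hg_sb (g1 i l), (e z).symm.trans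
      ((congrArg (·.map (sb T')) g2).trans ?_)⟩
    rw [Matrix.map_add _ (map_add _), Matrix.map_mul, Matrix.map_mul]
    exact congrArg₂ (· + ·) (congrArg (· * _) (e _)) (congrArg (_ * ·) (e _))
  · rintro ⟨g, g1, rfl⟩
    refine ⟨g.map (sb T), fun i l => hg_sb (g1 i l), ?_⟩
    exact (Matrix.map_add _ (map_add _) _ _).trans
      (congrArg₂ (· + ·) (Matrix.map_mul (f := sb T)) (Matrix.map_mul (f := sb T)))
  · have := congrArg (·.map (sb T')) hz.2
    simp only [Matrix.map_mul] at this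
    exact (congrArg (· * _) (e _)).symm.trans (this.trans (congrArg (_ * ·) (e _)))
  · exact (sub_eq_zero.2 (e' z).symm).symm ▸ zero_mem _

/-- **the theorem** from the blocks T2 and N -/
theorem thmP_of (h2 : T2) (hL : stMAINN) : ThmP.{w, w'} := by
  intro F hF hs W h3 hW ν I _ hI _ _ Φ _ _ _ _ _ hΦ
  obtain ⟨T, T', h, hT⟩ := exists_T W h3
  obtain ⟨M, hM, e⟩ := normal_form (sb_hom (T := T) hF.out) fun z a b c =>
    (eval_sb _ _).trans (hW _ (hT z a b c))
  obtain ⟨n, X, hX⟩ := shim F (ne_zero_of_smooth hs)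
  refine sb_rational h hF.out hs (of_gmf h2 hL hM e (sb_smooth h hs) (Ku _) n
    (fun E hE => gm T (X E hE)) (fun E hE E' hE' k => ?_) (dx I (Ideal.span {F}) Φ hI hΦ))
  exact ⟨(gm_equiv h _ _ _).some.symm.trans (hX E hE E' hE' k).some⟩

end Vale.Agent.P287Z.N.Pl
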