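import Vale.Agent.P287Z.N.Sk
import Vale.Agent.P287Z.L.Pts

/-!
The cokernel of finite length of a homomorphism of lattices over the order, nodal case.
-/

namespace Vale.Agent.P287Z.N

open MvPolynomial Module Filter Matrix Vale.Agent.P287 Vale.Agent.P287.Theta Vale.Agent.P287Z.L
open Vale.Agent.P287Z.L.Pts (u1_smul rn Sup fin_of common)

namespace Pts

variable {C : Cx}

theorem o_mem (s : Fin 8) : C.o s ∈ C.O (oz s) := by
  refine ⟨Pi.single s 1, fun i _ => ?_, by simp⟩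
  by_cases h : i = s
  · subst h
    rw [Pi.single_eq_same]
    exact AA_cast AA_one (sub_self _).symm
  · rw [Pi.single_eq_of_ne h]
    exact Submodule.zero_mem _

variable {Y : OL C} {p : Fin 3 → ℂ} {a : ℕ} {v : Fin a → Y.V} {h : Fin a → ℤ}

theorem ob_mem (H : OB Y p v h) (i : Fin a) : v i ∈ Y.F (h i) := by
  have := H.mem (0, i)
  rwa [show C.o 0 = 1 from rfl, show oz 0 = 0 from rfl, one_smul, zero_add] at this

theorem ob_smul (H : OB Y p v h) {c : ℂ} (hc : c ≠ 0) : OB Y (c • p) v h :=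
  let ⟨d, y, h1, h2⟩ := H.loc
  ⟨H.mem, H.li, d, y, u1_smul h1 hc, h2⟩

theorem ob_loc (H : OB Y p v h) : ∃ d y, U1 p d y ∧ ∀ (W : OL C) (φ : Y.V →ₗ[C.B] W.V) (k : ℤ),
    (∀ i, φ (v i) ∈ W.F (h i + k)) → y • φ ∈ HomF Y W (d + k) := by
  obtain ⟨d, y, h1, h2⟩ := H.loc
  refine ⟨d, y, h1, fun W φ k hφ j u hu => ?_⟩
  obtain ⟨c, hc, e⟩ := h2 j u hu
  change Fintype.linearCombination K _ c = _ at e
  rw [LinearMap.smul_apply, ← LinearMap.map_smul_of_tower, ← e, Fintype.linearCombination_apply,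
    map_sum]
  refine Submodule.sum_mem _ fun s _ => ?_
  rw [LinearMap.map_smul_of_tower, map_smul]
  have := W.lat.fam _ _ _ (hc s trivial) _ (W.stab _ _ _ (o_mem s.1) _ (hφ s.2))
  rwa [show d + j - (oz s.1 + h s.2) + (oz s.1 + (h s.2 + k)) = j + (d + k) by ring] at this

theorem ob_bij (hC : Ctx C) (hr : rk Y = 8 * a) (H : OB Y p v h) :
    Function.Bijective (Fintype.linearCombination C.B v) := by
  have h1 := H.li.span_eq_top_of_card_eq_finrank' (by simp [← hr])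
  have h2 : Function.Surjective ((Fintype.linearCombination C.B v).restrictScalars K) := by
    rw [← LinearMap.range_eq_top, eq_top_iff, ← h1, Submodule.span_le]
    rintro _ ⟨s, rfl⟩
    exact ⟨Pi.single s.2 (C.o s.1), by simp⟩
  refine ⟨(LinearMap.injective_iff_surjective_of_finrank_eq_finrank ?_).2 h2, h2⟩
  rw [Module.finrank_pi_fintype, Finset.sum_const, hC.alg.rank, Finset.card_univ, Fintype.card_fin,
    smul_eq_mul, mul_comm]
  exact hr.symm

theorem ob_ext (hC : Ctx C) (hr : rk Y = 8 * a) (H : OB Y p v h) (W : OL C) (w : Fin a → W.V) :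
    ∃ φ : Y.V →ₗ[C.B] W.V, ∀ i, φ (v i) = w i := by
  let e := LinearEquiv.ofBijective _ (ob_bij hC hr H)
  refine ⟨Fintype.linearCombination C.B w ∘ₗ e.symm.toLinearMap, fun i => ?_⟩
  have : e.symm (v i) = Pi.single i 1 := e.symm_apply_eq.2 (by simp [e])
  simp [this]

theorem ob_uniq (hC : Ctx C) (hr : rk Y = 8 * a) (H : OB Y p v h) {W : OL C}
    {φ ψ : Y.V →ₗ[C.B] W.V} (e : ∀ i, φ (v i) = ψ (v i)) : φ = ψ := by
  refine LinearMap.ext fun u => ?_
  obtain ⟨c, rfl⟩ := (ob_bij hC hr H).2 u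
  simp only [Fintype.linearCombination_apply, map_sum, map_smul, e]

variable {X X' : OL C} {π : X.V →ₗ[C.B] X'.V}

/-- the image family -/
noncomputable abbrev im (π : X.V →ₗ[C.B] X'.V) (j : ℤ) : Submodule ℂ X'.V :=
  (X.F j).map (π.restrictScalars ℂ)

theorem fam_im : Fam (im π) := by
  rintro d k x hx _ ⟨u, hu, rfl⟩
  exact ⟨x • u, X.lat.fam d k x hx u hu, π.map_smul_of_tower x u⟩

theorem fam_post : Fam fun k => (HomF Y X k).map (post Y π) := by
  rintro d k x hx _ ⟨ψ, hψ, rfl⟩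
  refine ⟨x • ψ, fun j u hu => ?_, LinearMap.ext fun u => π.map_smul_of_tower x (ψ u)⟩
  rw [add_left_comm]
  exact X.lat.fam d _ x hx _ (hψ j u hu)

/-- local lifting -/
theorem lift (hC : Ctx C) (hr : rk Y = 8 * a) (H : OB Y p v h) {k : ℤ} {φ : Y.V →ₗ[C.B] X'.V}
    (hφ : ∀ i, LocP (im π) p (h i + k) (φ (v i))) :
    LocP (fun k => (HomF Y X k).map (post Y π)) p k φ := by
  obtain ⟨d, y, h1, h2⟩ := common fam_im Finset.univ _ _ hφ
  choose x hx ex using fun i => h2 i (Finset.mem_univ i)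
  obtain ⟨ψ, hψ⟩ := ob_ext hC hr H X x
  obtain ⟨e, z, h3, h4⟩ := ob_loc H
  refine ⟨e + d, z * y, h3.mul h1, z • ψ, ?_, ob_uniq hC hr H fun i => ?_⟩
  · rw [add_assoc]
    exact h4 X ψ _ fun i => by rw [hψ, add_left_comm]; exact hx i
  · show π (z • ψ (v i)) = (z * y) • φ (v i)
    rw [π.map_smul_of_tower, hψ, mul_smul]
    exact congrArg _ (ex i)

theorem hom (hN : stNOETH) (hV : stVAN) (hL : stLF) (hH : stHOM) (hC : Ctx C)
    {Z : Finset (Fin 3 → ℂ)} (hZ : ∀ z ∈ Z, Gd C.M.det z) {z0 : Fin 3 → ℂ} (hz0 : z0 ∈ Z)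
    (hs : ∀ p, Nd C.M.det p → ∃ (s : X'.V →ₗ[C.B] X.V) (d : ℤ) (y : K), U1 p d y ∧
      s ∈ HomF X' X d ∧ ∀ w, π (s w) = y • w)
    (S : Sup (im π) X'.F Z) {τ : ℕ}
    (hτ : ∀ᶠ k in atTop, finrank ℂ (X'.F k) = finrank ℂ (im π k) + τ) (Y : OL C) {a : ℕ}
    (hr : rk Y = 8 * a) : ∀ᶠ k in atTop, finrank ℂ (HomF Y X' k) =
      finrank ℂ ((HomF Y X k).map (post Y π)) + a * τ := by
  classical
  obtain ⟨v, h, H⟩ := hL C hC Y a hr Z hZ
  have H0 := H z0 hz0
  have hl := (hH C hC Y X').1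
  have le : ∀ k, (HomF Y X k).map (post Y π) ≤ HomF Y X' k := by
    rintro k _ ⟨ψ, hψ, rfl⟩ j u hu
    exact S.le _ ⟨_, hψ j u hu, rfl⟩
  let N1 : ℤ → Submodule ℂ (Y.V →ₗ[C.B] X'.V) := fun k => HomF Y X' k ⊓
    ⨅ i, (im π (h i + k)).comap (LinearMap.applyₗ' ℂ (v i))
  have m1 : ∀ k φ, φ ∈ N1 k ↔ φ ∈ HomF Y X' k ∧ ∀ i, φ (v i) ∈ im π (h i + k) := fun k φ => by
    simp only [N1, Submodule.mem_inf, Submodule.mem_iInf, Submodule.mem_comap]
    rfl
  have f1 : Fam N1 := fun d k x hx φ hφ => (m1 _ _).2 ⟨hl.fam d k x hx φ ((m1 _ _).1 hφ).1,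
    fun i => by
      rw [add_left_comm]
      exact fam_im d _ x hx _ (((m1 _ _).1 hφ).2 i)⟩
  have e1 := (hV _ _ N1 (fam_post (Y := Y) (π := π)) (hN _ _ N1 hl.fg f1 fun k => inf_le_left)
    (fun k φ hφ => (m1 _ _).2 ⟨le k hφ, fun i => by
      obtain ⟨ψ, hψ, rfl⟩ := hφ
      exact ⟨_, hψ _ _ (ob_mem H0 i), rfl⟩⟩) fun p hp k φ hφ => by
      obtain ⟨h1, h2⟩ := (m1 _ _).1 hφ
      rcases S.loc p hp with ⟨z, hz, c, hc, rfl⟩ | h3
      · exact lift hC hr (ob_smul (H z hz) hc) fun i =>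
          ⟨0, 1, u1_one _, by rw [one_smul, zero_add]; exact h2 i⟩
      · rcases gd_or_nd C.M.det hp with hg | hn
        · obtain ⟨v', h', H'⟩ := hL C hC Y a hr {p} (by simpa using hg)
          have H1 := H' p (Finset.mem_singleton_self p)
          exact lift hC hr H1 fun i => h3 _ _ (h1 _ _ (ob_mem H1 i))
        · obtain ⟨s, d, y, k1, k2, k3⟩ := hs p hn
          refine ⟨d, y, k1, s ∘ₗ φ, fun j u hu => ?_, LinearMap.ext fun u => k3 (φ u)⟩
          rw [add_comm d, ← add_assoc]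
          exact k2 _ _ (h1 j u hu)).1
  let M : Fin a → ℤ → Submodule ℂ X'.V := fun i k =>
    { carrier := {w | ∃ φ ∈ HomF Y X' (k - h i), ∀ j,
        φ (v j) - (Pi.single i w : Fin a → X'.V) j ∈ im π (h j + (k - h i))}
      add_mem' := by
        rintro w w' ⟨φ, h1, h2⟩ ⟨ψ, h3, h4⟩
        refine ⟨φ + ψ, Submodule.add_mem _ h1 h3, fun j => ?_⟩
        rw [Pi.single_add, LinearMap.add_apply, Pi.add_apply, add_sub_add_comm]
        exact Submodule.add_mem _ (h2 j) (h4 j)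
      zero_mem' := ⟨0, Submodule.zero_mem _, fun j => by simp⟩
      smul_mem' := by
        rintro c w ⟨φ, h1, h2⟩
        refine ⟨c • φ, Submodule.smul_mem _ c h1, fun j => ?_⟩
        rw [Pi.single_smul, LinearMap.smul_apply, Pi.smul_apply, ← smul_sub]
        exact Submodule.smul_mem _ c (h2 j) }
  have e2 : ∀ i, ∀ᶠ k in atTop, ∀ w ∈ X'.F (h i + k), ∃ φ ∈ HomF Y X' k, ∀ j,
      φ (v j) - (Pi.single i w : Fin a → X'.V) j ∈ im π (h j + k) := fun i => by
    have f2 : Fam fun k => X'.F k ⊓ M i k := by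
      rintro d k x hx w ⟨h1, φ, h2, h3⟩
      refine ⟨X'.lat.fam d k x hx w h1, x • φ, add_sub_assoc d k (h i) ▸ hl.fam d _ x hx φ h2,
        fun j => ?_⟩
      rw [Pi.single_smul, LinearMap.smul_apply, Pi.smul_apply, ← smul_sub, add_sub_assoc,
        add_left_comm]
      exact fam_im d _ x hx _ (h3 j)
    have e3 := (hV _ _ X'.F f2 X'.lat.fg (fun k => inf_le_left) fun p hp k w hw => by
      rcases S.loc p hp with ⟨z, hz, c, hc, rfl⟩ | h3
      · obtain ⟨d, y, h1, h2⟩ := ob_loc (ob_smul (H z hz) hc)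
        obtain ⟨φ, hφ⟩ := ob_ext hC hr H0 X' (Pi.single i w)
        refine ⟨d, y, h1, X'.lat.fam d k y h1.mem w hw, y • φ, ?_, fun j => ?_⟩
        · rw [add_sub_assoc]
          refine h2 X' φ _ fun j => ?_
          rw [hφ]
          by_cases hj : j = i
          · subst hj
            rwa [Pi.single_eq_same, add_sub_cancel]
          · rw [Pi.single_eq_of_ne hj]
            exact Submodule.zero_mem _
        · rw [LinearMap.smul_apply, hφ, Pi.single_smul, Pi.smul_apply, sub_self]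
          exact Submodule.zero_mem _
      · obtain ⟨d, y, h1, h2⟩ := h3 k w hw
        refine ⟨d, y, h1, S.le _ h2, 0, Submodule.zero_mem _, fun j => ?_⟩
        rw [LinearMap.zero_apply, zero_sub]
        refine Submodule.neg_mem _ ?_
        by_cases hj : j = i
        · subst hj
          rwa [Pi.single_eq_same, add_sub_cancel]
        · rw [Pi.single_eq_of_ne hj]
          exact Submodule.zero_mem _).1
    filter_upwards [(tendsto_atTop_add_const_left _ (h i) tendsto_id).eventually e3] with k hk w hw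
    have h4 : w ∈ X'.F (h i + k) ⊓ M i (h i + k) := hk.ge hw
    obtain ⟨φ, h5, h6⟩ := h4.2
    rw [add_sub_cancel_left] at h5 h6
    exact ⟨φ, h5, h6⟩
  filter_upwards [e1, eventually_all.2 e2, eventually_all.2 fun i =>
    (tendsto_atTop_add_const_left _ (h i) tendsto_id).eventually hτ] with k k1 k2 k3
  have := fin_of hl.fg k
  have := fun i => fin_of X'.lat.fg (h i + k)
  let Q := fun i => (im π (h i + k)).comap (X'.F (h i + k)).subtype
  let θ : HomF Y X' k →ₗ[ℂ] ∀ i, X'.F (h i + k) ⧸ Q i := LinearMap.pi fun i => (Q i).mkQ ∘ₗ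
    (LinearMap.applyₗ' ℂ (v i) ∘ₗ (HomF Y X' k).subtype).codRestrict _ fun φ =>
      φ.2 _ _ (ob_mem H0 i)
  have r1 : ∀ i, finrank ℂ (X'.F (h i + k) ⧸ Q i) = τ := fun i => by
    have := rn (S.le (h i + k)) (Q i).mkQ (Q i).mkQ_surjective fun w =>
      Submodule.Quotient.mk_eq_zero _
    have := k3 i
    simp only [id] at this
    omega
  rw [rn (le k) θ (fun t => ?_) fun φ => ?_, Module.finrank_pi_fintype]
  · simp [r1]
  · choose w hw using fun i => (Q i).mkQ_surjective (t i)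
    choose φ h1 h2 using fun i => k2 i _ (w i).2
    refine ⟨⟨∑ i, φ i, Submodule.sum_mem _ fun i _ => h1 i⟩, funext fun j => ?_⟩
    rw [← hw j]
    refine (Submodule.Quotient.eq _).2 ?_
    show (∑ i, φ i) (v j) - (w j).1 ∈ im π (h j + k)
    have h3 := Submodule.sum_mem _ fun i (_ : i ∈ Finset.univ) => h2 i j
    rwa [Finset.sum_sub_distrib, ← LinearMap.sum_apply, ← Finset.sum_apply,
      Finset.univ_sum_single] at h3
  · rw [show (HomF Y X k).map (post Y π) = N1 k from k1, m1, _root_.funext_iff]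
    exact ⟨fun h1 => ⟨φ.2, fun i => (Submodule.Quotient.mk_eq_zero (Q i)).1 (h1 i)⟩,
      fun h1 i => (Submodule.Quotient.mk_eq_zero (Q i)).2 (h1.2 i)⟩

end Pts

open Vale.Agent.P287Z.N.Pts in
theorem pts (hN : stNOETH) (hV : stVAN) (hF : stFINZ) (hO : stORT) (hL : stLF) (hH : stHOM) :
    stPTS := by
  classical
  intro C hC X X' π hπ hloc hs
  obtain ⟨Z0, hZ0, hZ1⟩ := hF X'.V (im π) X'.F fam_im X'.lat.fg hloc
  obtain ⟨z0, g0⟩ := hC.nodal.exists_gd
  obtain ⟨Z, hz0, hZ, hZ2⟩ : ∃ Z : Finset (Fin 3 → ℂ), z0 ∈ Z ∧ (∀ z ∈ Z, Gd C.M.det z) ∧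
      ∀ z ∈ Z0, Gd C.M.det z → z ∈ Z := by
    generalize Gd C.M.det = G at g0
    exact ⟨insert z0 (Z0.filter G), Finset.mem_insert_self _ _, fun z hz =>
      (Finset.mem_insert.1 hz).elim (fun e => e ▸ g0) fun h => (Finset.mem_filter.1 h).2,
      fun z hz h => Finset.mem_insert_of_mem (Finset.mem_filter.2 ⟨hz, h⟩)⟩
  have S : Sup (im π) X'.F Z :=
    ⟨fam_im, X'.lat.fam, X'.lat.fg, by rintro k _ ⟨u, hu, rfl⟩; exact hπ k u hu, fun p hp => by
      by_cases h : ∃ z ∈ Z0, ∃ c : ℂ, p = c • z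
      · obtain ⟨z, hz, c, rfl⟩ := h
        have hc : c ≠ 0 := by
          rintro rfl
          simp at hp
        rcases gd_or_nd C.M.det (hZ0 z hz) with hg | hn
        · exact Or.inl ⟨z, hZ2 z hz hg, c, hc, rfl⟩
        · obtain ⟨s, d, y, k1, k2, k3⟩ := hs z hn
          exact Or.inr fun k v hv => ⟨d, y, u1_smul k1 hc, s v, add_comm k d ▸ k2 k v hv, k3 v⟩
      · exact Or.inr (hZ1 p hp fun z hz c e => h ⟨z, hz, c, e⟩)⟩
  obtain ⟨l, hl, hl'⟩ := exists_lin _ fun z hz => (hZ z hz).1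
  obtain ⟨I, J, i, j, a, b, hI, hJ, hIJ, hII, hJJ, ha, hb, hab⟩ := hO C hC _ hZ
  have st : ∀ (I : C.B) (i : ℤ), I ∈ C.O i → ∀ k, ∀ v ∈ im π k, I • v ∈ im π (i + k) := by
    rintro I i hI k _ ⟨u, hu, rfl⟩
    exact ⟨I • u, X.stab i k I hI u hu, π.map_smul I u⟩
  obtain ⟨μ, hμ⟩ := S.gap hN hV hl.mem (U1.ne ⟨l, hl, rfl, hl' _ hz0⟩)
    (fun z hz => ⟨l, hl, rfl, hl' z hz⟩) (DistribSMul.toLinearMap K X'.V I)
    (DistribSMul.toLinearMap K X'.V J) (a := ev a) (b := ev b) (st I i hI)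
    (fun k => X'.stab i k I hI) (st J j hJ) (fun k => X'.stab j k J hJ)
    (fun v => show I • J • v = -(J • I • v) by rw [← mul_smul, ← mul_smul, hIJ, neg_smul])
    (fun v => show I • I • v = _ by rw [← mul_smul, hII, algebraMap_smul])
    (fun v => show J • J • v = _ by rw [← mul_smul, hJJ, algebraMap_smul])
    (fun z hz => ⟨a, ha, rfl, (hab z hz).1⟩) fun z hz => ⟨b, hb, rfl, (hab z hz).2⟩
  refine ⟨μ, hμ, fun Y => ?_⟩
  obtain ⟨n, hn⟩ := (hH C hC Y X').2.2.1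
  filter_upwards [hom hN hV hL hH hC hZ hz0 hs S hμ Y hn] with k hk
  rw [hk, hn]
  ring

end Vale.Agent.P287Z.N
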