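import Vale.Agent.P287Z.N.Sk
import Vale.Agent.P287Z.L.Qd1

/-!
The annihilator of the discriminant module and the first Chern class of a quadratic lattice.
-/

namespace Vale.Agent.P287Z.N

open MvPolynomial Module Filter Matrix Vale.Agent.P287 Vale.Agent.P287.Theta Vale.Agent.P287Z.L

theorem qc (hD : L.stDET) : stQC := by
  intro f U G l hf h0 Q
  refine ⟨fun k w hw => QdA.ann hf Q hw, ?_⟩
  have hf0 := hf.ev_ne h0
  obtain ⟨ν, hν, H⟩ := hD (Fin 4 → K) U (Fin 4) (Pi.basisFun K (Fin 4)) Q.lat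
  have h1 := QdA.deg_zero (z := ν ^ 2 * G.det / ev f) (n := 4 * l - 6 - 2 * c1 U) fun p hp => by
    obtain ⟨u, h, y, hb, hy, hd⟩ := Q.loc p hp
    refine ⟨_, _, y, (((H u h hb.mem).2 p hp).1 hb).pow 2, hy.cast (by push_cast; ring), ?_⟩
    rw [QdA.gram] at hd
    generalize (Pi.basisFun K (Fin 4)).det u = t at hd
    generalize G.det = s at hd
    generalize ev f = r at hd hf0
    rw [div_pow, div_mul_div_comm, div_eq_iff (mul_ne_zero hf0 (pow_ne_zero 2 hν)), ← mul_assoc y,
      ← hd]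
    ring
  omega

end Vale.Agent.P287Z.N
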