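import Vale.Agent.P287Z.N.Sk2

/-!
The type of the relation lattices.
-/

namespace Vale.Agent.P287Z.N

open MvPolynomial Module Filter Matrix Vale.Agent.P287 Vale.Agent.P287.Theta Vale.Agent.P287Z.L

namespace Spa

lemma lift {B V W E : Type} [Ring B] [AddCommGroup V] [Module B V] [AddCommGroup W] [Module B W]
    [AddCommGroup E] [Module B E] (κ : W →ₗ[B] E) (i : Function.Injective κ) (f : V →ₗ[B] E)
    (h : ∀ v, ∃ w, κ w = f v) : ∃ f' : V →ₗ[B] W, ∀ v, κ (f' v) = f v := by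
  choose g hg using h
  exact ⟨{ toFun := g
           map_add' := fun a b => i (by rw [map_add, hg, hg, hg, map_add])
           map_smul' := fun c a => i (by rw [RingHom.id_apply, map_smul, hg, hg, map_smul]) }, hg⟩

variable {C : Cx}

lemma inv (hT : stTY1) (hC : Ctx C) {p : Fin 3 → ℂ} {χ : ℤ → C.B →ₗ[ℂ] ℂ} (hp : p ≠ 0)
    (hχ : Chr C.O p χ) {X Y : OL C} {E E' : Type} [AddCommGroup E] [Module C.B E] [Module K E]
    [IsScalarTower K C.B E] [AddCommGroup E'] [Module C.B E'] [Module K E']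
    [IsScalarTower K C.B E'] (κ : X.V →ₗ[C.B] E) (κ' : Y.V →ₗ[C.B] E')
    (i : Function.Injective κ) (i' : Function.Injective κ') (R : E → Prop) (R' : E' → Prop)
    (r : ∀ x, (∃ v, κ v = x) ↔ R x) (r' : ∀ x, (∃ v, κ' v = x) ↔ R' x)
    (F : ℤ → E → Prop) (F' : ℤ → E' → Prop) (f : ∀ k v, v ∈ X.F k ↔ F k (κ v))
    (f' : ∀ k v, v ∈ Y.F k ↔ F' k (κ' v)) (Φ : E →ₗ[C.B] E') (Ψ : E' →ₗ[C.B] E) {d d' : ℤ}
    {y : K} (hy : U1 p (d + d') y) (h1 : ∀ x, R x → R' (Φ x)) (h2 : ∀ x, R' x → R (Ψ x))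
    (h3 : ∀ k x, F k x → F' (k + d) (Φ x)) (h4 : ∀ k x, F' k x → F (k + d') (Ψ x))
    (h5 : ∀ x, R x → Ψ (Φ x) = y • x) (h6 : ∀ x, R' x → Φ (Ψ x) = y • x) :
    ty χ X = ty χ Y := by
  obtain ⟨Φ', a⟩ := lift κ' i' (Φ ∘ₗ κ) fun v => (r' _).2 (h1 _ ((r _).1 ⟨v, rfl⟩))
  obtain ⟨Ψ', b⟩ := lift κ i (Ψ ∘ₗ κ') fun v => (r _).2 (h2 _ ((r' _).1 ⟨v, rfl⟩))
  refine (hT C hC p χ hp hχ).2.1 X Y Φ' Ψ' d d' y (fun j v hv => ?_) (fun j v hv => ?_) hy
    (fun v => i ?_) fun v => i' ?_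
  · rw [f', a]
    exact h3 _ _ ((f _ _).1 hv)
  · rw [f, b]
    exact h4 _ _ ((f' _ _).1 hv)
  · rw [b, LinearMap.comp_apply, a, LinearMap.map_smul_of_tower]
    exact h5 _ ((r _).1 ⟨v, rfl⟩)
  · rw [a, LinearMap.comp_apply, b, LinearMap.map_smul_of_tower]
    exact h6 _ ((r' _).1 ⟨v, rfl⟩)

lemma sum_model {S X Y : OL C} (h : IsSum S X Y) {E E' : Type} [AddCommGroup E] [Module C.B E]
    [AddCommGroup E'] [Module C.B E'] (κ : X.V →ₗ[C.B] E) (κ' : Y.V ≃ₗ[C.B] E')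
    (i : Function.Injective κ) {R : E → Prop} (r : ∀ x, (∃ v, κ v = x) ↔ R x)
    {F : ℤ → E → Prop} {F' : ℤ → E' → Prop} (f : ∀ k v, v ∈ X.F k ↔ F k (κ v))
    (f' : ∀ k v, v ∈ Y.F k ↔ F' k (κ' v)) : ∃ σ : S.V →ₗ[C.B] E × E', Function.Injective σ ∧
      (∀ x, (∃ v, σ v = x) ↔ R x.1) ∧ ∀ k v, v ∈ S.F k ↔ F k (σ v).1 ∧ F' k (σ v).2 := by
  obtain ⟨φ, hφ⟩ := h
  refine ⟨κ.prodMap κ'.toLinearMap ∘ₗ φ.toLinearMap, (i.prodMap κ'.injective).comp φ.injective,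
    fun x => ⟨?_, fun hx => ?_⟩, fun k v => by rw [hφ, f, f']; rfl⟩
  · rintro ⟨v, rfl⟩
    exact (r _).1 ⟨_, rfl⟩
  · obtain ⟨v, hv⟩ := (r _).2 hx
    exact ⟨φ.symm (v, κ'.symm x.2), by simp [hv]⟩

lemma exists_sep {p q : Fin 3 → ℂ} (hp : p ≠ 0) (h : ∀ c : ℂ, q ≠ c • p) :
    ∃ l : P3, Hg 1 l ∧ eval p l = 0 ∧ eval q l ≠ 0 := by
  obtain ⟨i, hi⟩ := Function.ne_iff.1 hp
  obtain ⟨j, hj⟩ := Function.ne_iff.1 (h (q i / p i))
  refine ⟨MvPolynomial.C (p i) * X j - MvPolynomial.C (p j) * X i,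
    ((hg_X j).C_mul _).sub ((hg_X i).C_mul _), by simp [mul_comm], fun h0 => hj ?_⟩
  have hi' : p i ≠ 0 := hi
  simp only [map_sub, map_mul, eval_C, eval_X] at h0
  rw [Pi.smul_apply, smul_eq_mul]
  field_simp
  linear_combination h0

lemma one_mem (C : Cx) : (1 : C.B) ∈ C.O 0 := self_mem_Sp C.o oz 0

/-- right multiplication by a matrix -/
def rm {B ι κ : Type} [Ring B] [Fintype ι] (c : ι → κ → B) : (ι → B) →ₗ[B] (κ → B) where
  toFun x j := ∑ i, x i * c i j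
  map_add' a b := funext fun j => by simp [add_mul, Finset.sum_add_distrib]
  map_smul' a b := funext fun j => by simp [Finset.mul_sum, mul_assoc]

/-- multiplication by a scalar -/
noncomputable def sm {E : Type} [AddCommGroup E] [Module C.B E] [Module K E]
    [IsScalarTower K C.B E] (y : K) : E →ₗ[C.B] E where
  toFun x := y • x
  map_add' := smul_add y
  map_smul' b x := by
    rw [RingHom.id_apply, ← algebraMap_smul C.B y, ← algebraMap_smul C.B y, smul_smul, smul_smul,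
      Algebra.commutes]

end Spa

open Spa

theorem spa (hT : stTY1) (hS : stSUM) (hI : stISO) (hK : stKER) : stSPA := by
  intro C hC p q χ χ' ι _ m g L hp hq hpq hχ hχ' hg hL
  obtain ⟨l, l1, l2, l3⟩ := exists_sep hp hpq
  have hO := hC.tab.lat.fam
  obtain ⟨N, n1, n2⟩ : ∃ N : ℕ, m ≤ N ∧ N ≠ 0 := ⟨m.toNat + 1, by omega, by omega⟩
  have l4 : Hg N (l ^ N) := (l1.pow N).cast (mul_one _)
  have hy : U1 q N (ev (l ^ N)) := ⟨_, l4, rfl, by rw [map_pow]; exact pow_ne_zero _ l3⟩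
  obtain ⟨c, c1, c2⟩ := hg.2 N n1 (ev (l ^ N) • 1) (hO.smul hy.mem (one_mem C) (add_zero _)) (by
    have := hχ.smul N 0 _ l4 1 (one_mem C)
    rwa [add_zero, map_pow (eval p), l2, zero_pow n2, zero_mul] at this)
  generalize ev (l ^ N) = y at hy c2
  obtain ⟨Q, φ, hφ⟩ := (hK C hC).2.1 ι m
  obtain ⟨P, hP⟩ := (hI C hC).1 0
  obtain ⟨S, hS', -⟩ := hS C hC L P
  obtain ⟨κ, k1, k2, k3⟩ := hL
  obtain ⟨ψ, hψ⟩ := id hP
  obtain ⟨σ, s1, s2, s3⟩ := sum_model hS' κ ψ k1 k2 (F := fun k x => ∀ i, x i ∈ C.O (k - m))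
    (F' := fun k x => x ∈ C.O (k - 0)) k3 hψ
  obtain ⟨-, -, t1, t2, t3, -⟩ := hT C hC q χ' hq hχ'
  rw [← t2 P 0 hP, ← t1 S L P hS', ← t3 Q ι m ⟨φ, hφ⟩]
  let G : (ι → C.B) →ₗ[C.B] C.B := Fintype.linearCombination C.B g
  let H : C.B →ₗ[C.B] (ι → C.B) := LinearMap.toSpanSingleton C.B _ c
  have eG : ∀ x, G x = ∑ i, x i * g i := fun x => Fintype.linearCombination_apply _ _ _
  have eH : ∀ b i, H b i = b * c i := fun _ _ => rfl
  have GH : ∀ b, G (H b) = y • b := fun b => by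
    simp only [eG, eH, mul_assoc]
    rw [← Finset.mul_sum, ← c2, mul_smul_comm, mul_one]
  have mG : ∀ k x, (∀ i, x i ∈ C.O (k - m)) → G x ∈ C.O k := fun k x hx => by
    rw [eG]
    exact Submodule.sum_mem _ fun i _ =>
      mem_cast (hC.tab.mul _ _ _ (hx i) _ (hg.1 i).1) (sub_add_cancel _ _)
  symm
  refine inv hT hC hq hχ' φ.toLinearMap σ φ.injective s1 (fun _ => True) _
    (fun x => iff_of_true (φ.surjective x) trivial) s2 (fun k x => ∀ i, x i ∈ C.O (k - m))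
    (fun k x => (∀ i, x.1 i ∈ C.O (k - m)) ∧ x.2 ∈ C.O (k - 0)) hφ s3
    ((sm y - H ∘ₗ G).prod (sm y ∘ₗ G)) ((sm y).coprod H) (hy.mul hy) (fun x _ => ?_)
    (fun _ _ => trivial) (fun k x hx => ⟨fun i => ?_, ?_⟩) (fun k x hx i => ?_) (fun x _ => ?_)
    fun x hx => ?_
  · rw [← eG]
    change G (y • x - H (G x)) = 0
    rw [map_sub, GH, LinearMap.map_smul_of_tower, sub_self]
  · exact sub_mem (hO.smul hy.mem (hx i) (by ring))
      (mem_cast (hC.tab.mul _ _ _ (mG k x hx) _ (c1 i)) (by ring))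
  · exact hO.smul hy.mem (mG k x hx) (by ring)
  · exact add_mem (hO.smul hy.mem (hx.1 i) (by ring))
      (mem_cast (hC.tab.mul _ _ _ hx.2 _ (c1 i)) (by ring))
  · change y • (y • x - H (G x)) + H (y • G x) = _
    rw [LinearMap.map_smul_of_tower, smul_sub, sub_add_cancel, mul_smul]
  · rw [← eG] at hx
    have e : G (y • x.1 + H x.2) = y • x.2 := by
      rw [map_add, LinearMap.map_smul_of_tower, hx, smul_zero, zero_add, GH]
    change (y • (y • x.1 + H x.2) - H (G (y • x.1 + H x.2)), y • G (y • x.1 + H x.2)) = _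
    rw [e, LinearMap.map_smul_of_tower, smul_add, add_sub_cancel_right, mul_smul]
    rfl

theorem sph2 (hT : stTY1) (hS : stSUM) (hK : stKER) (hG : stLGEN) (hA : stSPA) (hB : stSPB) :
    stSPH2 := by
  intro C hC ν s l n t g L l1 l2 g0 g1 g2 hg hL
  refine ⟨?_, fun q χ hq hχ h => by
    have := hA C hC ν.p q _ χ _ _ g L ν.hp hq h (ν.chr s) hχ hg hL
    rw [Fintype.card_sum, Fintype.card_fin, Fintype.card_fin] at this
    omega⟩
  have hO := hC.tab.lat.fam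
  obtain ⟨N, y, hy, h⟩ := hG C hC ν s
  have hw : U1 ν.p t (ev l ^ t) := (U1.pow ⟨l, l1, rfl, l2⟩ t).cast (mul_one _)
  generalize ev l ^ t = w at hw g0 g1 g2
  let γ : Fin 3 → C.B := ![ν.J s, ν.a, ν.b]
  have gγ : ∀ i, g (Sum.inl i) = w • γ i := fun i => by
    fin_cases i
    exacts [g0, g1, g2]
  obtain ⟨X, x1, x2⟩ : ∃ X : Fin n → Fin 3 → C.B, (∀ j i, X j i ∈ C.O (t + N)) ∧
      ∀ j, y • g (Sum.inr j) = ∑ i, X j i * γ i := by
    choose x₀ x₁ x₂ a0 a1 a2 a3 using fun j => h _ _ (hg.1 (Sum.inr j)).1 (hg.1 (Sum.inr j)).2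
    refine ⟨fun j => ![x₀ j, x₁ j, x₂ j], fun j i => ?_, fun j => (a3 j).trans (Fin.sum_univ_three
      fun i => ![x₀ j, x₁ j, x₂ j] i * γ i).symm⟩
    fin_cases i
    exacts [mem_cast (a0 j) (by ring), mem_cast (a1 j) (by ring), mem_cast (a2 j) (by ring)]
  obtain ⟨L₃, hL₃⟩ := (hK C hC).1 (Fin 3) ν.d γ
  obtain ⟨Q, φ, hφ⟩ := (hK C hC).2.1 (Fin n) (ν.d + t)
  obtain ⟨S, hS', -⟩ := hS C hC L₃ Q
  obtain ⟨κ, k1, k2, k3⟩ := hL
  obtain ⟨κ', j1, j2, j3⟩ := id hL₃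
  obtain ⟨σ, s1, s2, s3⟩ := sum_model hS' κ' φ j1 j2 (F := fun k x => ∀ i, x i ∈ C.O (k - ν.d))
    (F' := fun k x => ∀ i, x i ∈ C.O (k - (ν.d + t))) j3 hφ
  obtain ⟨-, -, t1, -, t3, -⟩ := hT C hC ν.p _ ν.hp (ν.chr (!s))
  have e := t1 S L₃ Q hS'
  rw [hB C hC ν s L₃ hL₃, t3 Q _ _ ⟨φ, hφ⟩, zero_add, Fintype.card_fin] at e
  rw [← e]
  let A := LinearEquiv.sumArrowLequivProdArrow (Fin 3) (Fin n) C.B C.B
  let G : (Fin 3 → C.B) →ₗ[C.B] C.B := Fintype.linearCombination C.B γ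
  let G' : (Fin n → C.B) →ₗ[C.B] C.B := Fintype.linearCombination C.B fun j => g (Sum.inr j)
  have eG : ∀ x, G x = ∑ i, x i * γ i := fun x => Fintype.linearCombination_apply _ _ _
  have eG' : ∀ x, G' x = ∑ j, x j * g (Sum.inr j) := fun x => Fintype.linearCombination_apply _ _ _
  have GX : ∀ x, G (rm X x) = y • G' x := fun x => by
    rw [eG, eG', Finset.smul_sum]
    simp only [← mul_smul_comm, x2, Finset.mul_sum, ← mul_assoc]
    rw [Finset.sum_comm]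
    exact Finset.sum_congr rfl fun i _ => Finset.sum_mul _ _ _
  have mX : ∀ k x, (∀ j, x j ∈ C.O (k - (ν.d + t))) → ∀ i, rm X x i ∈ C.O (k + N - ν.d) := by
    intro k x hx i
    change ∑ j, x j * X j i ∈ _
    exact Submodule.sum_mem _ fun j _ => mem_cast (hC.tab.mul _ _ _ (hx j) _ (x1 j i)) (by ring)
  refine inv hT hC ν.hp (ν.chr (!s)) (A.toLinearMap ∘ₗ κ) σ (A.injective.comp k1) s1
    (fun x => w • G x.1 + G' x.2 = 0) _ (fun x => ?_) s2
    (fun k x => (∀ i, x.1 i ∈ C.O (k - (ν.d + t))) ∧ ∀ i, x.2 i ∈ C.O (k - (ν.d + t)))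
    (fun k x => (∀ i, x.1 i ∈ C.O (k - ν.d)) ∧ ∀ i, x.2 i ∈ C.O (k - (ν.d + t)))
    (fun k v => (k3 k v).trans Sum.forall) s3
    (((sm (y * w)).coprod (rm X)).prod (sm y ∘ₗ LinearMap.snd _ _ _))
    (((sm y).coprod (-rm X)).prod (sm (y * w) ∘ₗ LinearMap.snd _ _ _))
    (hy.mul (hy.mul hw)) (fun x hx => ?_) (fun x hx => ?_)
    (fun k x hx => ⟨fun i => ?_, fun i => ?_⟩) (fun k x hx => ⟨fun i => ?_, fun i => ?_⟩)
    (fun x _ => ?_) fun x _ => ?_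
  · have e1 : ∑ i, A.symm x i * g i = w • G x.1 + G' x.2 := by
      rw [Fintype.sum_sum_type, eG, eG', Finset.smul_sum]
      simp only [gγ, mul_smul_comm]
      rfl
    rw [← e1, ← k2]
    exact exists_congr fun v => A.eq_symm_apply.symm
  · rw [← eG]
    change G ((y * w) • x.1 + rm X x.2) = 0
    rw [map_add, GX, LinearMap.map_smul_of_tower, mul_smul, ← smul_add, hx, smul_zero]
  · rw [← eG] at hx
    change w • G (y • x.1 + -rm X x.2) + G' ((y * w) • x.2) = 0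
    rw [map_add, map_neg, GX, LinearMap.map_smul_of_tower, LinearMap.map_smul_of_tower, hx,
      smul_zero, zero_add, smul_neg, smul_smul, mul_comm w y, neg_add_cancel]
  · exact add_mem (hO.smul (hy.mul hw).mem (hx.1 i) (by ring)) (mX k _ hx.2 i)
  · exact hO.smul hy.mem (hx.2 i) (by ring)
  · exact add_mem (hO.smul hy.mem (hx.1 i) (by ring))
      (neg_mem (mem_cast (mX k _ hx.2 i) (by ring)))
  · exact hO.smul (hy.mul hw).mem (hx.2 i) (by ring)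
  · change (y • ((y * w) • x.1 + rm X x.2) + -rm X (y • x.2), (y * w) • y • x.2) = _
    rw [LinearMap.map_smul_of_tower, smul_add, add_neg_cancel_right, smul_smul, smul_smul,
      mul_comm (y * w) y]
    rfl
  · change ((y * w) • (y • x.1 + -rm X x.2) + rm X ((y * w) • x.2), y • (y * w) • x.2) = _
    rw [LinearMap.map_smul_of_tower, smul_add, smul_neg, neg_add_cancel_right, smul_smul,
      smul_smul, mul_comm (y * w) y]
    rfl

end Vale.Agent.P287Z.N
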