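import Vale.Agent.P287Z.N.Sk2
import Vale.Agent.P287Z.L.Spl

/-!
The relation lattice of the three local generators at a node.
-/

namespace Vale.Agent.P287Z.N

open MvPolynomial Module Filter Matrix Vale.Agent.P287 Vale.Agent.P287.Theta Vale.Agent.P287Z.L

namespace Spb

set_option linter.unusedSectionVars false

section alg

variable {F B : Type} [Field F] [Ring B] [Algebra F B] {I a b : B} {α A₁ A₂ A₃ : F}

/-- the relations -/
structure Rl (I a b : B) (α A₁ A₂ A₃ : F) : Prop where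
  II : I * I = α • 1
  aa : a * a = A₁ • 1
  ba : b * a = (2 * A₂) • 1 - a * b
  bb : b * b = A₃ • 1
  aI : a * I = -(I * a)
  bI : b * I = -(I * b)

variable (H : Rl I a b α A₁ A₂ A₃)
include H

theorem Rl.r2 (c : F) : a * (I - c • 1) + (I + c • 1) * a = 0 := by
  simp only [mul_sub, add_mul, smul_mul_assoc, mul_smul_comm, mul_one, one_mul, H.aI]
  module

theorem Rl.r3 (c : F) : b * (I - c • 1) + (I + c • 1) * b = 0 := by
  simp only [mul_sub, add_mul, smul_mul_assoc, mul_smul_comm, mul_one, one_mul, H.bI]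
  module

theorem Rl.r2' (c : F) : (I - c • 1) * a + a * (I + c • 1) = 0 := by
  simp only [sub_mul, mul_add, smul_mul_assoc, mul_smul_comm, mul_one, one_mul, H.aI]
  module

theorem Rl.r3' (c : F) : (I - c • 1) * b + b * (I + c • 1) = 0 := by
  simp only [sub_mul, mul_add, smul_mul_assoc, mul_smul_comm, mul_one, one_mul, H.bI]
  module

theorem Rl.q (x y z : F) :
    (x • a + y • b) * a + (y • a + z • b) * b = (x * A₁ + 2 * y * A₂ + z * A₃) • 1 := by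
  simp only [add_mul, smul_mul_assoc, H.aa, H.ba, H.bb]
  module

theorem Rl.j1 (c : F) : (I + c • 1) * (I - c • 1) = (α - c * c) • 1 := by
  simp only [mul_sub, add_mul, smul_mul_assoc, mul_smul_comm, mul_one, one_mul, H.II]
  module

theorem Rl.j2 (c : F) : (I - c • 1) * (I + c • 1) = (α - c * c) • 1 := by
  simp only [sub_mul, mul_add, smul_mul_assoc, mul_smul_comm, mul_one, one_mul, H.II]
  module

theorem Rl.j3 (c x y : F) :
    (I - c • 1) * (x • a + y • b) = -(x • a + y • b) * (I + c • 1) := by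
  simp only [sub_mul, mul_add, add_mul, neg_mul, smul_mul_assoc, mul_smul_comm, mul_one, one_mul,
    H.aI, H.bI]
  module

theorem Rl.sol (a0 : a ≠ 0) (hd : ∀ x : B, x ≠ 0 → IsUnit x) {x y z : F}
    (h : x * A₁ + 2 * y * A₂ + z * A₃ = 0) (h0 : x * z - y ^ 2 ≠ 0) {s t : B}
    (e : s * a + t * b = 0) : ∃ r, r * (x • a + y • b) = s ∧ r * (y • a + z • b) = t := by
  have k := H.q x y z
  have ha := hd a a0
  rw [h, zero_smul] at k
  have hw : y • a + z • b ≠ 0 := fun k0 => by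
    rw [k0, zero_mul, add_zero, ha.mul_left_eq_zero] at k
    have e1 : (x * z - y ^ 2) • a = z • (x • a + y • b) - y • (y • a + z • b) := by module
    rw [k, k0, smul_zero, smul_zero, sub_zero, smul_eq_zero] at e1
    exact a0 (e1.resolve_left h0)
  obtain ⟨w, hw⟩ := hd _ hw
  refine ⟨t * ↑w⁻¹, ha.mul_left_inj.1 ?_, by rw [← hw, Units.inv_mul_cancel_right]⟩
  rw [mul_assoc, eq_neg_of_add_eq_zero_left k, eq_neg_of_add_eq_zero_left e, ← hw, mul_neg,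
    ← mul_assoc, Units.inv_mul_cancel_right]

omit H in
theorem tw (c : F) : (-2 * c) • (1 : B) = I - c • 1 + -(I + c • 1) := by module

omit H in
theorem da (r : B) (x y z : F) : (x * z - y ^ 2) • r * a =
    z • (r * (x • a + y • b)) + -y • (r * (y • a + z • b)) := by
  simp only [mul_add, smul_mul_assoc, mul_smul_comm]
  module

omit H in
theorem db (r : B) (x y z : F) : (x * z - y ^ 2) • r * b =
    x • (r * (y • a + z • b)) + -y • (r * (x • a + y • b)) := by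
  simp only [mul_add, smul_mul_assoc, mul_smul_comm]
  module

theorem Rl.gen (r : B) (x y z : F) : (x * A₁ + 2 * y * A₂ + z * A₃) • r =
    x • (r * a * a) + y • (r * a * b + r * b * a) + z • (r * b * b) := by
  simp only [mul_assoc, H.aa, H.ba, H.bb, mul_sub, mul_smul_comm, mul_one]
  module

end alg

variable {B V : Type} [Ring B] [Algebra K B] [Algebra ℂ B] [IsScalarTower ℂ K B] [AddCommGroup V]
  [Module ℂ V] [Module K V] [Module B V] [IsScalarTower ℂ K V] [IsScalarTower K B V]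
  {O : ℤ → Submodule ℂ B} {F R : ℤ → Submodule ℂ V} {p : Fin 3 → ℂ} {χ : ℤ → B →ₗ[ℂ] ℂ}

theorem ext3 {κ : V →ₗ[B] Fin 3 → B} (h : Function.Injective κ) {v w : V} (h0 : κ v 0 = κ w 0)
    (h1 : κ v 1 = κ w 1) (h2 : κ v 2 = κ w 2) : v = w :=
  h (funext fun i => by fin_cases i <;> assumption)

theorem main (ν : NDg B O) (hO : Lat O) (mul : ∀ j k, ∀ x ∈ O j, ∀ y ∈ O k, x * y ∈ O (j + k))
    (hd : ∀ x : B, x ≠ 0 → IsUnit x) (hχ : Chr O ν.p χ) {c : P3} (hc : Hg ν.d c)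
    (c0 : eval ν.p c ≠ 0) (cc : eval ν.p c ^ 2 = eval ν.p ν.α) (χI : χ ν.d ν.I = -eval ν.p c)
    (χa : χ ν.d ν.a = 0) (χb : χ ν.d ν.b = 0) {κ : V →ₗ[B] Fin 3 → B}
    (inj : Function.Injective κ) (rel : ∀ x : Fin 3 → B, (∃ v, κ v = x) ↔
      x 0 * (ν.I - ev c • 1) + x 1 * ν.a + x 2 * ν.b = 0)
    (mem : ∀ k v, v ∈ F k ↔ ∀ i, κ v i ∈ O (k - ν.d))
    (r1 : ∀ j k, ∀ x ∈ O j, χ j x = 0 → ∀ v ∈ F k, x • v ∈ R (j + k))
    (r2 : ∀ j k, ∀ x ∈ O j, ∀ v ∈ R k, x • v ∈ R (j + k)) {m : ℤ} {y : K} (hy : U1 ν.p m y)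
    (lg : ∀ k, ∀ x ∈ O k, χ k x = 0 → ∃ x₀ x₁ x₂ : B, x₀ ∈ O (k + m - ν.d) ∧
      x₁ ∈ O (k + m - ν.d) ∧ x₂ ∈ O (k + m - ν.d) ∧
        y • x = x₀ * (ν.I + ev c • 1) + x₁ * ν.a + x₂ * ν.b) (k : ℤ) (v : V) (hv : v ∈ F k) :
    LocP R ν.p k v := by
  have H : Rl ν.I ν.a ν.b (ev ν.α) (ev ν.A₁) (ev ν.A₂) (ev ν.A₃) :=
    ⟨ν.II.trans (Algebra.algebraMap_eq_smul_one _), ν.aa.trans (Algebra.algebraMap_eq_smul_one _),
      eq_sub_of_add_eq' (ν.ab.trans (Algebra.algebraMap_eq_smul_one _)),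
      ν.bb.trans (Algebra.algebraMap_eq_smul_one _), neg_eq_iff_eq_neg.1 ν.Ia.symm,
      neg_eq_iff_eq_neg.1 ν.Ib.symm⟩
  have o1 : (1 : B) ∈ O 0 := ν.lb.mem 0
  have oI : ν.I ∈ O ν.d := ν.lb.mem 1
  have oa : ν.a ∈ O ν.d := ν.lb.mem 2
  have ob : ν.b ∈ O ν.d := ν.lb.mem 3
  have oc : ev c • (1 : B) ∈ O ν.d := hO.fam.smul hc.mem o1 (add_zero _)
  have xc : χ ν.d (ev c • 1) = eval ν.p c := by
    have := hχ.smul ν.d 0 c hc 1 o1
    rwa [add_zero, hχ.one, mul_one] at this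
  have oJ := sub_mem oI oc
  have oP := add_mem oI oc
  have hR : Fam R := fun j k g hg v hv => by
    have := r2 j k _ (hO.fam.smul hg o1 (add_zero _)) v hv
    rwa [smul_assoc, one_smul] at this
  have st : ∀ {j k n : ℤ} {x : B} {v : V}, x ∈ O j → v ∈ F k → j + k = n → x • v ∈ F n :=
    fun hx hv e => (mem _ _).2 fun i => by
      rw [map_smul]
      exact mem_cast (mul _ _ _ hx _ ((mem _ _).1 hv i)) (by omega)
  have ad : ∀ {k : ℤ} {v w : V}, LocP R ν.p k v → LocP R ν.p k w → LocP R ν.p k (v + w) :=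
    fun a b => a.add hR b
  have sm : ∀ {j k n : ℤ} {x : B} {v : V}, x ∈ O j → LocP R ν.p k v → j + k = n →
      LocP R ν.p n (x • v) := fun hx ⟨d, z, h1, h2⟩ e =>
    ⟨d, z, h1, by rw [smul_comm]; exact mem_cast (r2 _ _ _ hx _ h2) (by omega)⟩
  have ra : ∀ {j k n : ℤ} {x : B} {v : V}, x ∈ O j → χ j x = 0 → v ∈ F k → j + k = n →
      LocP R ν.p n (x • v) := fun hx h hv e => locP_of_mem (mem_cast (r1 _ _ _ hx h _ hv) e)
  have us : ∀ {j k n : ℤ} {z : K} {v : V}, U1 ν.p j z → LocP R ν.p n ((z • (1 : B)) • v) →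
      j + k = n → LocP R ν.p k v := fun hz h e => by
    rw [smul_assoc, one_smul, ← e] at h
    exact h.of_smul hz
  have oj : ∀ {k : ℤ} {v : V}, v ∈ F k → LocP R ν.p (ν.d + k) ((ν.I - ev c • 1) • v) →
      LocP R ν.p k v := fun {k v} hv h => by
    have e : ((ev (C (-2) * c)) • (1 : B)) • v =
        (ν.I - ev c • 1) • v + (-(ν.I + ev c • 1)) • v := by
      rw [← add_smul, map_mul, ev_C, map_neg, map_ofNat, tw]
    refine us (z := ev (C (-2) * c)) ⟨_, hc.C_mul _, rfl, by simpa using c0⟩ ?_ rfl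
    rw [e]
    exact ad h (ra (neg_mem oP) (by rw [map_neg, map_add, χI, xc, neg_add_cancel, neg_zero]) hv rfl)
  have cb : ∀ {j : ℤ} {g g' : P3}, Hg j g → Hg j g' → ev g • ν.a + ev g' • ν.b ∈ O (j + ν.d) ∧
      χ (j + ν.d) (ev g • ν.a + ev g' • ν.b) = 0 := fun h h' =>
    ⟨add_mem (hO.fam.smul h.mem oa rfl) (hO.fam.smul h'.mem ob rfl), by
      rw [map_add, hχ.smul _ _ _ h _ oa, hχ.smul _ _ _ h' _ ob, χa, χb, mul_zero, mul_zero,
        add_zero]⟩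
  obtain ⟨n, y₀, hn, y0, gen⟩ := ν.gen
  have gn : ∀ {j : ℤ} {g : P3}, Hg j g → eval ν.p g = 0 → ∃ c₁ c₂ c₃, Hg (j + n - 2 * ν.d) c₁ ∧
      Hg (j + n - 2 * ν.d) c₂ ∧ Hg (j + n - 2 * ν.d) c₃ ∧ ev y₀ * ev g =
        ev c₁ * ev ν.A₁ + 2 * ev c₂ * ev ν.A₂ + ev c₃ * ev ν.A₃ := fun h h0 => by
    obtain ⟨c₁, c₂, c₃, h1, h2, h3, e⟩ := gen _ _ h h0
    refine ⟨c₁, C 2⁻¹ * c₂, c₃, h1, h2.C_mul _, h3, ?_⟩
    rw [← map_mul, e, map_add, map_add, map_mul, map_mul, map_mul, map_mul, ev_C, map_inv₀,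
      map_ofNat, mul_inv_cancel_left₀ two_ne_zero]
  have uy : U1 ν.p n (ev y₀) := ⟨_, hn, rfl, y0⟩
  have oy : ev y₀ • (1 : B) ∈ O n := hO.fam.smul hn.mem o1 (add_zero _)
  have uD : U1 ν.p (ν.e + ν.e) (ev ν.μ₁ * ev ν.μ₃ - ev ν.μ₂ ^ 2) :=
    ⟨_, (ν.m₁.mul ν.m₃).sub ((ν.m₂.pow 2).cast (by push_cast; ring)), by simp, ν.μ0⟩
  have hμ : ev ν.μ₁ * ev ν.A₁ + 2 * ev ν.μ₂ * ev ν.A₂ + ev ν.μ₃ * ev ν.A₃ = 0 := by
    simpa [map_ofNat] using congrArg ev ν.rel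
  obtain ⟨k₁, k₂, k₃, g1, g2, g3, ge⟩ := gn (ν.hα.sub ((hc.mul hc).cast (two_mul _).symm))
    (by rw [map_sub, map_mul, ← cc, sq, sub_self])
  rw [add_sub_cancel_left] at g1 g2 g3
  rw [map_sub, map_mul] at ge
  obtain ⟨v₁, e₁⟩ := (rel ![ev y₀ • (ν.I + ev c • 1), -(ev k₁ • ν.a + ev k₂ • ν.b),
      -(ev k₂ • ν.a + ev k₃ • ν.b)]).2 (by
    simp only [cons_val_zero, cons_val_one, cons_val]
    rw [smul_mul_assoc, H.j1, smul_smul, ge, ← H.q, neg_mul, neg_mul]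
    abel)
  obtain ⟨v₂, e₂⟩ := (rel ![ν.a, ν.I + ev c • 1, 0]).2 (by simpa using H.r2 (ev c))
  obtain ⟨v₃, e₃⟩ := (rel ![ν.b, 0, ν.I + ev c • 1]).2 (by simpa using H.r3 (ev c))
  obtain ⟨v₄, e₄⟩ := (rel ![0, ev ν.μ₁ • ν.a + ev ν.μ₂ • ν.b,
      ev ν.μ₂ • ν.a + ev ν.μ₃ • ν.b]).2 (by
    simp only [cons_val_zero, cons_val_one, cons_val]
    rw [zero_mul, zero_add, H.q, hμ, zero_smul])
  have f₁ : v₁ ∈ F (n + ν.d + ν.d) := (mem _ _).2 fun i => by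
    rw [e₁, add_sub_cancel_right]
    fin_cases i
    exacts [hO.fam.smul hn.mem oP rfl, neg_mem (cb g1 g2).1, neg_mem (cb g2 g3).1]
  have f₂ : v₂ ∈ F (ν.d + ν.d) := (mem _ _).2 fun i => by
    rw [e₂, add_sub_cancel_right]
    fin_cases i
    exacts [oa, oP, zero_mem _]
  have f₃ : v₃ ∈ F (ν.d + ν.d) := (mem _ _).2 fun i => by
    rw [e₃, add_sub_cancel_right]
    fin_cases i
    exacts [ob, zero_mem _, oP]
  have f₄ : v₄ ∈ F (ν.e + ν.d + ν.d) := (mem _ _).2 fun i => by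
    rw [e₄, add_sub_cancel_right]
    fin_cases i
    exacts [zero_mem _, (cb ν.m₁ ν.m₂).1, (cb ν.m₂ ν.m₃).1]
  have p₄ : LocP R ν.p _ v₄ := oj f₄ (by
    rw [ext3 inj (v := (ν.I - ev c • 1) • v₄) (w := (-(ev ν.μ₁ • ν.a + ev ν.μ₂ • ν.b)) • v₂ +
      (-(ev ν.μ₂ • ν.a + ev ν.μ₃ • ν.b)) • v₃)]
    · exact ad (ra (neg_mem (cb ν.m₁ ν.m₂).1) (by rw [map_neg, (cb ν.m₁ ν.m₂).2, neg_zero]) f₂
        (by ring)) (ra (neg_mem (cb ν.m₂ ν.m₃).1) (by rw [map_neg, (cb ν.m₂ ν.m₃).2, neg_zero]) f₃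
        (by ring))
    all_goals simp only [map_add, map_smul, e₂, e₃, e₄, Pi.add_apply, Pi.smul_apply, smul_eq_mul,
      cons_val_zero, cons_val_one, cons_val, mul_zero, add_zero, zero_add]
    · rw [neg_mul, neg_mul, ← neg_add, H.q, hμ, zero_smul, neg_zero]
    · exact H.j3 _ _ _
    · exact H.j3 _ _ _)
  have A : ∀ {k : ℤ} {v : V}, v ∈ F k → κ v 0 = 0 → LocP R ν.p k v := fun {k v} hv h0 => by
    have h1 := (rel _).1 ⟨v, rfl⟩
    rw [h0, zero_mul, zero_add] at h1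
    obtain ⟨r, a1, a2⟩ := H.sol (ν.lb.li.ne_zero 2) hd hμ uD.ne h1
    have z := (mem _ _).1 hv
    have b1 : (ev ν.μ₁ * ev ν.μ₃ - ev ν.μ₂ ^ 2) • r * ν.a ∈ O (ν.e + (k - ν.d)) := by
      rw [da, a1, a2]
      exact add_mem (hO.fam.smul ν.m₃.mem (z 1) rfl) (hO.fam.smul (neg_mem ν.m₂.mem) (z 2) rfl)
    have b2 : (ev ν.μ₁ * ev ν.μ₃ - ev ν.μ₂ ^ 2) • r * ν.b ∈ O (ν.e + (k - ν.d)) := by
      rw [db, a1, a2]
      exact add_mem (hO.fam.smul ν.m₁.mem (z 2) rfl) (hO.fam.smul (neg_mem ν.m₂.mem) (z 1) rfl)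
    have b3 : ev y₀ • (ev ν.μ₁ * ev ν.μ₃ - ev ν.μ₂ ^ 2) • r ∈ O (n + ν.e + k - 2 * ν.d) := by
      obtain ⟨i, hi⟩ := Function.ne_iff.1 ν.hp
      refine hO.refl _ _ fun g hg => ?_
      obtain ⟨t, ht⟩ : ∃ t, ¬ g ∣ Spl.ll ν.p i t := by
        by_cases h : g ∣ Spl.ll ν.p i 1
        exacts [⟨0, Spl.ll_cop hg.1 h⟩, ⟨1, h⟩]
      obtain ⟨c₁, c₂, c₃, h1, h2, h3, e⟩ := gn (Spl.ll_hg (p := ν.p) (i := i) t)
        (by simp [Spl.ll, div_mul_cancel₀ _ hi])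
      refine ⟨1, _, ⟨_, Spl.ll_hg t, rfl, ht⟩, ?_⟩
      rw [smul_smul, mul_comm _ (ev y₀), e, H.gen]
      exact add_mem (add_mem (hO.fam.smul h1.mem (mul _ _ _ b1 _ oa) (by ring))
        (hO.fam.smul h2.mem (add_mem (mul _ _ _ b1 _ ob) (mul _ _ _ b2 _ oa)) (by ring)))
        (hO.fam.smul h3.mem (mul _ _ _ b2 _ ob) (by ring))
    refine us (uy.mul uD) ?_ rfl
    rw [ext3 inj (v := _ • v) (w := (ev y₀ • (ev ν.μ₁ * ev ν.μ₃ - ev ν.μ₂ ^ 2) • r) • v₄)]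
    · exact sm b3 p₄ (by ring)
    all_goals simp only [map_smul, e₄, Pi.smul_apply, smul_eq_mul, cons_val_zero, cons_val_one,
      cons_val, mul_zero, h0, smul_mul_assoc, one_mul, a1, a2, mul_smul]
  have p₂ : LocP R ν.p _ v₂ := oj f₂ (us uy (by
    rw [← add_neg_cancel_right (_ • _ • v₂) (ν.a • v₁), ← neg_smul]
    refine ad (A (add_mem (st oy (st oJ f₂ rfl) rfl) (st oa f₁ (by ring))) ?_)
      (ra (neg_mem oa) (by rw [map_neg, χa, neg_zero]) f₁ (by ring))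
    simp only [map_add, map_smul, e₁, e₂, Pi.add_apply, Pi.smul_apply, smul_eq_mul, cons_val_zero,
      smul_mul_assoc, one_mul, mul_smul_comm, ← smul_add, H.r2', smul_zero]) rfl)
  have p₃ : LocP R ν.p _ v₃ := oj f₃ (us uy (by
    rw [← add_neg_cancel_right (_ • _ • v₃) (ν.b • v₁), ← neg_smul]
    refine ad (A (add_mem (st oy (st oJ f₃ rfl) rfl) (st ob f₁ (by ring))) ?_)
      (ra (neg_mem ob) (by rw [map_neg, χb, neg_zero]) f₁ (by ring))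
    simp only [map_add, map_smul, e₁, e₃, Pi.add_apply, Pi.smul_apply, smul_eq_mul, cons_val_zero,
      smul_mul_assoc, one_mul, mul_smul_comm, ← smul_add, H.r3', smul_zero]) rfl)
  have p₁ : LocP R ν.p _ v₁ := oj f₁ (by
    rw [show (ν.I - ev c • 1) • v₁ = (ν.I - ev c • 1) • v₁ + (-(ev k₁ • ν.a + ev k₂ • ν.b)) • v₂ +
      (-(ev k₂ • ν.a + ev k₃ • ν.b)) • v₃ + (ev k₁ • ν.a + ev k₂ • ν.b) • v₂ +
        (ev k₂ • ν.a + ev k₃ • ν.b) • v₃ by rw [neg_smul, neg_smul]; abel]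
    refine ad (ad (A (add_mem (add_mem (st oJ f₁ rfl) (st (neg_mem (cb g1 g2).1) f₂ (by ring)))
      (st (neg_mem (cb g2 g3).1) f₃ (by ring))) ?_) (sm (cb g1 g2).1 p₂ (by ring)))
      (sm (cb g2 g3).1 p₃ (by ring))
    simp only [map_add, map_smul, e₁, e₂, e₃, Pi.add_apply, Pi.smul_apply, smul_eq_mul,
      cons_val_zero]
    rw [mul_smul_comm, H.j2, smul_smul, ge, ← H.q, neg_mul, neg_mul]
    abel)
  have z := (mem _ _).1 hv
  have h1 := congrArg (χ (k - ν.d + ν.d)) ((rel _).1 ⟨v, rfl⟩)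
  rw [map_add, map_add, hχ.mul _ _ _ (z 0) _ oJ, hχ.mul _ _ _ (z 1) _ oa, hχ.mul _ _ _ (z 2) _ ob,
    χa, χb, map_sub, χI, xc, mul_zero, mul_zero, add_zero, add_zero, map_zero, mul_eq_zero] at h1
  obtain ⟨x₀, x₁, x₂, a0, a1, a2, e⟩ := lg _ _ (z 0) (h1.resolve_right fun h => c0 (by
    linear_combination (-2⁻¹ : ℂ) * h))
  have a1' := hO.fam.smul hn.mem a1 rfl
  have a2' := hO.fam.smul hn.mem a2 rfl
  refine us (uy.mul hy) ?_ rfl
  rw [show ((ev y₀ * y) • (1 : B)) • v = ((ev y₀ * y) • (1 : B)) • v + (-x₀) • v₁ +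
    (-(ev y₀ • x₁)) • v₂ + (-(ev y₀ • x₂)) • v₃ + x₀ • v₁ + (ev y₀ • x₁) • v₂ + (ev y₀ • x₂) • v₃ by
      rw [neg_smul, neg_smul, neg_smul]; abel]
  refine ad (ad (ad (A (add_mem (add_mem (add_mem (st (hO.fam.smul (uy.mul hy).mem o1 (add_zero _))
    hv rfl) (st (neg_mem a0) f₁ (by ring))) (st (neg_mem a1') f₂ (by ring)))
    (st (neg_mem a2') f₃ (by ring))) ?_) (sm a0 p₁ (by ring))) (sm a1' p₂ (by ring)))
    (sm a2' p₃ (by ring))
  simp only [map_add, map_smul, e₁, e₂, e₃, Pi.add_apply, Pi.smul_apply, smul_eq_mul,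
    cons_val_zero, smul_mul_assoc, one_mul, mul_smul, e, neg_mul, mul_smul_comm]
  rw [smul_add, smul_add, smul_neg]
  abel

end Spb

theorem spb (h1 : stTY1) (h2 : stLGEN) : stSPB := by
  intro C hC ν s L ⟨κ, inj, rel, mem⟩
  obtain ⟨m, y, hy, lg⟩ := h2 C hC ν (!s)
  have e : sg (!s) = -sg s := by cases s <;> simp [sg]
  have e2 : sg s ^ 2 = 1 := by cases s <;> simp [sg]
  refine (h1 C hC ν.p _ ν.hp (ν.chr (!s))).2.2.2.2.2 L (Spb.main ν hC.tab.lat hC.tab.mul hC.div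
    (ν.chr (!s)) (ν.hc.C_mul (sg s)) ?_ ?_ ?_ (ν.χa _) (ν.χb _) inj (fun x => ?_) mem
    (fun j k x hx h v hv => Submodule.subset_span ⟨k, j, x, v, rfl, hx, h, hv, rfl⟩)
    (fun j k x hx v hv => ?_) hy fun k x hx h => ?_)
  · rw [map_mul, eval_C]
    exact mul_ne_zero (fun h => by simp [h] at e2) ν.c0
  · rw [map_mul, eval_C, mul_pow, e2, one_mul, ν.cc]
  · rw [ν.χI, e, map_mul, eval_C, neg_mul]
  · rw [rel, Fin.sum_univ_three, ← Algebra.algebraMap_eq_smul_one]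
    rfl
  · induction hv using Submodule.span_induction with
    | mem _ h =>
      obtain ⟨i, l, b, w, rfl, hb, h0, hw, rfl⟩ := h
      exact Submodule.subset_span ⟨i, j + l, x * b, w, add_assoc _ _ _, hC.tab.mul _ _ _ hx _ hb,
        by rw [(ν.chr _).mul _ _ _ hx _ hb, h0, mul_zero], hw, (mul_smul _ _ _).symm⟩
    | zero => rw [smul_zero]; exact zero_mem _
    | add _ _ _ _ a b => rw [smul_add]; exact add_mem a b
    | smul c _ _ a => rw [smul_comm]; exact Submodule.smul_mem _ c a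
  · obtain ⟨x₀, x₁, x₂, a0, a1, a2, a⟩ := lg k x hx h
    refine ⟨x₀, x₁, x₂, a0, a1, a2, ?_⟩
    rw [a, ND.J, e, C_neg, neg_mul, map_neg, map_neg, sub_neg_eq_add,
      Algebra.algebraMap_eq_smul_one]

end Vale.Agent.P287Z.N
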