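import Vale.Agent.P287Z.N.Ker

/-!
The numerical invariants of the lattice of relations of the kernel of a character.
-/

namespace Vale.Agent.P287Z.N

open MvPolynomial Module Filter Matrix Vale.Agent.P287 Vale.Agent.P287.Theta Vale.Agent.P287Z.L
open KerN

namespace SphN

section gen

variable {U V W : Type} [AddCommGroup U] [Module ℂ U] [AddCommGroup V] [Module ℂ V]
  [AddCommGroup W] [Module ℂ W]

/-- a power of a subspace -/
def piEq (ι : Type) (A : Submodule ℂ V) :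
    (Submodule.pi Set.univ fun _ : ι => A) ≃ₗ[ℂ] (ι → A) where
  toFun c i := ⟨c.1 i, c.2 i trivial⟩
  invFun c := ⟨fun i => (c i).1, fun i _ => (c i).2⟩
  map_add' _ _ := rfl
  map_smul' _ _ := rfl
  left_inv _ := rfl
  right_inv _ := rfl

theorem count {ι : Type} [Fintype ι] (A : Submodule ℂ V) [FiniteDimensional ℂ A]
    (T : (ι → V) →ₗ[ℂ] W) (κ : U →ₗ[ℂ] (ι → V)) (hκ : Function.Injective κ) {S : Submodule ℂ U}
    (h : S.map κ = (Submodule.pi Set.univ fun _ => A) ⊓ LinearMap.ker T) :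
    finrank ℂ S + finrank ℂ ((Submodule.pi Set.univ fun _ => A).map T) =
      Fintype.card ι * finrank ℂ A := by
  have := (piEq ι A).symm.finiteDimensional
  rw [← finrank_map_inj κ hκ, h, add_comm, finrank_map_add, (piEq ι A).finrank_eq,
    Module.finrank_pi_fintype, Finset.sum_const, Finset.card_univ, smul_eq_mul]

theorem hp_rel {L : ℤ → Submodule ℂ U} {M : ℤ → Submodule ℂ V} {N : ℤ → Submodule ℂ W}
    {R c x R' c' x' R'' c'' x'' : ℤ} (hL : HP L R c x) (hM : HP M R' c' x')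
    (hN : HP N R'' c'' x'') {n t : ℕ}
    (e : ∀ᶠ k in atTop, finrank ℂ (L k) + finrank ℂ (M k) = n * finrank ℂ (N k) + t) :
    R + R' = n * R'' ∧ c + c' = n * c'' ∧ x + x' = n * x'' + t := by
  obtain ⟨h1, h2, h3⟩ := quad_zero (a := R + R' - n * R'')
    (b := 3 * (R + R' - n * R'') + 2 * (c + c' - n * c'')) (c := 2 * (x + x' - n * x'' - t)) (by
      filter_upwards [hL, hM, hN, e] with k k1 k2 k3 k4
      have k5 : (finrank ℂ (L k) : ℤ) + finrank ℂ (M k) = n * finrank ℂ (N k) + t := by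
        exact_mod_cast k4
      linear_combination 2 * k5 - k1 - k2 + n * k3)
  exact ⟨by linarith, by linarith, by linarith⟩

end gen

variable {C : Cx} {p : Fin 3 → ℂ} {χ : ℤ → C.B →ₗ[ℂ] ℂ} {ι : Type} [Fintype ι] {m : ℤ}
  {g : ι → C.B}

/-- the kernel of a character has codimension one -/
theorem codim (h : Ctx C) (hp : p ≠ 0) (hχ : Chr C.O p χ) {k : ℤ} (hk : 0 ≤ k) :
    1 + finrank ℂ ↥(C.O k ⊓ LinearMap.ker (χ k)) = finrank ℂ (C.O k) := by
  have := h.tab.lat.fg.finite k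
  obtain ⟨i, hi⟩ := exists_coord hp
  obtain ⟨b, h1, -, h2⟩ := (hi.pow k.toNat).cast (j := k) (by omega)
  have h3 := hχ.smul k 0 b h1 1 (O1N.one_mem C)
  rw [hχ.one, mul_one, add_zero] at h3
  have h4 : (C.O k).map (χ k) = ⊤ := Ideal.eq_top_of_isUnit_mem _
    ⟨_, h.tab.lat.fam.smul h1.mem (O1N.one_mem C) (add_zero _), h3⟩ h2.isUnit
  rw [← finrank_map_add (χ k) (C.O k), h4, finrank_top, Module.finrank_self]

theorem comb_mem (h : Ctx C) (hχ : Chr C.O p χ) (hg : GenM χ m g) {k : ℤ} {c : ι → C.B}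
    (hc : ∀ i, c i ∈ C.O (k - m)) : ∑ i, c i * g i ∈ C.O k ∧ χ k (∑ i, c i * g i) = 0 := by
  refine ⟨Submodule.sum_mem _ fun i _ => mem_cast (L := C.O)
    (h.tab.mul _ _ _ (hc i) _ (hg.1 i).1) (sub_add_cancel _ _), ?_⟩
  rw [map_sum]
  refine Finset.sum_eq_zero fun i _ => ?_
  have h1 := hχ.mul _ _ _ (hc i) _ (hg.1 i).1
  rwa [(hg.1 i).2, mul_zero, sub_add_cancel] at h1

theorem rank_O {P : OL C} (hP : IsO P m) (k : ℤ) :
    finrank ℂ (P.F k) = finrank ℂ (C.O (k - m)) := by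
  obtain ⟨φ, hφ⟩ := hP
  refine ((φ.restrictScalars ℂ).ofSubmodules _ _ (Submodule.ext fun b => ?_)).finrank_eq
  rw [Submodule.mem_map_equiv, hφ]
  simp only [LinearEquiv.restrictScalars_symm_apply, LinearEquiv.apply_symm_apply]

theorem rank_HO (h : Ctx C) {P : OL C} (hP : IsO P m) (Y : OL C) (k : ℤ) :
    finrank ℂ (HomF Y P k) = finrank ℂ (HO Y (k - m)) := by
  obtain ⟨φ, hφ⟩ := hP
  rw [← finrank_map_inj (post Y (X' := oL h) φ.toLinearMap)
    fun a b e => LinearMap.ext fun v => φ.injective (LinearMap.congr_fun e v)]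
  refine congrArg (fun s : Submodule ℂ (Y.V →ₗ[C.B] C.B) => finrank ℂ s)
    (Submodule.ext fun ψ => ⟨?_, fun hψ => ⟨φ.symm.toLinearMap ∘ₗ ψ, fun j v hv => ?_,
      LinearMap.ext fun v => φ.apply_symm_apply _⟩⟩)
  · rintro ⟨a, ha, rfl⟩ j v hv
    exact mem_cast (L := C.O) ((hφ _ _).1 (ha j v hv)) (add_sub_assoc _ _ _)
  · refine (hφ _ _).2 ?_
    rw [add_sub_assoc]
    exact (φ.apply_symm_apply (ψ v)).symm ▸ hψ j v hv

/-- the dimension of the space of relations -/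
theorem cnt_L (h : Ctx C) (hp : p ≠ 0) (hχ : Chr C.O p χ) (hg : GenM χ m g) {L : OL C}
    (hL : IsKer L m g) : ∀ᶠ k in atTop, finrank ℂ (L.F k) + finrank ℂ (C.O k) =
      Fintype.card ι * finrank ℂ (C.O (k - m)) + 1 := by
  obtain ⟨κ, h1, h2, h3⟩ := hL
  filter_upwards [eventually_ge_atTop m, eventually_ge_atTop 0] with k k1 k2
  have := h.tab.lat.fg.finite (k - m)
  let T : (ι → C.B) →ₗ[ℂ] C.B := (Fintype.linearCombination C.B g).restrictScalars ℂ
  have h4 := count (C.O (k - m)) T (κ.restrictScalars ℂ) h1 (S := L.F k)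
    (Submodule.ext fun x => ⟨fun ⟨v, hv, e⟩ => ⟨fun i _ => e ▸ (h3 k v).1 hv i, (h2 x).1 ⟨v, e⟩⟩,
      fun hx => let ⟨v, e⟩ := (h2 x).2 hx.2; ⟨v, (h3 k v).2 fun i => e ▸ hx.1 i trivial, e⟩⟩)
  have h5 : (Submodule.pi Set.univ fun _ => C.O (k - m)).map T = C.O k ⊓ LinearMap.ker (χ k) := by
    refine Submodule.ext fun x => ⟨?_, fun hx => ?_⟩
    · rintro ⟨c, hc, rfl⟩
      exact comb_mem h hχ hg fun i => hc i trivial
    · obtain ⟨c, hc, e⟩ := hg.2 k k1 x hx.1 hx.2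
      exact ⟨c, fun i _ => hc i, e.symm⟩
  rw [← h4, h5, ← codim h hp hχ k2]
  omega

/-- the combination of homomorphisms with the coefficients `g` -/
noncomputable def cmb (Y : OL C) (g : ι → C.B) :
    (ι → Y.V →ₗ[C.B] C.B) →ₗ[K] (Y.V →ₗ[C.B] C.B) where
  toFun ψ := Fintype.linearCombination C.B g ∘ₗ LinearMap.pi ψ
  map_add' _ _ := LinearMap.ext fun _ => (Fintype.linearCombination C.B g).map_add _ _
  map_smul' c _ := LinearMap.ext fun _ =>
    LinearMap.map_smul_of_tower (Fintype.linearCombination C.B g) c _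

theorem cmb_apply (Y : OL C) (ψ : ι → Y.V →ₗ[C.B] C.B) (v : Y.V) :
    cmb Y g ψ v = ∑ i, ψ i v * g i := rfl

/-- the image family -/
noncomputable abbrev Im (Y : OL C) (g : ι → C.B) (m k : ℤ) : Submodule ℂ (Y.V →ₗ[C.B] C.B) :=
  (Submodule.pi Set.univ fun _ => HO Y (k - m)).map ((cmb Y g).restrictScalars ℂ)

theorem fam_HM (h : Ctx C) (hχ : Chr C.O p χ) (Y : OL C) : Fam (HM χ Y) :=
  fun d k a ha φ hφ j v hv => by
    rw [add_left_comm]
    exact ⟨h.tab.lat.fam _ _ a ha _ (hφ j v hv).1, chr_smul hχ ha (hφ j v hv).1 (hφ j v hv).2⟩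

theorem im_le (h : Ctx C) (hχ : Chr C.O p χ) (hg : GenM χ m g) (Y : OL C) (k : ℤ) :
    Im Y g m k ≤ HM χ Y k := by
  rintro _ ⟨ψ, hψ, rfl⟩ j v hv
  exact comb_mem h hχ hg (c := fun i => ψ i v) fun i =>
    mem_cast (L := C.O) (hψ i trivial j v hv) (add_sub_assoc _ _ _).symm

theorem im_loc (h : Ctx C) (hχ : Chr C.O p χ) (hg : GenM χ m g) {Y : OL C} {q : Fin 3 → ℂ}
    (hq : q ≠ 0) (hY : PJ Y q) (k : ℤ) : ∀ φ ∈ HM χ Y k, LocP (Im Y g m) q k φ := by
  intro φ hφ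
  obtain ⟨n, f, v, e, d, y, h1, h2, h3, h4⟩ := hY
  obtain ⟨i₀, hi⟩ := exists_coord hq
  obtain ⟨b, hb⟩ := (Set.finite_range fun r => m - k - e r).bddAbove
  have h5 := hi.pow b.toNat
  refine LocP.of_smul h5 ⟨d, y, h1, ?_⟩
  have h6 := fam_HM h hχ Y _ _ _ h5.mem φ hφ
  generalize tvec i₀ ^ b.toNat • φ = φ' at h6
  choose c h7 h8 using fun r => hg.2 _ (by
    have : m - k - e r ≤ b := hb ⟨r, rfl⟩
    omega) _ (h6 _ _ (h2 r)).1 (h6 _ _ (h2 r)).2
  refine ⟨fun i => ∑ r, LinearMap.toSpanSingleton C.B C.B (c r i) ∘ₗ f r, fun i _ j x hx => ?_,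
    LinearMap.ext fun x => ?_⟩
  · rw [LinearMap.sum_apply]
    exact Submodule.sum_mem _ fun r _ => mem_cast (L := C.O)
      (h.tab.mul _ _ _ (h3 r j x hx) _ (h7 r i)) (by ring)
  · have h9 : (y • φ') x = ∑ r, f r x * φ' (v r) := by
      rw [LinearMap.smul_apply, ← LinearMap.map_smul_of_tower, ← h4, map_sum]
      simp only [map_smul, smul_eq_mul]
    rw [h9, LinearMap.restrictScalars_apply, cmb_apply]
    simp only [LinearMap.sum_apply, LinearMap.comp_apply, LinearMap.toSpanSingleton_apply,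
      smul_eq_mul, h8, Finset.sum_mul, Finset.mul_sum, mul_assoc]
    exact Finset.sum_comm

/-- the dimension of the space of homomorphisms to the lattice of relations -/
theorem cnt_H {L : OL C} (hL : IsKer L m g) (Y : OL C) (k : ℤ)
    [FiniteDimensional ℂ (HO Y (k - m))] : finrank ℂ (HomF Y L k) + finrank ℂ (Im Y g m k) =
      Fintype.card ι * finrank ℂ (HO Y (k - m)) := by
  obtain ⟨κ, h1, h2, h3⟩ := hL
  let κ' : (Y.V →ₗ[C.B] L.V) →ₗ[ℂ] (ι → Y.V →ₗ[C.B] C.B) :=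
    { toFun := fun φ i => LinearMap.proj i ∘ₗ κ ∘ₗ φ
      map_add' := fun a b => funext fun i => LinearMap.ext fun v => congrFun (κ.map_add _ _) i
      map_smul' := fun c a => funext fun i => LinearMap.ext fun v =>
        congrFun (LinearMap.map_smul_of_tower κ c _) i }
  refine count _ _ κ' (fun a b e => LinearMap.ext fun v => h1 (funext fun i =>
    LinearMap.congr_fun (congrFun e i) v)) (Submodule.ext fun ψ => ⟨?_, fun hψ => ?_⟩)
  · rintro ⟨φ, hφ, rfl⟩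
    exact ⟨fun i _ j v hv => mem_cast (L := C.O) ((h3 _ _).1 (hφ j v hv) i) (add_sub_assoc _ _ _),
      LinearMap.ext fun v => (h2 _).1 ⟨φ v, rfl⟩⟩
  · choose f hf using fun v => (h2 (LinearMap.pi ψ v)).2 (LinearMap.congr_fun hψ.2 v)
    refine ⟨⟨⟨f, fun a b => h1 ?_⟩, fun a b => h1 ?_⟩, fun j v hv => (h3 _ _).2 fun i => ?_,
      funext fun i => LinearMap.ext fun v => congrFun (hf v) i⟩
    · rw [map_add, hf, hf, hf, map_add]
    · rw [RingHom.id_apply, map_smul, hf, hf, map_smul]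
    · exact mem_cast (L := C.O) ((congrFun (hf v) i).symm ▸ hψ.1 i trivial j v hv)
        (add_sub_assoc _ _ _).symm

end SphN

open SphN HomN

theorem sph1 (hN : stNOETH) (hV : stVAN) (hX : stHPX) (hH : stHOM) (hI : stISO) (hJ : stPJ)
    (hT : stTY2) : stSPH1 := by
  intro C h p χ ι _ m g L P P₀ hp hχ hg hL hP hP₀
  obtain ⟨k1, k2, -⟩ := hp_rel (hX _ _ L.lat) ((hI C h).2 P₀ 0 hP₀).2.1 ((hI C h).2 P m hP).2.1
    ((cnt_L h hp hχ hg hL).mono fun k hk => by rwa [rank_O hP, rank_O hP₀, sub_zero])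
  refine ⟨by unfold rk; omega, by linarith, fun Y => ?_⟩
  have hO : Lat (HO Y) := (hH C h Y (oL h)).1
  have h1 := (hV _ (Im Y g m) (HM χ Y) ((fam_pi hO.fam ι m).map (cmb Y g))
    (hN _ _ _ hO.fg (fam_HM h hχ Y) fun k φ hφ j v hv => (hφ j v hv).1) (im_le h hχ hg Y)
    fun q hq => im_loc h hχ hg hq (hJ C h Y q hq)).1
  have := fd_hom Y L
  have := fd_hom Y P
  have := fd_hom Y P₀
  obtain ⟨-, -, k3⟩ := hp_rel (n := Fintype.card ι) (t := ty χ Y) (hX _ _ (hH C h Y L).1)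
    (hX _ _ (hH C h Y P₀).1) (hX _ _ (hH C h Y P).1) (by
      filter_upwards [h1, (hT C h p χ Y hp hχ (hJ C h Y p hp)).2] with k r1 r2
      have := hO.fg.finite (k - m)
      rw [rank_HO h hP, rank_HO h hP₀, sub_zero, r2, ← r1, ← cnt_H hL Y k, add_assoc])
  unfold eu
  linarith

end Vale.Agent.P287Z.N
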