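import Vale.Agent.P287Z.N.Sk
import Vale.Agent.P287Z.L.Van

/-!
The discriminant curve is nodal: the row `SQF`.
-/

namespace Vale.Agent.P287Z.N

open MvPolynomial Module Filter Matrix Vale.Agent.P287 Vale.Agent.P287.Theta Vale.Agent.P287Z.L

namespace SqfH

theorem root (α β κ : ℂ) : ∃ s t : ℂ, (s ≠ 0 ∨ t ≠ 0) ∧ s ^ 2 * α + 2 * s * t * β + t ^ 2 * κ = 0 := by
  by_cases h : α = 0
  · exact ⟨1, 0, Or.inl one_ne_zero, by simp [h]⟩
  · obtain ⟨s, hs⟩ := exists_quadratic_eq_zero (b := 2 * β) (c := κ) h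
      (IsAlgClosed.exists_eq_mul_self _)
    exact ⟨s, 1, Or.inr one_ne_zero, by linear_combination hs⟩

theorem cone {a b c : ℂ} (h : a * c = b ^ 2) (h0 : ¬ (a = 0 ∧ b = 0 ∧ c = 0)) :
    ∃ s t : ℂ, (s ≠ 0 ∨ t ≠ 0) ∧ ∃ e : ℂ, e ≠ 0 ∧ e * s ^ 2 = c ∧ e * (s * t) = -b ∧
      e * t ^ 2 = a := by
  by_cases hc : c = 0
  · have hb : b = 0 := pow_eq_zero_iff two_ne_zero |>.1 (by rw [← h, hc, mul_zero])
    exact ⟨0, 1, Or.inr one_ne_zero, a, fun k => h0 ⟨k, hb, hc⟩, by simp [hc], by simp [hb], by simp⟩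
  · exact ⟨c, -b, Or.inl hc, c⁻¹, inv_ne_zero hc, by field_simp, by field_simp, by
      field_simp; linear_combination -h⟩

/-- the polar form of the conic does not have rank at most one -/
theorem key {ι : Type} {u v w c γ : ι → ℂ} {j : ι} (hj : γ j ≠ 0)
    (h : ∀ k i, u k * w i + u i * w k - 2 * v k * v i = c k * γ i) :
    ∃ s t : ℂ, (s ≠ 0 ∨ t ≠ 0) ∧ ∀ k, s ^ 2 * u k + 2 * s * t * v k + t ^ 2 * w k = 0 := by
  by_cases h1 : ∀ i, u i * γ j - u j * γ i = 0 ∧ v i * γ j - v j * γ i = 0 ∧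
      w i * γ j - w j * γ i = 0
  · obtain ⟨s, t, k1, k2⟩ := root (u j) (v j) (w j)
    refine ⟨s, t, k1, fun k => mul_left_cancel₀ hj ?_⟩
    linear_combination s ^ 2 * (h1 k).1 + 2 * s * t * (h1 k).2.1 + t ^ 2 * (h1 k).2.2 + γ k * k2
  · obtain ⟨i, hi⟩ := not_forall.1 h1
    have h2 : ∀ k, (w i * γ j - w j * γ i) * u k - 2 * (v i * γ j - v j * γ i) * v k +
        (u i * γ j - u j * γ i) * w k = 0 := fun k => by
      linear_combination γ j * h k i - γ i * h k j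
    obtain ⟨s, t, k1, e, k2, k3, k4, k5⟩ := cone (by
      linear_combination (γ j * h2 i - γ i * h2 j) / 2) hi
    refine ⟨s, t, k1, fun k => mul_left_cancel₀ k2 ?_⟩
    linear_combination h2 k + u k * k3 + 2 * v k * k4 + w k * k5

theorem hes_mul {p : Fin 3 → ℂ} (a : P3) {b : P3} (h0 : eval p b = 0)
    (h1 : ∀ i, eval p (pderiv i b) = 0) (i j : Fin 3) :
    eval p (pderiv i (pderiv j (a * b))) = eval p a * eval p (pderiv i (pderiv j b)) := by
  simp only [pderiv_mul, map_add, map_mul, h0, h1, mul_zero, zero_add]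

theorem det4 {R : Type} [CommRing R] (a b c d e : R) :
    (!![a, 0, 0, 0; 0, b, 0, 0; 0, 0, c, d; 0, 0, d, e]).det = a * b * (c * e - d * d) := by
  simp [det_succ_row_zero, Fin.sum_univ_succ, Fin.succAbove]
  ring

/-- the second derivatives at a singular point -/
theorem rank {M T : Matrix (Fin 4) (Fin 4) P3} {p : Fin 3 → ℂ} {h : ℕ} {q₀ q₁ A₁ A₂ A₃ : P3}
    (H : Frm M p T h q₀ q₁ A₁ A₂ A₃) (hp : Nd M.det p) (c γ : Fin 3 → ℂ) :
    ¬ ∀ i k, eval p (pderiv i (pderiv k M.det)) = c k * γ i := fun hc => by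
  wlog hγ : ∃ j, γ j ≠ 0 generalizing c γ
  · push Not at hγ
    exact this 0 1 (fun i k => by rw [hc, hγ, mul_zero, Pi.zero_apply, zero_mul]) ⟨0, one_ne_zero⟩
  obtain ⟨j, hj⟩ := hγ
  have h1 : T.det * T.det * M.det = q₀ * q₁ * (A₁ * A₃ - A₂ * A₂) := by
    rw [← det4, ← H.gram, det_mul, det_mul, det_transpose]
    ring
  have h2 : eval p (A₁ * A₃ - A₂ * A₂) = 0 := by simp [H.z₁, H.z₂]
  have h3 : eval p M.det = 0 := by
    have := congrArg (eval p) h1
    rw [map_mul, map_mul, map_mul, h2, mul_zero] at this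
    exact (mul_eq_zero.1 this).resolve_left (mul_ne_zero H.det H.det)
  have h4 : eval p (q₀ * q₁) ≠ 0 := by
    rw [map_mul]
    exact mul_ne_zero H.u₀ H.u₁
  obtain ⟨s, t, k1, k2⟩ := key (u := fun k => eval p (pderiv k A₁))
    (v := fun k => eval p (pderiv k A₂)) (w := fun k => eval p (pderiv k A₃))
    (c := fun k => (eval p (q₀ * q₁))⁻¹ * eval p (T.det * T.det) * c k) hj fun k i => by
      have k1 := hes_mul (T.det * T.det) h3 hp.2 i k
      rw [h1, hes_mul _ h2 fun i => by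
        simp only [map_sub, pderiv_mul, map_add, map_mul, H.z₁, H.z₂, H.z₃, mul_zero, zero_mul,
          add_zero, sub_zero], hc] at k1
      simp only [map_sub, pderiv_mul, map_add, map_mul _ (pderiv _ _), map_mul _ _ (pderiv _ _),
        H.z₁, H.z₂, H.z₃, mul_zero, zero_mul, add_zero, zero_add] at k1
      rw [mul_assoc _ (c k), mul_assoc _ _ (c k * γ i), eq_inv_mul_iff_mul_eq₀ h4]
      linear_combination k1
  obtain ⟨k, hk⟩ := H.grad s t k1
  refine hk ?_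
  simp only [map_add, pderiv_C_mul, map_mul _ (C _), eval_C]
  exact k2 k

end SqfH

open SqfH in
theorem sqf : stSQF := by
  classical
  intro M hf h0 hF
  have h6 : M.det.IsHomogeneous 6 := hg_nat.1 hf
  have h1 : ∀ p, Nd M.det p → ∀ c γ : Fin 3 → ℂ,
      ¬ ∀ i k, eval p (pderiv i (pderiv k M.det)) = c k * γ i := fun p hp =>
    let ⟨_, _, _, _, _, _, _, H⟩ := hF p hp; rank H hp
  have h2 : ∀ g, Prime g → ¬ ∀ i, g ∣ pderiv i M.det := fun g hg k => by
    obtain ⟨p, hp, k1⟩ := exists_point (Hg.hprime (hf.smul 6) (smul_ne_zero (by norm_num) h0) hg (by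
      rw [show (6 : ℂ) • M.det = (6 : ℕ) • M.det from Nat.cast_smul_eq_nsmul ℂ 6 _,
        ← h6.sum_X_mul_pderiv]
      exact Finset.dvd_sum fun i _ => (k i).mul_left _))
    choose c hc using k
    exact h1 p ⟨hp, fun i => by rw [hc, map_mul, k1, zero_mul]⟩ (fun k => eval p (c k))
      (fun i => eval p (pderiv i g)) fun i k => by
        rw [hc, pderiv_mul, map_add, map_mul, map_mul, k1, zero_mul, add_zero, mul_comm]
  have hc : ∀ p : Fin 3 → ℂ, (∀ i, eval p (pderiv i M.det) = 0) → ∀ (t : ℂ) i,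
      eval (t • p) (pderiv i M.det) = 0 := fun p hp t i => by
    rw [(hg_nat.2 (h6.pderiv (i := i))).eval_smul, hp, mul_zero]
  have h3 := VanAux.fin_cone (Ideal.span (Set.range fun i => pderiv i M.det)) (fun g hg =>
    (not_forall.1 (h2 g hg)).elim fun i k => ⟨_, Ideal.subset_span ⟨i, rfl⟩, k⟩)
    {p | ∀ i, eval p (pderiv i M.det) = 0} (fun p hp b hb =>
      (Ideal.span_le (I := RingHom.ker (eval p))).2 (by rintro _ ⟨i, rfl⟩; exact hp i) hb) hc
  obtain ⟨r, z, z1, z2⟩ := ((Set.Finite.pi' (ι := Fin 3) fun _ =>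
    ((Set.finite_iUnion h3).insert 1)).subset (t := {p | (∀ i, eval p (pderiv i M.det) = 0) ∧
      ∃ j, p j = 1 ∧ ∀ i < j, p i = 0}) fun p ⟨hp, j, hj, _⟩ i => by
      by_cases hi : i = j
      · exact Or.inl (hi ▸ hj)
      · obtain ⟨σ, s1, s2⟩ := VanAux.ex_perm i j hi
        exact Or.inr (Set.mem_iUnion.2 ⟨σ, p, hp, by rw [s2, hj], by rw [s1]⟩)).fin_param
  have z3 := fun i => z2.le ⟨i, rfl⟩
  have z4 : ∀ i, z i ≠ 0 := fun i k => (z3 i).2.elim fun j hj =>
    zero_ne_one ((congrFun k j).symm.trans hj.1)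
  have z5 : ∀ p, Nd M.det p → ∃ i, ∃ c : ℂ, p = c • z i := fun p hp => by
    obtain ⟨j, hj, k⟩ := wellFounded_lt.has_min {j | p j ≠ 0} (Function.ne_iff.1 hp.1)
    obtain ⟨i, hi⟩ : (p j)⁻¹ • p ∈ Set.range z := z2.ge ⟨hc p hp.2 _, j, inv_mul_cancel₀ hj,
      fun i hi => mul_eq_zero_of_right _ (not_not.1 fun l => k i l hi)⟩
    exact ⟨i, p j, by rw [hi, smul_inv_smul₀ hj]⟩
  refine ⟨(squarefree_iff_irreducible_sq_not_dvd_of_ne_zero h0).2 fun g hg ⟨b, hb⟩ =>
    h2 g hg.prime fun i => ?_, ⟨r, z, fun i => ⟨z4 i, (z3 i).1⟩, fun i j c k => ?_, z5⟩,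
    fun p hp => ?_, fun g hg => ?_⟩
  · rw [hb, pderiv_mul, pderiv_mul]
    exact ((((dvd_refl g).mul_left _).add (dvd_mul_right _ _)).mul_right _).add
      ((dvd_mul_right _ _).mul_right _)
  · obtain ⟨a, a1, a2⟩ := (z3 i).2
    obtain ⟨b, b1, b2⟩ := (z3 j).2
    have k1 : ∀ l, z i l = c * z j l := congrFun k
    rcases lt_trichotomy a b with l | rfl | l
    · exact absurd (a1.symm.trans ((k1 a).trans (by rw [b2 a l, mul_zero]))) one_ne_zero
    · rw [show c = 1 by rw [← a1, k1, b1, mul_one], one_smul] at k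
      exact z1 k
    · rw [show c = 0 by rw [← a2 b l, k1, b1, mul_one], zero_smul] at k
      exact absurd k (z4 i)
  · by_contra k
    push Not at k
    exact h1 p hp 0 0 fun i j => by rw [k, Pi.zero_apply, zero_mul]
  · obtain ⟨l, l1, l2⟩ := exists_lin (Finset.univ.image z) fun x hx =>
      (Finset.mem_image.1 hx).elim fun i k => k.2 ▸ z4 i
    obtain ⟨n, n0, hn⟩ := hg.pos
    obtain ⟨p, p0, p1, p2⟩ := exists_point_two hn l1 n0.ne' one_ne_zero
    refine ⟨p, (gd_or_nd _ p0).resolve_right fun k => ?_, p1⟩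
    obtain ⟨i, c, rfl⟩ := z5 p k
    rw [l1.eval_smul, Int.toNat_one, pow_one, mul_eq_zero] at p2
    exact p2.elim (fun e => p0 (by rw [e, zero_smul]))
      (l2 _ (Finset.mem_image_of_mem _ (Finset.mem_univ i)))

end Vale.Agent.P287Z.N
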