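import Vale.Agent.P287Z.N.Sk
import Vale.Agent.P287Z.L.Step

/-!
The induction step: splitting off a free lattice of rank one.
-/

namespace Vale.Agent.P287Z.N

open Module Filter Vale.Agent.P287Z.L

namespace StepN

variable {C : Cx}

theorem fd_hom (X Y : OL C) : FiniteDimensional K (X.V →ₗ[C.B] Y.V) :=
  FiniteDimensional.of_injective (LinearMap.restrictScalarsₗ K C.B X.V Y.V K)
    (LinearMap.restrictScalars_injective K)

/-- the quotient by a submodule -/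
noncomputable def quo (h : stHULL) (X : OL C) (S : Submodule C.B X.V) : OL C :=
  have := FiniteDimensional.of_surjective (S.mkQ.restrictScalars K) S.mkQ_surjective
  have f := X.lat.fg.map (S.mkQ.restrictScalars K)
  { V := X.V ⧸ S
    F := hull fun k => (X.F k).map (S.mkQ.restrictScalars ℂ)
    lat := h _ _ f fun w => by
      obtain ⟨v, rfl⟩ := S.mkQ_surjective w
      obtain ⟨k, y, h0, hv⟩ := X.lat.full v
      exact ⟨k, y, h0, _, hv, rfl⟩
    stab := fun j k b hb v hv => (mem_hull f.fam).2 fun g hg => by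
      obtain ⟨d, y, h1, w, h2, h3⟩ := (mem_hull f.fam).1 hv g hg
      refine ⟨d, y, h1, b • w, mem_cast (X.stab _ _ b hb w h2) (by ring), ?_⟩
      rw [smul_comm y b v, ← h3]
      rfl }

/-- the local section of the quotient map -/
theorem sec {X X' : OL C} {m d : ℤ} {v : X.V} (hv : v ∈ X.F m) (π : X.V →ₗ[C.B] X'.V)
    (h1 : Function.Surjective π) (h2 : ∀ x, π x = 0 ↔ ∃ b : C.B, b • v = x)
    (h3 : ∀ g, HPrime g → ∀ k, ∀ w ∈ X'.F k,
      LocG (fun j => (X.F j).map (π.restrictScalars ℂ)) g k w) {y : K} (hy : y ∈ AA d)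
    {ψ : X.V →ₗ[C.B] C.B} (hψ : ψ ∈ HO X (d - m)) (e : ψ v = algebraMap K C.B y) :
    ∃ s ∈ HomF X' X d, (∀ w, π (s w) = y • w) ∧ ∀ x, s (π x) = y • x - ψ x • v := by
  let s : X'.V →ₗ[C.B] X.V := (LinearMap.ker π).liftQ
    (y • LinearMap.id - LinearMap.toSpanSingleton C.B X.V v ∘ₗ ψ) (fun x hx => by
      obtain ⟨b, rfl⟩ := (h2 x).1 hx
      show y • b • v - ψ (b • v) • v = 0
      rw [map_smul, e, smul_eq_mul, mul_smul, algebraMap_smul, smul_comm, sub_self]) ∘ₗ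
    (π.quotKerEquivOfSurjective h1).symm.toLinearMap
  have s1 : ∀ x, s (π x) = y • x - ψ x • v := fun x => by
    have : (π.quotKerEquivOfSurjective h1).symm (π x) = Submodule.Quotient.mk x :=
      (LinearEquiv.symm_apply_eq _).2 rfl
    rw [LinearMap.comp_apply, LinearEquiv.coe_coe, this]
    rfl
  refine ⟨s, fun k w hw => X.lat.refl _ _ fun g hg => ?_, fun w => ?_, s1⟩
  · obtain ⟨j, z, a1, x, a2, a3⟩ := h3 g hg k w hw
    refine ⟨j, z, a1, ?_⟩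
    rw [← LinearMap.map_smul_of_tower, ← a3, LinearMap.restrictScalars_apply, s1]
    exact sub_mem (X.lat.fam.smul hy a2 (by ring))
      (mem_cast (X.stab _ _ _ (hψ _ _ a2) _ hv) (by ring))
  · obtain ⟨x, rfl⟩ := h1 w
    rw [s1, map_sub, (h2 (ψ x • v)).2 ⟨_, rfl⟩, sub_zero, LinearMap.map_smul_of_tower]

/-- the multiplicity drops by one -/
theorem drop (hS : stSUM) (hT : stTY1) (hI : stISO) (c : Ctx C) {p : Fin 3 → ℂ} (hp : p ≠ 0)
    {χ : ℤ → C.B →ₗ[ℂ] ℂ} (hχ : Chr C.O p χ) {X X' : OL C} {m d : ℤ} {v : X.V} (hv : v ∈ X.F m)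
    {π : X.V →ₗ[C.B] X'.V} (h1 : Function.Surjective π) (h2 : π v = 0)
    (h3 : ∀ k, ∀ x ∈ X.F k, π x ∈ X'.F k) {y : K} (hy : U1 p d y) {ψ : X.V →ₗ[C.B] C.B}
    (hψ : ψ ∈ HO X (d - m)) (e : ψ v = algebraMap K C.B y) {σ : X'.V →ₗ[C.B] X.V}
    (s1 : σ ∈ HomF X' X d) (s2 : ∀ w, π (σ w) = y • w) (s3 : ∀ x, σ (π x) = y • x - ψ x • v) :
    ty χ X = ty χ X' + 1 := by
  obtain ⟨-, t1, t2, t3, -⟩ := hT C c p χ hp hχ
  obtain ⟨P, φ, hφ⟩ := (hI C c).1 m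
  obtain ⟨T, ⟨θ, hθ⟩, -⟩ := hS C c P X'
  have e1 : ∀ b : C.B, ψ (b • v) = y • b := fun b => by
    rw [map_smul, e, smul_eq_mul, ← Algebra.commutes, ← Algebra.smul_def]
  have e2 : ∀ w, ψ (σ w) = 0 := fun w => by
    obtain ⟨x, rfl⟩ := h1 w
    rw [s3, map_sub, e1, LinearMap.map_smul_of_tower, sub_self]
  obtain ⟨Φ, hΦ⟩ : ∃ Φ : X.V →ₗ[C.B] T.V, ∀ x, θ (Φ x) = (φ.symm (ψ x), y • π x) :=
    ⟨θ.symm.toLinearMap ∘ₗ (φ.symm.toLinearMap ∘ₗ ψ).prod (y • π), fun x => θ.apply_symm_apply _⟩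
  obtain ⟨Ψ, hΨ⟩ : ∃ Ψ : T.V →ₗ[C.B] X.V, ∀ x, Ψ x = y • φ (θ x).1 • v + σ (θ x).2 :=
    ⟨(y • LinearMap.toSpanSingleton C.B X.V v ∘ₗ φ.toLinearMap).coprod σ ∘ₗ θ.toLinearMap,
      fun x => rfl⟩
  rw [t1 X T Φ Ψ d d (y * y) (fun k x hx => (hθ _ _).2 ?_) (fun k x hx => ?_) (hy.mul hy)
    (fun x => ?_) fun x => θ.injective ?_, t2 T P X' ⟨θ, hθ⟩, t3 P m ⟨φ, hφ⟩, add_comm]
  · rw [hΦ, hφ, φ.apply_symm_apply]
    exact ⟨mem_cast (hψ k x hx) (by ring), X'.lat.fam.smul hy.mem (h3 k x hx) (add_comm _ _)⟩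
  · obtain ⟨a1, a2⟩ := (hθ _ _).1 hx
    rw [hΨ]
    exact add_mem (X.lat.fam.smul hy.mem (X.stab _ _ _ ((hφ _ _).1 a1) _ hv) (by ring))
      (s1 _ _ a2)
  · rw [hΨ, hΦ, φ.apply_symm_apply, LinearMap.map_smul_of_tower, s3, smul_sub, mul_smul,
      add_sub_cancel]
  · have a1 : ∀ (z : K) (b : C.B), φ.symm (z • b) = z • φ.symm b := fun z b =>
      φ.symm.toLinearMap.map_smul_of_tower z b
    have a2 : θ ((y * y) • x) = (y * y) • θ x := θ.toLinearMap.map_smul_of_tower _ _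
    rw [hΦ, hΨ, map_add ψ, map_add π, e2, add_zero, LinearMap.map_smul_of_tower ψ, e1, s2,
      LinearMap.map_smul_of_tower π, map_smul π, h2, smul_zero, smul_zero, zero_add, a1, a1,
      φ.symm_apply_apply, a2, smul_smul, smul_smul]
    rfl

end StepN

attribute [local instance] StepN.fd_hom

open StepN in
theorem step (hU : stUNI) (hP : stPTS) (hH : stHULL) (hM : stHOM) (hI : stISO) (hX : stHPX)
    (hS : stSUM) (hT : stTY1) : stSTEP := by
  intro C c r ν hν X a ha h2 hty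
  obtain ⟨m, v, v1, v0, v2, v3⟩ := hU C c r ν hν X a ha h2 hty
  obtain ⟨P, φ, hφ⟩ := (hI C c).1 m
  obtain ⟨p1, p2, -⟩ := (hI C c).2 P m ⟨φ, hφ⟩
  let S := LinearMap.range (LinearMap.toSpanSingleton C.B X.V v)
  let X' := quo hH X S
  let π : X.V →ₗ[C.B] X'.V := S.mkQ
  let i : P.V →ₗ[C.B] X.V := LinearMap.toSpanSingleton C.B X.V v ∘ₗ φ.toLinearMap
  have i1 : Function.Injective i := (injective_iff_map_eq_zero i).2 fun x e => by
    by_contra k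
    exact v0 ((c.div _ (φ.map_ne_zero_iff.2 k)).smul_eq_zero.1 e)
  have i2 : ∀ x, π x = 0 ↔ ∃ y, i y = x := fun x => (Submodule.Quotient.mk_eq_zero S).trans
    ⟨fun ⟨b, e⟩ => ⟨φ.symm b, e ▸ congrArg (· • v) (φ.apply_symm_apply b)⟩, fun ⟨y, e⟩ => ⟨φ y, e⟩⟩
  have i3 : ∀ k x, i x ∈ X.F k ↔ x ∈ P.F k := fun k x => (Iff.trans
    ⟨fun e => v2 _ _ (mem_cast e (sub_add_cancel k m).symm),
      fun e => mem_cast (X.stab _ _ _ e v v1) (sub_add_cancel k m)⟩ (hφ k x).symm)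
  have π1 : ∀ k, ∀ x ∈ X.F k, π x ∈ X'.F k := fun k x e => le_hull _ k ⟨x, e, rfl⟩
  have π2 : Function.Surjective π := S.mkQ_surjective
  have π3 : ∀ x, π x = 0 ↔ ∃ b : C.B, b • v = x := fun x => Submodule.Quotient.mk_eq_zero S
  have π4 : ∀ g, HPrime g → ∀ k, ∀ w ∈ X'.F k,
      LocG (fun j => (X.F j).map (π.restrictScalars ℂ)) g k w := fun g hg k x e =>
    (mem_hull (X.lat.fg.map (S.mkQ.restrictScalars K)).fam).1 e g hg
  obtain ⟨μ, m1, m2⟩ := hP C c X X' π π1 π4 fun p hp => by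
    obtain ⟨n, t, rfl⟩ := hν.all p hp
    obtain ⟨ψ, d, y, y1, y2, y3⟩ := v3 n
    obtain ⟨s, s1, s2, -⟩ := sec v1 π π2 π3 π4 y1.mem y2 y3
    exact ⟨s, d, y, y1.smul_pt fun e => hp.1 (by rw [e, zero_smul]), s1, s2⟩
  have hr := StepA.exact_dim (i.restrictScalars K) (π.restrictScalars K) i1 i2 ⊤ ⊤ fun _ => Iff.rfl
  rw [Submodule.map_top, (LinearMap.range_eq_top (f := π.restrictScalars K)).2 S.mkQ_surjective,
    finrank_top, finrank_top, finrank_top] at hr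
  refine ⟨X', P, m, μ, ⟨φ, hφ⟩, hr.trans ((congrArg (· + _) p1).trans (add_comm _ _)), ?_,
    fun Y => ?_, fun n s => ?_⟩
  · have := quad_zero (a := rk X - rk X' - 8) (b := 3 * (rk X - rk X' - 8) +
      2 * (c1 X.F - c1 X'.F + 12 + 8 * m)) (c := 2 * (chi X.F - chi X'.F - (4 * m ^ 2 + 2)) + 4 * μ)
      (by
        filter_upwards [hX _ _ X.lat, hX _ _ X'.lat, p2, m1] with k k1 k2 k3 k4
        have := X.lat.fg.finite k
        have k5 := StepA.exact_dim (i.restrictScalars ℂ) (π.restrictScalars ℂ) i1 i2 _ _ (i3 k)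
        zify at k4 k5
        linear_combination k3 + k2 - k1 + 2 * k5 - 2 * k4)
    omega
  · obtain ⟨R, c', h1⟩ : ∃ R c', HP (HomF Y X) R c' (eu Y X) := ⟨_, _, hX _ _ (hM C c Y X).1⟩
    obtain ⟨R', c'', h2⟩ : ∃ R c', HP (HomF Y X') R c' (eu Y X') := ⟨_, _, hX _ _ (hM C c Y X').1⟩
    obtain ⟨R₀, c₀, h3⟩ : ∃ R c', HP (HomF Y P) R c' (eu Y P) := ⟨_, _, hX _ _ (hM C c Y P).1⟩
    have := quad_zero (a := 4 * (R - R' - R₀)) (b := 12 * (R - R' - R₀) + 8 * (c' - c'' - c₀))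
      (c := 8 * (eu Y X - eu Y X' - eu Y P) + 2 * (rk Y * μ)) (by
        filter_upwards [h1, h2, h3, m2 Y] with k k1 k2 k3 k4
        have := (hM C c Y X).1.fg.finite k
        have k5 := StepA.exact_dim (post Y i) (post Y π) (fun a b e => LinearMap.ext fun x =>
          i1 (LinearMap.congr_fun e x)) (fun ψ => ⟨fun e =>
            have a : ∀ x, ψ x ∈ LinearMap.range i := fun x => (i2 _).1 (LinearMap.congr_fun e x)
            ⟨(LinearEquiv.ofInjective i i1).symm.toLinearMap ∘ₗ ψ.codRestrict _ a,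
              LinearMap.ext fun x => LinearEquiv.ofInjective_symm_apply i (h := i1) ⟨_, a x⟩⟩,
            fun ⟨χ, e⟩ => LinearMap.ext fun x =>
              (i2 _).2 ⟨χ x, LinearMap.congr_fun e x⟩⟩) (HomF Y P k) (HomF Y X k) fun ψ =>
          forall₃_congr fun j x _ => i3 _ _
        zify at k4 k5
        linear_combination 4 * k3 + 4 * k2 - 4 * k1 + 8 * k5 - 2 * k4)
    omega
  · obtain ⟨ψ, d, y, y1, y2, y3⟩ := v3 n
    obtain ⟨σ, s1, s2, s3⟩ := sec v1 π π2 π3 π4 y1.mem y2 y3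
    exact drop hS hT hI c (ν n).hp ((ν n).chr s) v1 π2 ((π3 v).2 ⟨1, one_smul _ _⟩) π1 y1 y2 y3
      s1 s2 s3

end Vale.Agent.P287Z.N
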