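import Vale.Agent.P287Z.N.Sk
import Vale.Agent.P287Z.L.Symm

/-!
The Euler form of lattices over the order is symmetric.
-/

namespace Vale.Agent.P287Z.N

open MvPolynomial Module Filter Matrix Vale.Agent.P287 Vale.Agent.P287.Theta Vale.Agent.P287Z.L

namespace SymN

open L.SymA

variable {C : Cx}

/-- the standard basis of the algebra -/
noncomputable def bo (hC : Ctx C) : Basis (Fin 8) K C.B :=
  basisOfLinearIndependentOfCardEqFinrank
    (hC.alg.li 1 e4 one_ne_zero (by
      rw [show (Matrix.of e4 : Matrix (Fin 4) (Fin 4) K) = 1 from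
        Matrix.ext fun i j => by simp [e4, Matrix.one_apply, Pi.single_apply, eq_comm]]
      simp))
    (by rw [hC.alg.rank, Fintype.card_fin])

theorem bo_apply (hC : Ctx C) (s : Fin 8) : bo hC s = C.o s :=
  congrFun (coe_basisOfLinearIndependentOfCardEqFinrank _ _) s

theorem lam_nd (hC : Ctx C) (x : C.B) (h : ∀ y, lam C.G (y * x) = 0) : x = 0 := by
  by_contra h0
  obtain ⟨u, rfl⟩ := hC.div x h0
  have := h (del C.G * ↑u⁻¹)
  rw [mul_assoc, Units.inv_mul, mul_one, hC.alg.lam_del] at this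
  exact one_ne_zero this

theorem o_mem (s : Fin 8) : C.o s ∈ C.O (oz s) := by
  classical
  refine Noe.sp.2 ⟨Pi.single s 1, fun i => ?_, by simp [Pi.single_apply]⟩
  by_cases h : i = s
  · subst h
    rw [Pi.single_eq_same, sub_self]
    exact AA_one
  · rw [Pi.single_eq_of_ne h]
    exact zero_mem _

/-- a local basis over the order -/
structure LO (X : OL C) (p : Fin 3 → ℂ) {a : ℕ} (v : Basis (Fin a) C.B X.V) (h : Fin a → ℤ)
    (d : ℤ) (y : K) : Prop where
  ob : OB X p v h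
  mem : ∀ i, v i ∈ X.F (h i)
  unit : U1 p d y
  loc : ∀ k, ∀ x ∈ X.F k, ∀ i, y • v.coord i x ∈ C.O (d + k - h i)

theorem exists_lo (hC : Ctx C) (hL : stLF) (X : OL C) {a : ℕ} (ha : rk X = 8 * a)
    {p : Fin 3 → ℂ} (hp : Gd C.M.det p) :
    ∃ (v : Basis (Fin a) C.B X.V) (h : Fin a → ℤ) (d : ℤ) (y : K), LO X p v h d y := by
  obtain ⟨v, h, hv⟩ := hL C hC X a ha {p} fun z hz => Finset.mem_singleton.1 hz ▸ hp
  replace hv := hv p (Finset.mem_singleton_self p)
  have li : LinearIndependent C.B v := Fintype.linearIndependent_iff.2 fun g hg i => by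
    have h1 := Fintype.linearIndependent_iff.1 hv.li (fun s => (bo hC).repr (g s.2) s.1) (by
      rw [← hg, Fintype.sum_prod_type_right]
      refine Finset.sum_congr rfl fun j _ => ?_
      conv_rhs => rw [← (bo hC).sum_repr (g j), Finset.sum_smul]
      simp only [bo_apply, smul_assoc])
    exact (bo hC).forall_coord_eq_zero_iff.1 fun s => h1 (s, i)
  have sp : ⊤ ≤ Submodule.span C.B (Set.range v) := fun x _ => by
    have h1 := hv.li.span_eq_top_of_card_eq_finrank' (by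
      rw [Fintype.card_prod, Fintype.card_fin, Fintype.card_fin]; exact ha.symm)
    obtain ⟨c, rfl⟩ := (Submodule.mem_span_range_iff_exists_fun K).1
      (h1.ge (Submodule.mem_top (x := x)))
    exact Submodule.sum_mem _ fun s _ => Submodule.smul_of_tower_mem _ _
      (Submodule.smul_mem _ _ (Submodule.subset_span ⟨s.2, rfl⟩))
  obtain ⟨b, rfl⟩ : ∃ b : Basis (Fin a) C.B X.V, ⇑b = v := ⟨Basis.mk li sp, Basis.coe_mk _ _⟩
  obtain ⟨d, y, hy, hl⟩ := hv.loc
  refine ⟨b, h, d, y, hv, fun i => ?_, hy, fun k x hx i => ?_⟩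
  · have := hv.mem (0, i)
    change (1 : C.B) • b i ∈ X.F (0 + h i) at this
    rwa [one_smul, zero_add] at this
  · obtain ⟨c, hc, e⟩ := Noe.sp.1 (hl k x hx)
    refine Noe.sp.2 ⟨fun s => c (s, i), fun s => AA_cast (hc (s, i)) (by ring), ?_⟩
    rw [← LinearMap.map_smul_of_tower, ← e, Fintype.sum_prod_type, map_sum]
    refine Finset.sum_congr rfl fun s _ => ?_
    simp [LinearMap.map_smul_of_tower, Finsupp.single_apply]

variable {X Y : OL C} {p : Fin 3 → ℂ} {a b : ℕ} {v : Basis (Fin a) C.B X.V}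
  {w : Basis (Fin b) C.B Y.V} {h : Fin a → ℤ} {h' : Fin b → ℤ} {d d' : ℤ} {y y' : K}

theorem LO.sum_mem (hv : LO X p v h d y) {k : ℤ} {x : X.V}
    (hx : ∀ i, v.coord i x ∈ C.O (k - h i)) : x ∈ X.F k := by
  rw [← v.sum_repr x]
  exact Submodule.sum_mem _ fun i _ => mem_cast (X.stab _ _ _ (hx i) _ (hv.mem i)) (by ring)

theorem LO.el_mem (hv : LO X p v h d y) (i : Fin a) {m : ℤ} {z : Y.V} (hz : z ∈ Y.F m) :
    y • el v i z ∈ HomF X Y (d + m - h i) := fun k x hx => by
  rw [LinearMap.smul_apply, el_apply, ← smul_assoc]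
  exact mem_cast (Y.stab _ _ _ (hv.loc k x hx i) _ hz) (by ring)

theorem dual_eq (hC : Ctx C) (hL : stLF) (ha : rk X = 8 * a) (hb : rk Y = 8 * b)
    (v₀ : Basis (Fin a) C.B X.V) (k : ℤ) :
    dual (pair (lam C.G) v₀) (HomF X Y) k = HomF Y X (k + 3) := by
  refine le_antisymm (fun ψ hψ j z hz => hC.nodal.locP X.lat.refl fun p hp => ?_)
    fun ψ hψ j φ hφ => hC.nodal.locP refl_AA fun p hp => ?_
  · obtain ⟨v, h, d, y, hv⟩ := exists_lo hC hL X ha hp
    obtain ⟨w, h', d', y', hw⟩ := exists_lo hC hL Y hb hp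
    have h1 : ∀ j, y • ψ (w j) ∈ X.F (d + h' j + k + 3) := fun j => hv.sum_mem fun i => by
      refine hC.tab.dual _ _ fun m o ho => ?_
      have h2 := hψ _ _ (hv.el_mem i (Y.stab _ _ _ ho _ (hw.mem j)))
      rw [pair_indep hC.alg.lam_comm v₀ v, map_smul, LinearMap.smul_apply, pair_el, map_smul,
        map_smul, smul_eq_mul o, hC.alg.lam_comm, ← map_smul, ← smul_mul_assoc,
        ← LinearMap.map_smul_of_tower] at h2
      exact AA_cast h2 (by ring)
    refine ⟨_, _, hv.unit.mul hw.unit, ?_⟩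
    have e : (y * y') • ψ z = ∑ i, (y' • w.coord i z) • y • ψ (w i) := by
      conv_lhs => rw [← w.sum_repr z, map_sum, Finset.smul_sum]
      refine Finset.sum_congr rfl fun i _ => ?_
      rw [map_smul, smul_assoc, smul_comm (w.coord i z) y, smul_smul y', mul_comm y']
      rfl
    rw [e]
    exact Submodule.sum_mem _ fun i _ =>
      mem_cast (X.stab _ _ _ (hw.loc j z hz i) _ (h1 i)) (by ring)
  · obtain ⟨v, h, d, y, hv⟩ := exists_lo hC hL X ha hp
    refine ⟨d, y, hv.unit, ?_⟩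
    rw [pair_indep hC.alg.lam_comm v₀ v, pair_apply, Finset.smul_sum]
    refine Submodule.sum_mem _ fun i _ => ?_
    rw [← map_smul]
    exact AA_cast (hC.tab.int _ _ (hv.loc _ _ (hψ _ _ (hφ _ _ (hv.mem i))) i)) (by ring)

end SymN

open L.SymA SymN in
theorem symm (hH : stHOM) (hL : stLF) (hD : stDUAL) (hX : stHPX) : stSYMM := by
  intro C hC X Y
  obtain ⟨a, ha⟩ := (hH C hC X Y).2.2.1
  obtain ⟨b, hb⟩ := (hH C hC Y X).2.2.1
  obtain ⟨q, hq⟩ := hC.nodal.exists_gd
  obtain ⟨v, -⟩ := exists_lo hC hL X ha hq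
  obtain ⟨w, -⟩ := exists_lo hC hL Y hb hq
  have := fd_hom (F := K) (B := C.B) (X := X.V) (Y := Y.V)
  have := fd_hom (F := K) (B := C.B) (X := Y.V) (Y := X.V)
  have h1 := (hD _ _ (pair (lam C.G) v) (HomF X Y) (pair_left hC.alg.lam_comm (lam_nd hC) v w)
    (pair_right (lam_nd hC) v) (hH C hC X Y).1).2 _ _ _ (hX _ _ (hH C hC X Y).1)
  have h2 := SymB.hp_sh h1
  have e : sh (dual (pair (lam C.G) v) (HomF X Y)) (-3) = HomF Y X := funext fun k => by
    rw [sh, dual_eq hC hL ha hb, neg_add_cancel_right]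
  rw [e] at h2
  have h3 := SymB.chi_eq h2
  unfold eu
  omega

end Vale.Agent.P287Z.N
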