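import Vale.Agent.P287Z.T3.Top
import Vale.Agent.P287Z.N.Sk

/-!
# The theorem for all smooth cubics containing the plane, from the blocks T2 and N
-/

open CategoryTheory MvPolynomial Module Filter Vale.Agent.P294Z

universe w w' v u

namespace Vale.Agent.P287Z.N.Top

open O.V T T3 Vale.Agent.P287 Vale.Agent.P287.Theta

/-- the statement without the hypothesis on the discriminant curve -/
def ThmN : Prop :=
  ∀ (M : Matrix (Fin 4) (Fin 4) (MvPolynomial (Fin 3) ℂ)) (_ : IsFibrationMatrix M)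
    (F : MvPolynomial (Fin 6) ℂ) [Fact (F.IsHomogeneous 3)]
    (_ : F = cubicForm M) (_ : IsSmoothForm F)
    {ν : ℕ} (I : Ideal (MvPolynomial (Fin ν) ℂ)) [Fact (IsHom I)]
    (_ : 1 ≤ topologicalKrullDim (PI I))
    [HasDerivedCategory.{w} (Coh (PI I))] [HasDerivedCategory.{w'} (Coh (PI (Ideal.span {F})))]
    (Φ : DbP I ⥤ DbP (Ideal.span {F})) [Φ.Additive] [Φ.Linear ℂ] [Φ.CommShift ℤ] [Φ.Full]
    [Φ.Faithful] (_ : ∀ E, Ku (Ideal.span {F}) (Φ.obj E)), IsRationalForm F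

open L in
/-- the lattice part -/
def stMAINN : Prop := ∀ (M : Matrix (Fin 4) (Fin 4) P3), M.IsSymm →
  (∀ i j, (M i j).IsHomogeneous (1 + H925.wt i + H925.wt j)) → SmoothForm (H925.cubicOf M) →
  ∀ (ι : Type) [Fintype ι] (N : ι → CM M) (x : ι → ι → ℤ) (v w : ι → ℤ),
    (∀ i j, ∃ R c, HP3 (CHom (N i) (N j)) R c (x i j)) → 4 ∣ ∑ i, ∑ j, v i * v j * x i j →
      Odd (∑ i, ∑ j, w i * v j * x i j) →
        H925.NetResult.RationalHypersurface (H925.cubicOf M)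

open L in
theorem mainN (hOLM : N.stOLM) (hCTX : N.stCTX) (hEV : N.stEV) (hHOM : N.stHOM) (hHPX : stHPX) :
    stMAINN := by
  intro M h1 h2 h3 ι _ Q x v w hx hv hw
  by_cases h5 : ∀ v : Fin 4 → K, v ⬝ᵥ (M.map ev).mulVec v = 0 → v = 0
  · let C : N.Cx := ⟨M, h1, h2, h3, h5⟩
    obtain ⟨Φ, hΦ⟩ := hEV C (hCTX C)
    have h6 : ∀ i j, x i j = N.eu (Φ (Q i)) (Φ (Q j)) := by
      intro i j
      obtain ⟨R, c, h⟩ := hx i j
      have : FiniteDimensional K ((Φ (Q i)).V →ₗ[C.B] (Φ (Q j)).V) :=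
        Module.Finite.of_injective (LinearMap.restrictScalarsₗ K C.B (Φ (Q i)).V (Φ (Q j)).V K)
          (LinearMap.restrictScalars_injective K)
      exact hp3_uniq h (hHPX _ _ (hHOM C (hCTX C) _ _).1) (hΦ _ _)
    simp only [h6] at hv hw
    exact hOLM C ι (fun i => Φ (Q i)) v w hv hw
  · push Not at h5
    obtain ⟨v, h6, h7⟩ := h5
    exact rational_of_isotropic_matrix M h2 h3 v h7 h6

/-- a hyperbolic pair for the stable Euler form gives the input of the lattice part -/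
theorem of_pair (hL : stMAINN) {Mx : Matrix (Fin 4) (Fin 4) A3} (hM : IsFibrationMatrix Mx)
    (hs : IsSmoothForm (cubicForm Mx)) (N : Fin 2 → FM Mx)
    (hN : ∀ a c, ∃ b : ℤ, ∀ k ≥ b,
      finrank ℂ (HQ (ZC (N a).N (N c).N (3 * k)) (BC (N a).N (N c).N (3 * k))) = 0)
    (h0 : chS (N 0) (N 0) = 0) (h1 : chS (N 1) (N 0) = 1) : IsRationalForm (cubicForm Mx) := by
  have hF := fb_of hM
  choose Fr hFr using exists_free hF
  let P : ℤ → FM Mx := fun j => ⟨2, ![j, j + 3], Fr j⟩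
  obtain ⟨s, v, hv⟩ := window (fun a => gam (N a)) fun a b => chS (N a) (N b)
  let Q : Fin 2 ⊕ s → FM Mx := Sum.elim N fun j => P j.1
  have hP : ∀ j, gam (P j) = gF j := fun j => Fin.sum_univ_two _
  have hQ : ∀ i, gam (Q i) = Sum.elim (fun a => gam (N a)) (fun a : s => gF a.1) i := by
    rintro (a | a)
    · rfl
    · exact hP a.1
  have h2 : ∀ (j : ℤ) (Y : FM Mx) k, finrank ℂ (HQ (ZC (P j).N Y.N k) (BC (P j).N Y.N k)) = 0 := by
    intro j Y k
    have := hq_subsingleton (Z := ZC (P j).N Y.N k) (B := BC (P j).N Y.N k)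
      fun f hf => zc_bc hf (hFr j) (zero_add k).symm
    exact finrank_zero_of_subsingleton
  have h3 : ∀ (j : ℤ) (Y : FM Mx) k, finrank ℂ (HQ (ZC Y.N (P j).N k) (BC Y.N (P j).N k)) = 0 := by
    intro j Y k
    have := hq_subsingleton (Z := ZC Y.N (P j).N k) (B := BC Y.N (P j).N k)
      fun f hf => bc_zc (hFr j) hf (add_zero k).symm
    exact finrank_zero_of_subsingleton
  have hx := hv (fun i j => chS (Q i) (Q j) + BB (gam (Q i)) (gam (Q j))) (by
    intro i j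
    rw [hQ, hQ]
    congr 1
    rcases i with a | a
    · rcases j with b | b
      · rfl
      · exact finsum_eq_zero_of_forall_eq_zero fun k =>
          mul_eq_zero_of_right _ (Nat.cast_eq_zero.2 (h3 _ _ _))
    · exact finsum_eq_zero_of_forall_eq_zero fun k =>
        mul_eq_zero_of_right _ (Nat.cast_eq_zero.2 (h2 _ _ _)))
  refine hL Mx hM.symm hM.homogeneous (fun z hz => hs z fun i => by rw [← aeval_eq_eval]; exact hz i)
    (Fin 2 ⊕ s) (fun i => cm hF (Q i)) _ (v 0) (v 1) (fun i j => hp3_cm hF _ _ ?_) ?_ ?_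
  · rcases i with a | a
    · rcases j with b | b
      · exact hN a b
      · exact ⟨0, fun k _ => h3 _ _ _⟩
    · exact ⟨0, fun k _ => h2 _ _ _⟩
  · rw [hx, h0]
    exact dvd_zero _
  · rw [hx, h1]
    exact odd_one

theorem of_cat (hL : stMAINN) {Mx : Matrix (Fin 4) (Fin 4) A3} (hM : IsFibrationMatrix Mx)
    (hs : IsSmoothForm (cubicForm Mx)) {𝒟 : Type u} [Category.{v} 𝒟]
    [Preadditive 𝒟] [Linear ℂ 𝒟] [HasShift 𝒟 ℤ] (K : 𝒟 → Prop) (P : ∀ E, K E → FM Mx)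
    (e : ∀ E hE E' hE' (k : ℤ), Nonempty (HQ (ZC (P E hE).N (P E' hE').N (3 * k))
      (BC (P E hE).N (P E' hE').N (3 * k)) ≃ₗ[ℂ] (E ⟶ E'⟦k⟧)))
    (hb : ∀ E, K E → ∀ E', K E' → ∃ b : ℤ, ∀ k ≥ b, Subsingleton (E ⟶ E'⟦k⟧))
    (hD : (∀ E E', K E → K E' → FinH E E') → ∃ e f, K e ∧ K f ∧ chi e e = 0 ∧ chi f e = 1) :
    IsRationalForm (cubicForm Mx) := by
  have hc : ∀ E hE E' hE', chS (P E hE) (P E' hE') = chi E E' := fun E hE E' hE' =>
    finsum_congr fun k => by rw [(e E hE E' hE' k).some.finrank_eq]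
  obtain ⟨E₀, E₁, hE₀, hE₁, h0, h1⟩ := hD (by
    intro E E' hE hE'
    refine ⟨fun k => Module.Finite.equiv (e E hE E' hE' k).some, ?_⟩
    obtain ⟨b, hb⟩ := hb E hE E' hE'
    obtain ⟨a, ha⟩ := zc_bot (P E hE) (P E' hE')
    refine ⟨Finset.Icc (min a 0) b, fun k hk f => ?_⟩
    rw [Finset.mem_Icc, not_and_or, not_le, not_le] at hk
    rcases hk with hk | hk
    · have := hq_subsingleton (B := BC (P E hE).N (P E' hE').N (3 * k))
        ((ha (3 * k) (by omega)).le.trans bot_le)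
      have := (e E hE E' hE' k).some.symm.subsingleton
      exact Subsingleton.elim _ _
    · have := hb k hk.le
      exact Subsingleton.elim _ _)
  have hb' : ∀ E hE E' hE', ∃ b : ℤ, ∀ k ≥ b, finrank ℂ (HQ (ZC (P E hE).N (P E' hE').N (3 * k))
      (BC (P E hE).N (P E' hE').N (3 * k))) = 0 := by
    intro E hE E' hE'
    obtain ⟨b, hb⟩ := hb E hE E' hE'
    refine ⟨b, fun k hk => ?_⟩
    have := hb k hk
    rw [(e E hE E' hE' k).some.finrank_eq, finrank_zero_of_subsingleton]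
  let Q : Fin 2 → {E // K E} := ![⟨E₀, hE₀⟩, ⟨E₁, hE₁⟩]
  exact of_pair hL hM hs (fun a => P (Q a).1 (Q a).2) (fun a c => hb' _ _ _ _)
    ((hc _ _ _ _).trans h0) ((hc _ _ _ _).trans h1)

theorem of_gmf (h2 : T2) (hL : stMAINN) {Mx : Matrix (Fin 4) (Fin 4) A3}
    (hM : IsFibrationMatrix Mx) {F : MvPolynomial (Fin 6) ℂ}
    (hF : F = cubicForm Mx) (hs : IsSmoothForm F) {𝒟 : Type u} [Category.{v} 𝒟]
    [Preadditive 𝒟] [Linear ℂ 𝒟] [HasShift 𝒟 ℤ] (K : 𝒟 → Prop) (n : ∀ E, K E → ℕ)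
    (X : ∀ E hE, GMF F (n E hE))
    (hX : ∀ E hE E' hE' (k : ℤ), Nonempty (HQ (ZM (X E hE) (X E' hE') (3 * k))
      (BM (X E hE) (X E' hE') (3 * k)) ≃ₗ[ℂ] (E ⟶ E'⟦k⟧)))
    (hD : (∀ E E', K E → K E' → FinH E E') → ∃ e f, K e ∧ K f ∧ chi e e = 0 ∧ chi f e = 1) :
    IsRationalForm F := by
  subst hF
  obtain ⟨N, hN⟩ := h2 Mx hM
  refine of_cat hL hM hs K (fun E hE => N (X E hE) (exL hs _)) (fun E hE E' hE' k => ?_) ?_ hD
  · obtain ⟨e⟩ := hN (X E hE) (X E' hE') (exL hs _) (exL hs _) (3 * k)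
    obtain ⟨e'⟩ := hX E hE E' hE' k
    exact ⟨e.symm.trans e'⟩
  · intro E hE E' hE'
    obtain ⟨b, hb⟩ := zm_le_bm hs (X E hE) (X E' hE')
    refine ⟨max b 0, fun k hk => ?_⟩
    have := hq_subsingleton (hb (3 * k) (by omega))
    exact (hX E hE E' hE' k).some.symm.subsingleton

/-- **Theorem A** from the blocks T2 and L -/
theorem thmN_of (h2 : T2) (hL : stMAINN) : ThmN.{w, w'} := by
  intro Mx hM F _ hF hs ν I _ hI _ _ Φ _ _ _ _ _ hΦ
  obtain ⟨n, X, hX⟩ := shim F (ne_zero_of_smooth hs)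
  exact of_gmf h2 hL hM hF hs (Ku _) n X hX (dx I (Ideal.span {F}) Φ hI hΦ)

end Vale.Agent.P287Z.N.Top
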