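import Vale.Agent.P287Z.N.Ty2

/-!
The two multiplicities at a node add up to twice the rank.
-/

namespace Vale.Agent.P287Z.N

open MvPolynomial Module Filter Matrix Vale.Agent.P287 Vale.Agent.P287.Theta Vale.Agent.P287Z.L

namespace Two

open Ty2

section Gen

variable {B : Type} [Ring B] [Algebra K B] [Algebra ℂ B] [IsScalarTower ℂ K B]
  [FiniteDimensional K B] {O : ℤ → Submodule ℂ B}

/-- the trace of the right multiplication -/
noncomputable def tr (B : Type) [Ring B] [Algebra K B] : B →ₗ[K] K :=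
  LinearMap.trace K B ∘ₗ (LinearMap.mul K B).flip

omit [Algebra ℂ B] [IsScalarTower ℂ K B] in
lemma tr_comm (x y : B) : tr B (x * y) = tr B (y * x) := by
  have h : ∀ x y : B, (LinearMap.mul K B).flip (x * y) =
      (LinearMap.mul K B).flip y ∘ₗ (LinearMap.mul K B).flip x := fun x y =>
    LinearMap.ext fun z => (mul_assoc z x y).symm
  show LinearMap.trace K B _ = LinearMap.trace K B _
  rw [h, h, LinearMap.trace_comp_comm']

omit [Algebra ℂ B] [IsScalarTower ℂ K B] [FiniteDimensional K B] in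
lemma tr_aut (σ : B ≃ₐ[K] B) (x : B) : tr B (σ x) = tr B x := by
  have h : (LinearMap.mul K B).flip (σ x) = σ.toLinearEquiv.conj ((LinearMap.mul K B).flip x) :=
    LinearMap.ext fun z => by simp [LinearEquiv.conj_apply]
  show LinearMap.trace K B _ = LinearMap.trace K B _
  rw [h, LinearMap.trace_conj']

omit [Algebra ℂ B] [IsScalarTower ℂ K B] in
lemma tr_one : tr B 1 = finrank K B := by
  have h : (LinearMap.mul K B).flip 1 = LinearMap.id := LinearMap.ext fun z => mul_one z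
  show LinearMap.trace K B _ = _
  rw [h, LinearMap.trace_id]

lemma zero_of_neg {x : K} (h : x = -x) : x = 0 := by
  have := charZero_K
  exact CharZero.eq_neg_self_iff.1 h

lemma loc_tr (ν : NDg B O) (h8 : finrank K B = 8) : ∃ e Z, Hg e Z ∧ eval ν.p Z ≠ 0 ∧
    ∀ m, ∀ x ∈ O m, ∃ g, Hg (e + m) g ∧ ev Z * tr B x = 8 * ev g ∧
      eval ν.p Z * (ν.χ true m x + ν.χ false m x) = 2 * eval ν.p g := by
  obtain ⟨e, _, ⟨Z, hZ, rfl, Z0⟩, h⟩ := ν.lb.loc
  have neg : ∀ x, ν.σ x = -x → tr B x = 0 := fun x k =>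
    zero_of_neg (by rw [← map_neg, ← k, tr_aut])
  have anti : ∀ x y : B, x * y = -(y * x) → tr B (x * y) = 0 := fun x y k =>
    zero_of_neg ((congrArg (tr B) k).trans (by rw [map_neg, tr_comm]))
  have t0 : tr B 1 = 8 := by rw [tr_one, h8]; norm_num
  have t1 := neg _ ν.σI
  have t2 := neg _ ν.σa
  have t3 := neg _ ν.σb
  have t4 := anti _ _ ν.Ia
  have t5 := anti _ _ ν.Ib
  have t6 : tr B (ν.a * ν.b) = 8 * ev ν.A₂ := by
    have k := congrArg (tr B) ν.ab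
    rw [map_add, tr_comm ν.b, Algebra.algebraMap_eq_smul_one, map_smul, t0, smul_eq_mul] at k
    have := charZero_K
    linear_combination (2⁻¹ : K) * k
  have t7 := neg (ν.I * (ν.a * ν.b)) (by
    rw [map_mul, map_mul, ν.σI, ν.σa, ν.σb, neg_mul_neg, neg_mul])
  have mI : ν.I ∈ O ν.d := ν.lb.mem 1
  have ma : ν.a ∈ O ν.d := ν.lb.mem 2
  have mb : ν.b ∈ O ν.d := ν.lb.mem 3
  have mab : ν.a * ν.b ∈ O (2 * ν.d) := ν.lb.mem 6
  have c4 : ∀ s, ν.χ s (2 * ν.d) (ν.I * ν.a) = 0 := fun s => by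
    rw [cmul (ν.chr s) mI ma (by ring), ν.χa, mul_zero]
  have c5 : ∀ s, ν.χ s (2 * ν.d) (ν.I * ν.b) = 0 := fun s => by
    rw [cmul (ν.chr s) mI mb (by ring), ν.χb, mul_zero]
  have c6 : ∀ s, ν.χ s (2 * ν.d) (ν.a * ν.b) = 0 := fun s => by
    rw [cmul (ν.chr s) ma mb (by ring), ν.χb, mul_zero]
  have c7 : ∀ s, ν.χ s (3 * ν.d) (ν.I * (ν.a * ν.b)) = 0 := fun s => by
    rw [cmul (ν.chr s) mI mab (by ring), c6, mul_zero]
  refine ⟨e, Z, hZ, Z0, fun m x hx => ?_⟩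
  obtain ⟨c', hc₀, hs⟩ := mem_Sp.1 (h m x hx)
  choose c hc hc' using fun i => mem_AA.1 (hc₀ i)
  obtain rfl : (fun i => ev (c i)) = c' := funext hc'
  have hχ : ∀ s, eval ν.p Z * ν.χ s m x =
      eval ν.p (c 0) + eval ν.p (c 1) * (sg s * eval ν.p ν.c) := by
    intro s
    rw [← csmul (ν.chr s) hZ hx rfl, ← hs, map_sum,
      Finset.sum_congr rfl fun i _ => csmul (ν.chr s) (hc i) (ν.lb.mem i) (sub_add_cancel _ _),
      Fin.sum_univ_eight]
    show _ * ν.χ s 0 1 + _ * ν.χ s ν.d ν.I + _ * ν.χ s ν.d ν.a + _ * ν.χ s ν.d ν.b +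
      _ * ν.χ s (2 * ν.d) (ν.I * ν.a) + _ * ν.χ s (2 * ν.d) (ν.I * ν.b) +
      _ * ν.χ s (2 * ν.d) (ν.a * ν.b) + _ * ν.χ s (3 * ν.d) (ν.I * (ν.a * ν.b)) = _
    rw [(ν.chr s).one, ν.χI, ν.χa, ν.χb, c4, c5, c6, c7]
    ring
  refine ⟨c 0 + c 6 * ν.A₂, ((hc 0).cast (sub_zero _)).add
    (((hc 6).mul ν.h₂).cast (sub_add_cancel _ _)), ?_, ?_⟩
  · rw [← smul_eq_mul, ← map_smul, ← hs, map_sum, Fin.sum_univ_eight]
    simp only [map_smul, smul_eq_mul]
    show _ * tr B 1 + _ * tr B ν.I + _ * tr B ν.a + _ * tr B ν.b + _ * tr B (ν.I * ν.a) +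
      _ * tr B (ν.I * ν.b) + _ * tr B (ν.a * ν.b) + _ * tr B (ν.I * (ν.a * ν.b)) = _
    rw [t0, t1, t2, t3, t4, t5, t6, t7, map_add, map_mul]
    ring
  · rw [mul_add, hχ, hχ, map_add, map_mul, ν.z₂]
    simp only [sg, if_true, Bool.false_eq_true, if_false]
    ring

end Gen

variable {C : Cx} {Y : OL C} {p : Fin 3 → ℂ} (D : PD Y p)

lemma sum_tr : ∑ r, tr C.B (D.φ r (D.v r)) = ev D.y * rk Y := by
  have h : ∑ r, (LinearMap.toSpanSingleton C.B Y.V (D.v r)).restrictScalars K ∘ₗ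
      (D.φ r).restrictScalars K = ev D.y • LinearMap.id :=
    LinearMap.ext fun x => (LinearMap.sum_apply _ _ _).trans (D.sum x)
  have h1 := congrArg (LinearMap.trace K Y.V) h
  rw [map_sum, map_smul, LinearMap.trace_id, smul_eq_mul] at h1
  rw [← h1]
  refine Finset.sum_congr rfl fun r _ => ?_
  rw [LinearMap.trace_comp_comm']
  show LinearMap.trace K C.B _ = _
  congr 1
  exact LinearMap.ext fun b => (map_smul (D.φ r) b (D.v r)).symm

end Two

open Ty2 Two in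
theorem two' (hN : stNOETH) (hV : stVAN) : stTWO := by
  intro C hC ν Y a ha hY
  obtain ⟨D⟩ := pd hY
  obtain ⟨e, Z, hZ, Z0, h⟩ := loc_tr ν hC.alg.rank
  have hx : ∀ r, D.φ r (D.v r) ∈ C.O D.d := fun r =>
    mem_cast (L := C.O) (D.hφ r _ _ (D.hv r)) (by ring)
  choose g hg h1 h2 using fun r => h D.d _ (hx r)
  have k1 : ∀ s, eval ν.p D.y * ty (ν.χ s) Y = ∑ r, ν.χ s D.d (D.φ r (D.v r)) := fun s => by
    rw [ty_eq D hN hV hC ν.hp (ν.chr s), rank_tr _ D.y0 (EE D (ν.chr s))]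
    exact Finset.sum_congr rfl fun r _ => by
      rw [Matrix.diag_apply, PD.E, Matrix.of_apply, add_sub_cancel]
  have k2 : (a : ℂ) • (Z * D.y) = ∑ r, g r := by
    refine ((hZ.mul D.hy).smul _).inj (hg_sum _ fun r _ => hg r) ?_
    have k := Finset.sum_congr rfl fun r (_ : r ∈ Finset.univ) => h1 r
    rw [← Finset.mul_sum, ← Finset.mul_sum, sum_tr, ha] at k
    have := charZero_K
    rw [map_smul, map_mul, map_sum, Nat.cast_smul_eq_nsmul, nsmul_eq_mul]
    push_cast at k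
    linear_combination (8⁻¹ : K) * k
  have k3 := congrArg (eval ν.p) k2
  rw [smul_eval, map_mul, map_sum] at k3
  have k4 := Finset.sum_congr rfl fun r (_ : r ∈ Finset.univ) => h2 r
  rw [← Finset.mul_sum, ← Finset.mul_sum, Finset.sum_add_distrib, ← k1, ← k1, ← k3] at k4
  have k5 : eval ν.p Z * eval ν.p D.y *
      ((ty (ν.χ true) Y : ℂ) + ty (ν.χ false) Y - 2 * a) = 0 := by linear_combination k4
  have k6 := sub_eq_zero.1 ((mul_eq_zero.1 k5).resolve_left (mul_ne_zero Z0 D.y0))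
  exact_mod_cast k6

theorem two (hN : stNOETH) (hV : stVAN) (_ : stTY1) : stTWO := two' hN hV

end Vale.Agent.P287Z.N
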