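import Vale.Agent.P287Z.N.Ty1A

/-!
The multiplicity of a character in the top of a lattice over the order.
-/

namespace Vale.Agent.P287Z.N

open MvPolynomial Module Filter Matrix Vale.Agent.P287 Vale.Agent.P287.Theta Vale.Agent.P287Z.L

variable {C : Cx} {p : Fin 3 → ℂ} {χ : ℤ → C.B →ₗ[ℂ] ℂ}

lemma ty1_one (C : Cx) : (1 : C.B) ∈ C.O 0 := self_mem_Sp C.o oz 0

lemma ty1_famO (C : Cx) : Fam C.O := fam_Sp C.o oz

lemma ty1_mem {Y : OL C} {i j k : ℤ} {b : C.B} {v : Y.V} (hb : b ∈ C.O j) (h0 : χ j b = 0)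
    (hv : v ∈ Y.F i) (e : j + i = k) : b • v ∈ rad χ Y k :=
  Submodule.subset_span ⟨i, j, b, v, e, hb, h0, hv, rfl⟩

lemma ty1_le {Y : OL C} {k : ℤ} {T : Submodule ℂ Y.V}
    (h : ∀ i j, j + i = k → ∀ b ∈ C.O j, χ j b = 0 → ∀ v ∈ Y.F i, b • v ∈ T) : rad χ Y k ≤ T := by
  rw [rad, Submodule.span_le]
  rintro _ ⟨i, j, b, v, e, hb, h0, hv, rfl⟩
  exact h i j e b hb h0 v hv

lemma ty1_pr (hχ : Chr C.O p χ) (Y : OL C) : TyPr p Y.F (rad χ Y) := by
  refine ⟨Y.lat.fg, fun d k a ha x hx => ?_,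
    fun k => ty1_le fun i j e b hb _ v hv => mem_cast (Y.stab j i b hb v hv) e,
    fun j g hg h0 k v hv => ?_⟩
  · refine ty1_le (T := (rad χ Y (d + k)).comap ((LinearMap.lsmul K Y.V a).restrictScalars ℂ))
      (fun i j e b hb h0 v hv => ?_) hx
    change a • b • v ∈ rad χ Y (d + k)
    rw [smul_comm]
    exact ty1_mem hb h0 (Y.lat.fam d i a ha v hv) (by omega)
  · have h1 : ev g • v = (ev g • (1 : C.B)) • v := by rw [smul_assoc, one_smul]
    rw [h1]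
    refine ty1_mem (ty1_famO C j 0 _ hg.mem _ (ty1_one C)) ?_ hv (by ring)
    rw [hχ.smul j 0 g hg 1 (ty1_one C), h0, zero_mul]

lemma ty1_eq {Y : OL C} {t : ℕ} (h : Ty χ Y t) : ty χ Y = t := by
  have h1 : Ty χ Y (ty χ Y) := Classical.epsilon_spec ⟨t, h⟩
  obtain ⟨k, h2, h3⟩ := (Eventually.and h h1).exists
  omega

lemma ty1_ty (hN : stNOETH) (hV : stVAN) (hp : p ≠ 0) (hχ : Chr C.O p χ) (Y : OL C) :
    Ty χ Y (ty χ Y) := Classical.epsilon_spec ((ty1_pr hχ Y).const hN hV hp)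

/-- homomorphisms respect the radical -/
lemma ty1_map {X Y : OL C} {Φ : X.V →ₗ[C.B] Y.V} {d k : ℤ} (hΦ : Φ ∈ HomF X Y d) {v : X.V}
    (hv : v ∈ rad χ X k) : Φ v ∈ rad χ Y (k + d) := by
  refine ty1_le (T := (rad χ Y (k + d)).comap (Φ.restrictScalars ℂ))
    (fun i j e b hb h0 v hv => ?_) hv
  change Φ (b • v) ∈ rad χ Y (k + d)
  rw [map_smul]
  exact ty1_mem hb h0 (hΦ i v hv) (by omega)

lemma ty1_mono (hN : stNOETH) (hV : stVAN) (hp : p ≠ 0) (hχ : Chr C.O p χ) {X Y : OL C}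
    {Φ : X.V →ₗ[C.B] Y.V} {Ψ : Y.V →ₗ[C.B] X.V} {d d' : ℤ} {y : K} (hΦ : Φ ∈ HomF X Y d)
    (hΨ : Ψ ∈ HomF Y X d') (hy : U1 p (d + d') y) (h : ∀ v, Ψ (Φ v) = y • v) :
    ty χ X ≤ ty χ Y := by
  obtain ⟨k, ⟨h1, h2⟩, h3⟩ := ((Eventually.and (ty1_ty hN hV hp hχ X)
    ((tendsto_add d).eventually (ty1_ty hN hV hp hχ Y))).and
      ((ty1_pr hχ X).key hN hV hp hy)).exists
  have := X.lat.fg.finite k
  have := Y.lat.fg.finite (k + d)
  have h4 := ty1_codim_le (Φ.restrictScalars ℂ) ((ty1_pr hχ X).le k) ((ty1_pr hχ Y).le (k + d))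
    (fun x hx => hΦ k x hx) fun x hx hx' => h3 x hx (by
      rw [← h]
      exact mem_cast (L := rad χ X) (ty1_map hΨ hx') (by ring))
  omega

lemma ty1_sum (hN : stNOETH) (hV : stVAN) (hp : p ≠ 0) (hχ : Chr C.O p χ) {S X Y : OL C}
    (h : IsSum S X Y) : ty χ S = ty χ X + ty χ Y := by
  obtain ⟨φ, hφ⟩ := h
  have a1 : LinearMap.fst C.B X.V Y.V ∘ₗ φ.toLinearMap ∈ HomF S X 0 := fun j v hv =>
    mem_cast ((hφ j v).1 hv).1 (add_zero j).symm
  have a2 : LinearMap.snd C.B X.V Y.V ∘ₗ φ.toLinearMap ∈ HomF S Y 0 := fun j v hv =>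
    mem_cast ((hφ j v).1 hv).2 (add_zero j).symm
  have a3 : φ.symm.toLinearMap ∘ₗ LinearMap.inl C.B X.V Y.V ∈ HomF X S 0 := fun j v hv => by
    refine (hφ _ (φ.symm (v, 0))).2 ?_
    rw [φ.apply_symm_apply, add_zero]
    exact ⟨hv, Submodule.zero_mem _⟩
  have a4 : φ.symm.toLinearMap ∘ₗ LinearMap.inr C.B X.V Y.V ∈ HomF Y S 0 := fun j v hv => by
    refine (hφ _ (φ.symm (0, v))).2 ?_
    rw [φ.apply_symm_apply, add_zero]
    exact ⟨Submodule.zero_mem _, hv⟩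
  refine ty1_eq ((Eventually.and (ty1_ty hN hV hp hχ X) (ty1_ty hN hV hp hχ Y)).mono
    fun k hk => ?_)
  have := X.lat.fg.finite k
  have := Y.lat.fg.finite k
  have := Submodule.finiteDimensional_of_le ((ty1_pr hχ X).le k)
  have := Submodule.finiteDimensional_of_le ((ty1_pr hχ Y).le k)
  have b1 := ty1_finrank_equiv (φ.restrictScalars ℂ) (A := S.F k) (B := (X.F k).prod (Y.F k))
    fun v => hφ k v
  have b2 := ty1_finrank_equiv (φ.restrictScalars ℂ) (A := rad χ S k)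
    (B := (rad χ X k).prod (rad χ Y k)) fun v => by
      refine ⟨fun hv => ⟨mem_cast (L := rad χ X) (ty1_map a1 hv) (add_zero k),
        mem_cast (L := rad χ Y) (ty1_map a2 hv) (add_zero k)⟩, fun hv => ?_⟩
      have c1 : φ.symm ((φ v).1, 0) ∈ rad χ S (k + 0) := ty1_map a3 hv.1
      have c2 : φ.symm (0, (φ v).2) ∈ rad χ S (k + 0) := ty1_map a4 hv.2
      have c3 := Submodule.add_mem _ c1 c2
      rwa [← map_add, Prod.mk_add_mk, add_zero, add_zero, zero_add, Prod.mk.eta,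
        φ.symm_apply_apply] at c3
  rw [finrank_prod_sub] at b1 b2
  omega

/-- the character is onto in non-negative degrees -/
lemma ty1_onto (hp : p ≠ 0) (hχ : Chr C.O p χ) {n : ℤ} (hn : 0 ≤ n) (c : ℂ) :
    ∃ x ∈ C.O n, χ n x = c := by
  obtain ⟨i, l, hl, -, h0⟩ := exists_coord hp
  obtain ⟨m, rfl⟩ := Int.eq_ofNat_of_zero_le hn
  have h1 : Hg m (l ^ m) := (hl.pow m).cast (mul_one _)
  have h2 := hχ.smul m 0 _ h1 1 (ty1_one C)
  have h3 := ty1_famO C m 0 _ h1.mem _ (ty1_one C)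
  rw [add_zero] at h2 h3
  refine ⟨(c / eval p l ^ m) • ev (l ^ m) • (1 : C.B), Submodule.smul_mem _ _ h3, ?_⟩
  rw [map_smul, h2, hχ.one, map_pow, mul_one, smul_eq_mul, div_mul_cancel₀ _ (pow_ne_zero _ h0)]

lemma ty1_fr (hC : Ctx C) (hp : p ≠ 0) (hχ : Chr C.O p χ) {Q : OL C} {ι : Type} [Fintype ι]
    {m : ℤ} (h : IsFr Q ι m) : ty χ Q = Fintype.card ι := by
  classical
  obtain ⟨φ, hφ⟩ := h
  refine ty1_eq ((eventually_ge_atTop m).mono fun k hk => ?_)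
  have := Q.lat.fg.finite k
  let Λ : Q.V →ₗ[ℂ] ι → ℂ := LinearMap.pi fun r =>
    χ (k - m) ∘ₗ LinearMap.proj r ∘ₗ φ.toLinearMap.restrictScalars ℂ
  have hΛ : ∀ v r, Λ v r = χ (k - m) (φ v r) := fun _ _ => rfl
  have h1 : (Q.F k).map Λ = ⊤ := by
    rw [eq_top_iff]
    intro c _
    choose x hx hx' using fun r => ty1_onto hp hχ (n := k - m) (by omega) (c r)
    refine ⟨φ.symm x, (hφ k _).2 fun r => ?_, funext fun r => ?_⟩
    · rw [φ.apply_symm_apply]; exact hx r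
    · rw [hΛ, φ.apply_symm_apply]; exact hx' r
  have h2 : Q.F k ⊓ LinearMap.ker Λ = rad χ Q k := by
    refine le_antisymm (fun v hv => ?_) (ty1_le fun i j e b hb h0 v hv =>
      ⟨mem_cast (Q.stab j i b hb v hv) e, funext fun r => ?_⟩)
    · have h3 : v = ∑ r, φ v r • φ.symm (Pi.single r 1) := by
        apply φ.injective
        rw [map_sum]
        simp only [map_smul, φ.apply_symm_apply]
        exact pi_eq_sum_univ' (φ v)
      rw [h3]
      refine Submodule.sum_mem _ fun r _ => ty1_mem (i := m) ((hφ k v).1 hv.1 r)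
        (congrFun hv.2 r) ((hφ m _).2 fun s => ?_) (by ring)
      rw [φ.apply_symm_apply, sub_self]
      by_cases hs : s = r
      · subst hs; rw [Pi.single_eq_same]; exact ty1_one C
      · rw [Pi.single_eq_of_ne hs]; exact Submodule.zero_mem _
    · rw [hΛ, map_smul, Pi.smul_apply, smul_eq_mul, show k - m = j + (i - m) by omega,
        hχ.mul j (i - m) b hb _ ((hφ i v).1 hv r), h0, zero_mul]
      rfl
  have h4 := finrank_map_add Λ (Q.F k)
  rw [h1, h2, finrank_top, finrank_fintype_fun_eq_card] at h4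
  omega

theorem ty1 (hN : stNOETH) (hV : stVAN) : stTY1 := by
  intro C hC p χ hp hχ
  refine ⟨ty1_ty hN hV hp hχ, fun X Y Φ Ψ d d' y h1 h2 hy h3 h4 => le_antisymm
    (ty1_mono hN hV hp hχ h1 h2 hy h3) (ty1_mono hN hV hp hχ h2 h1 (hy.cast (add_comm _ _)) h4),
    fun S X Y h => ty1_sum hN hV hp hχ h, fun P m h => ?_, fun Q ι _ m h => ty1_fr hC hp hχ h,
    fun Y h => ?_⟩
  · obtain ⟨φ, hφ⟩ := h
    exact ty1_fr hC hp hχ (ι := Unit) (m := m)
      ⟨φ.trans (LinearEquiv.funUnique Unit C.B C.B).symm, fun k v =>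
        (hφ k v).trans ⟨fun h _ => h, fun h => h ()⟩⟩
  · have h1 := ty1_pr hχ Y
    refine ty1_eq ((hV Y.V (rad χ Y) Y.F h1.fam h1.fg h1.le fun q hq k v hv => ?_).1.mono
      fun k hk => by rw [hk, add_zero])
    by_cases hc : ∃ c : ℂ, q = c • p
    · obtain ⟨c, rfl⟩ := hc
      obtain ⟨d, y, hy, h2⟩ := h k v hv
      exact ⟨d, y, hy.smul_pt fun h0 => hq (by rw [h0, zero_smul]), h2⟩
    · obtain ⟨g, g1, g2, g3⟩ := ty1_sep hp hc
      exact ⟨1, ev g, ⟨g, g1, rfl, g3⟩, h1.van 1 g g1 g2 k v hv⟩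

end Vale.Agent.P287Z.N
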