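import Vale.Agent.P287Z.N.Sk2
import Vale.Agent.P287Z.N.Symm
import Vale.Agent.P287Z.L.Uni

/-!
Vectors which are unimodular in codimension one and at the nodes.
-/

namespace Vale.Agent.P287Z.N

open MvPolynomial Module Filter Matrix Vale.Agent.P287.Theta Vale.Agent.P287Z.L

namespace UniN

theorem two {a₀ b₂ : ℂ} (a₁ a₂ b₀ b₁ : ℂ) (ha : a₀ ≠ 0) (hb : b₂ ≠ 0) :
    ∃ t : ℂ, a₂ * t ^ 2 + a₁ * t + a₀ ≠ 0 ∧ b₂ * t ^ 2 + b₁ * t + b₀ ≠ 0 := by
  by_contra h
  have h1 : (Polynomial.C a₂ * Polynomial.X ^ 2 + Polynomial.C a₁ * Polynomial.X +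
      Polynomial.C a₀) * (Polynomial.C b₂ * Polynomial.X ^ 2 + Polynomial.C b₁ * Polynomial.X +
      Polynomial.C b₀) = 0 := Polynomial.funext fun t => by
    by_contra k
    refine h ⟨t, ?_⟩
    simpa only [Polynomial.eval_mul, Polynomial.eval_add, Polynomial.eval_pow, Polynomial.eval_C,
      Polynomial.eval_X, Polynomial.eval_zero, mul_eq_zero, not_or, ne_eq] using k
  rcases mul_eq_zero.1 h1 with k | k
  · exact ha (by simpa using congrArg (Polynomial.eval 0) k)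
  · have := Polynomial.degree_quadratic (b := b₁) (c := b₀) hb
    rw [k, Polynomial.degree_zero] at this
    exact absurd this (by decide)

/-- a line through `p` that misses `q` -/
theorem sep {p q : Fin 3 → ℂ} (hp : p ≠ 0) (h : ∀ c : ℂ, q ≠ c • p) :
    ∃ l : P3, Hg 1 l ∧ eval p l = 0 ∧ eval q l ≠ 0 := by
  obtain ⟨i, hi⟩ := Function.ne_iff.1 hp
  have hi' : p i ≠ 0 := hi
  obtain ⟨j, hj⟩ := Function.ne_iff.1 (h (q i / p i))
  refine ⟨MvPolynomial.C (p i) * X j - MvPolynomial.C (p j) * X i,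
    ((hg_X j).C_mul _).sub ((hg_X i).C_mul _), ?_, fun e => hj ?_⟩
  · simp only [map_sub, map_mul, eval_C, eval_X]
    ring
  · simp only [map_sub, map_mul, eval_C, eval_X] at e
    rw [Pi.smul_apply, smul_eq_mul]
    field_simp
    linear_combination e

/-- a line through `p` -/
theorem thr (p : Fin 3 → ℂ) : ∃ l : P3, Hg 1 l ∧ eval p l = 0 ∧ l ≠ 0 := by
  by_cases h : p 0 = 0
  · exact ⟨X 0, hg_X 0, (eval_X 0).trans h, X_ne_zero 0⟩
  · obtain ⟨l, h1, h2, h3⟩ := sep (p := p) (q := Pi.single 1 1) (fun e => h (congrFun e 0))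
      fun c e => by
        have e0 := congrFun e 0
        have e1 := congrFun e 1
        simp only [Pi.smul_apply, smul_eq_mul, Pi.single_eq_same, ne_eq, zero_ne_one,
          not_false_eq_true, Pi.single_eq_of_ne] at e0 e1
        rw [(mul_eq_zero.1 e0.symm).resolve_right h, zero_mul] at e1
        exact one_ne_zero e1
    exact ⟨l, h1, h2, fun e => h3 (by rw [e, map_zero])⟩

variable {C : Cx} {k e : ℤ} {b b' : C.B} {M M' : Matrix (Fin 8) (Fin 8) P3} {g y : P3}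

/-- `M` is the matrix of the multiplication by `b` -/
structure Mx (k : ℤ) (b : C.B) (M : Matrix (Fin 8) (Fin 8) P3) : Prop where
  deg : ∀ s t, Hg (oz s + k - oz t) (M s t)
  val : ∀ s, b * C.o s = ∑ t, ev (M s t) • C.o t

theorem Mx.ex (c : Ctx C) (h : b ∈ C.O k) : ∃ M, Mx k b M := by
  choose a a1 a2 using fun s => mem_Sp.1 (c.tab.mul _ _ b h _ (self_mem_Sp C.o oz s))
  choose M m1 m2 using fun s t => mem_AA.1 (a1 s t)
  exact ⟨.of M, fun s t => (m1 s t).cast (by ring), fun s => by simp only [of_apply, m2, a2]⟩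

theorem Mx.smul (h : Mx k b M) (hy : Hg e y) : Mx (e + k) (ev y • b) (y • M) :=
  ⟨fun s t => (hy.mul (h.deg s t)).cast (by ring), fun s => by
    simp only [smul_mul_assoc, h.val, Finset.smul_sum, Matrix.smul_apply, smul_eq_mul, map_mul, mul_smul]⟩

theorem Mx.add (h : Mx k b M) (hy : Hg k y) :
    Mx k (b + ev y • 1) (M + y • (1 : Matrix (Fin 8) (Fin 8) P3)) := by
  refine ⟨fun s t => (h.deg s t).add ?_, fun s => ?_⟩
  · by_cases a : s = t
    · rw [a, Matrix.smul_apply, one_apply_eq, smul_eq_mul, mul_one]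
      exact hy.cast (by ring)
    · rw [Matrix.smul_apply, one_apply_ne a, smul_zero]
      exact hg_zero _
  · simp [add_mul, h.val, add_smul, Finset.sum_add_distrib, one_apply, apply_ite ev]

theorem li (c : Ctx C) : LinearIndependent K C.o :=
  c.alg.li 1 e4 one_ne_zero (by
    rw [show Matrix.of e4 = 1 from Matrix.ext fun i j => by simp [e4, Pi.single_apply, one_apply,
      eq_comm], det_one]; exact one_ne_zero)

theorem Mx.comb (h : Mx k b M) (t : Fin 8 → K) :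
    b * ∑ s, t s • C.o s = ∑ s, (t ᵥ* M.map ev) s • C.o s := by
  simp only [Finset.mul_sum, mul_smul_comm, h.val, Finset.smul_sum, smul_smul, vecMul, dotProduct,
    Finset.sum_smul, map_apply]
  exact Finset.sum_comm

theorem Mx.ne (c : Ctx C) (h : Mx k b M) (hb : b ≠ 0) : M.det ≠ 0 := fun a => by
  obtain ⟨t, t0, t1⟩ := (exists_vecMul_eq_zero_iff (M := M.map ev)).2
    ((ev.map_det M).symm.trans (by rw [a, map_zero]))
  have k := h.comb t
  simp only [t1, Pi.zero_apply, zero_smul, Finset.sum_const_zero] at k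
  exact t0 (funext (Fintype.linearIndependent_iff.1 (li c) t ((c.div b hb).mul_right_eq_zero.1 k)))

theorem Mx.inv (h : Mx e b' M) : Hg (8 * e) M.det ∧ ∃ x ∈ C.O (8 * e - e),
    b' * x = algebraMap K C.B (ev M.det) := by
  have d : ∀ s t, Hg (-oz t - (-oz s - e)) (M s t) := fun s t => (h.deg s t).cast (by ring)
  have d' : ∑ i, -oz i - ∑ i, (-oz i - e) = 8 * e := by
    rw [Finset.sum_sub_distrib, Finset.sum_const, Finset.card_univ, Fintype.card_fin]
    simp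
  have k1 := h.comb fun s => ev (M.adjugate 0 s)
  have k2 : (fun s => ev (M.adjugate 0 s)) ᵥ* M.map ev = Pi.single 0 (ev M.det) := funext fun t => by
    have := congrArg ev (congrFun (congrFun (adjugate_mul M) 0) t)
    rw [mul_apply, map_sum] at this
    simp only [map_mul] at this
    refine this.trans ?_
    by_cases a : t = 0 <;> simp [a, one_apply, eq_comm]
  rw [k2, ← Fintype.linearCombination_apply (v := C.o) (f := Pi.single _ _),
    Fintype.linearCombination_apply_single] at k1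
  refine ⟨(hg_det M _ _ d).cast d', _, mem_Sp.2 ⟨_, fun s =>
    AA_cast (hg_adj M _ _ d 0 s).mem ?_, rfl⟩, k1.trans (Algebra.algebraMap_eq_smul_one _).symm⟩
  rw [d', show oz 0 = 0 from rfl]
  ring

theorem Mx.loc (c : Ctx C) (h : Mx e b' M) (hg : ¬ g ∣ M.det) (hb : b * b' ∈ C.O (k + e)) :
    LocG C.O g k b := by
  obtain ⟨h1, x, h2, h3⟩ := h.inv
  refine ⟨_, _, ⟨_, h1, rfl, hg⟩, ?_⟩
  rw [Algebra.smul_def, Algebra.commutes, ← h3, ← mul_assoc]
  exact mem_cast (c.tab.mul _ _ _ hb _ h2) (by ring)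

variable {X : OL C} {p : Fin 3 → ℂ} {m j : ℤ} {v w : X.V}

/-- the vector `v` of degree `m` is unimodular at the point `p` -/
def Um (X : OL C) (p : Fin 3 → ℂ) (m : ℤ) (v : X.V) : Prop :=
  ∃ (φ : X.V →ₗ[C.B] C.B) (d : ℤ) (y : K), U1 p d y ∧ φ ∈ HO X (d - m) ∧ φ v = algebraMap K C.B y

theorem um_of (c : Ctx C) {φ : X.V →ₗ[C.B] C.B} (hφ : φ ∈ HO X k) {x : C.B} {d : ℤ} {y : K}
    (hy : U1 p d y) (hx : x ∈ C.O (d - (m + k))) (e : φ v * x = algebraMap K C.B y) :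
    Um X p m v :=
  ⟨LinearMap.toSpanSingleton C.B C.B x ∘ₗ φ, d, y, hy,
    fun i z hz => mem_cast (c.tab.mul _ _ _ (hφ i z hz) _ hx) (by ring), e⟩

theorem Um.pt (h : Um X p m v) {t : ℂ} (ht : t ≠ 0) : Um X (t • p) m v :=
  let ⟨φ, d, y, h1, h2⟩ := h; ⟨φ, d, y, h1.smul_pt ht, h2⟩

theorem Um.ne (c : Ctx C) (h : Um X p m v) : v ≠ 0 := fun e => by
  obtain ⟨φ, d, y, h1, -, h2⟩ := h
  have : Nontrivial C.B := Module.nontrivial_of_finrank_eq_succ (R := K) c.alg.rank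
  rw [e, map_zero] at h2
  exact h1.ne ((algebraMap K C.B).injective (h2.symm.trans (map_zero _).symm))

theorem Um.smul (h : Um X p m v) (hg : Hg e g) (h0 : eval p g ≠ 0) :
    Um X p (e + m) (ev g • v) := by
  obtain ⟨φ, d, y, h1, h2, h3⟩ := h
  refine ⟨φ, e + d, ev g * y, U1.mul ⟨g, hg, rfl, h0⟩ h1, ?_, ?_⟩
  · rwa [add_sub_add_left_eq_sub]
  · rw [LinearMap.map_smul_of_tower, h3, map_mul, Algebra.smul_def]

theorem Um.add (c : Ctx C) (h : Um X p m v) (hg : Hg e g) (h0 : eval p g = 0) (hw : w ∈ X.F j)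
    (hm : e + j = m) : Um X p m (v + ev g • w) := by
  obtain ⟨φ, d, _, ⟨y, y1, rfl, y2⟩, h2, h3⟩ := h
  obtain ⟨M, hM⟩ := Mx.ex c (h2 j w hw)
  obtain ⟨k1, x, k2, k3⟩ := ((hM.smul hg).add (y1.cast (by omega))).inv
  refine um_of c h2 ⟨_, k1, rfl, ?_⟩ (mem_cast k2 (by omega)) ?_
  · have e1 : (eval p).mapMatrix (g • M + y • (1 : Matrix (Fin 8) (Fin 8) P3)) =
        eval p y • (1 : Matrix (Fin 8) (Fin 8) ℂ) := by
      ext s t
      by_cases a : s = t <;> simp [a, h0]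
    rw [RingHom.map_det, e1, det_smul, det_one, mul_one]
    exact pow_ne_zero _ y2
  · rw [← k3, map_add, LinearMap.map_smul_of_tower, h3, Algebra.algebraMap_eq_smul_one, add_comm]

theorem Um.loc (h : Um X p m v) (hb : b • v ∈ X.F (k + m)) : LocP C.O p k b := by
  obtain ⟨φ, d, y, h1, h2, h3⟩ := h
  refine ⟨d, y, h1, ?_⟩
  have := h2 _ _ hb
  rw [map_smul, h3, smul_eq_mul, ← Algebra.commutes, ← Algebra.smul_def] at this
  exact mem_cast this (by ring)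

theorem raise (c : Ctx C) {χ : ℤ → C.B →ₗ[ℂ] ℂ} (hχ : Chr C.O p χ) (hp : p ≠ 0)
    {φ : X.V →ₗ[C.B] C.B} (hφ : φ ∈ HO X k) (hv : v ∈ X.F j) (h : χ (j + k) (φ v) ≠ 0)
    {j' k' : ℤ} (hj : j ≤ j') (hk : k ≤ k') :
    ∃ φ' ∈ HO X k', ∃ v' ∈ X.F j', χ (j' + k') (φ' v') ≠ 0 := by
  obtain ⟨i, l, l1, -, l2⟩ := exists_coord hp
  obtain ⟨a, rfl⟩ := Int.le.dest hj
  obtain ⟨n, rfl⟩ := Int.le.dest hk
  have d1 : ∀ n : ℕ, Hg n (l ^ n) := fun n => (l1.pow n).cast (mul_one _)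
  refine ⟨ev (l ^ n) • φ, fun s z hz => c.tab.lat.fam.smul (d1 n).mem (hφ s z hz) (by ring),
    ev (l ^ a) • v, X.lat.fam.smul (d1 a).mem hv (add_comm _ _), ?_⟩
  rw [LinearMap.smul_apply, LinearMap.map_smul_of_tower φ, smul_smul, ← map_mul,
    show j + a + (k + n) = n + a + (j + k) by ring,
    hχ.smul _ _ _ ((d1 n).mul (d1 a)) _ (hφ j v hv), map_mul, map_pow, map_pow]
  exact mul_ne_zero (mul_ne_zero (pow_ne_zero _ l2) (pow_ne_zero _ l2)) h

theorem um_nd (hP : stPJ) (hT : stTY2) (hU : stUNT) (c : Ctx C) (ν : ND C)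
    (h : ∀ s, 1 ≤ ty (ν.χ s) X) : ∃ m, ∃ v ∈ X.F m, Um X ν.p m v := by
  have k := fun s => (hT C c ν.p (ν.χ s) X ν.hp (ν.chr s) (hP C c X ν.p ν.hp)).1 (h s)
  obtain ⟨j₁, k₁, φ₁, v₁, a1, a2, a3⟩ := k true
  obtain ⟨j₂, k₂, φ₂, v₂, b1, b2, b3⟩ := k false
  obtain ⟨φ, a1, v, a2, a3⟩ :=
    raise c (ν.chr _) ν.hp a1 a2 a3 (le_max_left j₁ j₂) (le_max_left k₁ k₂)
  obtain ⟨ψ, b1, w, b2, b3⟩ :=
    raise c (ν.chr _) ν.hp b1 b2 b3 (le_max_right j₁ j₂) (le_max_right k₁ k₂)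
  generalize max j₁ j₂ = j at *
  generalize max k₁ k₂ = k at *
  obtain ⟨t, t1, t2⟩ := two (ν.χ true (j + k) (φ w) + ν.χ true (j + k) (ψ v))
    (ν.χ true (j + k) (ψ w)) (ν.χ false (j + k) (φ v))
    (ν.χ false (j + k) (φ w) + ν.χ false (j + k) (ψ v)) a3 b3
  have c1 : φ + t • ψ ∈ HO X k := add_mem a1 (Submodule.smul_mem _ t b1)
  have c2 : v + t • w ∈ X.F j := add_mem a2 (Submodule.smul_mem _ t b2)
  obtain ⟨x, d, y, y1, y2, y3⟩ := hU C c ν (j + k) _ (c1 _ _ c2) fun s => by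
    have e : ν.χ s (j + k) ((φ + t • ψ) (v + t • w)) = ν.χ s (j + k) (ψ w) * t ^ 2 +
        (ν.χ s (j + k) (φ w) + ν.χ s (j + k) (ψ v)) * t + ν.χ s (j + k) (φ v) := by
      simp only [LinearMap.add_apply, LinearMap.smul_apply, map_add,
        LinearMap.map_smul_of_tower, smul_eq_mul]
      ring
    rw [e]
    cases s
    exacts [t2, t1]
  exact ⟨j, _, c2, um_of c c1 y1 y2 y3⟩

theorem um_gd (hL : stLF) (c : Ctx C) {a : ℕ} (ha : rk X = 8 * a) (i : Fin a)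
    (hp : Gd C.M.det p) : ∃ m, ∃ v ∈ X.F m, Um X p m v := by
  obtain ⟨w, h, d, y, o⟩ := SymN.exists_lo c hL X ha hp
  refine ⟨h i, w i, o.mem i, y • w.coord i, d, y, o.unit,
    fun k x hx => mem_cast (o.loc k x hx i) (by ring), ?_⟩
  rw [LinearMap.smul_apply, Basis.coord_apply, Basis.repr_self, Finsupp.single_eq_same,
    Algebra.algebraMap_eq_smul_one]

theorem patch (c : Ctx C) (h : ∀ p : Fin 3 → ℂ, p ≠ 0 → ∃ m, ∃ v ∈ X.F m, Um X p m v)
    (Z : Finset (Fin 3 → ℂ)) (hZ : ∀ z ∈ Z, z ≠ 0) :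
    ∃ m, ∃ v ∈ X.F m, ∀ z ∈ Z, Um X z m v := by
  classical
  induction Z using Finset.induction_on with
  | empty => exact ⟨0, 0, zero_mem _, by simp⟩
  | insert q Z _ ih =>
    have hZ' : ∀ z ∈ Z, z ≠ 0 := fun z hz => hZ z (Finset.mem_insert_of_mem hz)
    have q0 := hZ q (Finset.mem_insert_self q Z)
    obtain ⟨m, v, v1, v2⟩ := ih hZ'
    by_cases hq : ∃ z ∈ Z, ∃ t : ℂ, q = t • z
    · obtain ⟨z, hz, t, e⟩ := hq
      refine ⟨m, v, v1, Finset.forall_mem_insert .. |>.2 ⟨?_, v2⟩⟩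
      rw [e]
      exact (v2 z hz).pt fun t0 => q0 (by rw [e, t0, zero_smul])
    obtain ⟨n, w, w1, w2⟩ := h q q0
    choose! s s1 s2 s3 using fun z hz => sep (hZ' z hz) fun t e => hq ⟨z, hz, t, e⟩
    obtain ⟨l, l1, l2⟩ := exists_lin _ hZ
    have lq := l2 q (Finset.mem_insert_self q Z)
    have d1 : ∀ n : ℕ, Hg n (l ^ n) := fun n => (l1.pow n).cast (mul_one _)
    have g1 : Hg Z.card (∏ z ∈ Z, s z) := (hg_prod Z s1).cast (by simp)
    have g2 : eval q (∏ z ∈ Z, s z) ≠ 0 := by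
      rw [map_prod]
      exact Finset.prod_ne_zero_iff.2 s3
    have g3 : ∀ z ∈ Z, eval z (∏ z ∈ Z, s z) = 0 := fun z hz => by
      rw [map_prod]
      exact Finset.prod_eq_zero hz (s2 z hz)
    generalize ∏ z ∈ Z, s z = f at g1 g2 g3
    generalize Z.card = N at g1
    obtain ⟨a, b, e⟩ : ∃ a b : ℕ, a + m = b + n := ⟨(n - m).toNat, (m - n).toNat, by omega⟩
    have g4 : Hg (N + a) ((MvPolynomial.C (eval q f) * l ^ N - MvPolynomial.C (eval q l ^ N) * f) *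
        l ^ a) := (((d1 N).C_mul _).sub (g1.C_mul _)).mul (d1 a)
    have g5 : Hg (N + b) (f * l ^ b) := g1.mul (d1 b)
    refine ⟨N + a + m, _, add_mem (X.lat.fam.smul g4.mem v1 rfl)
      (X.lat.fam.smul g5.mem w1 (by omega)), Finset.forall_mem_insert .. |>.2 ⟨?_, fun z hz => ?_⟩⟩
    · rw [add_comm (_ • v), show N + a + m = N + b + n by omega]
      refine (w2.smul g5 ?_).add c g4 ?_ v1 (by omega)
      · rw [map_mul, map_pow]
        exact mul_ne_zero g2 (pow_ne_zero _ lq)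
      · simp only [map_mul, map_sub, map_pow, eval_C]
        ring
    · have lz := l2 z (Finset.mem_insert_of_mem hz)
      refine ((v2 z hz).smul g4 ?_).add c g5 ?_ w1 (by omega)
      · simp only [map_mul, map_sub, map_pow, eval_C, g3 z hz, mul_zero, sub_zero]
        exact mul_ne_zero (mul_ne_zero g2 (pow_ne_zero _ lz)) (pow_ne_zero _ lz)
      · rw [map_mul, g3 z hz, zero_mul]

end UniN

open UniN in
theorem uni (hL : stLF) (hP : stPJ) (hT : stTY2) (hU : stUNT) : stUNI := by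
  classical
  intro C c r ν hν X a ha h2 hty
  have hall : ∀ p : Fin 3 → ℂ, p ≠ 0 → ∃ m, ∃ v ∈ X.F m, Um X p m v := fun p hp => by
    rcases gd_or_nd C.M.det hp with h | h
    · exact um_gd hL c ha ⟨0, by omega⟩ h
    · obtain ⟨i, t, rfl⟩ := hν.all p h
      obtain ⟨m, v, v1, v2⟩ := um_nd hP hT hU c (ν i) (hty i)
      exact ⟨m, v, v1, v2.pt fun e => hp (by rw [e, zero_smul])⟩
  obtain ⟨q, hq⟩ := c.nodal.exists_gd
  obtain ⟨w, hw, d₀, y₀, o⟩ := SymN.exists_lo c hL X ha hq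
  obtain ⟨d, H, h1, H0, h0, k1⟩ : ∃ d H, Hg d H ∧ H ≠ 0 ∧ (∀ i, eval (ν i).p H = 0) ∧
      ∀ k, ∀ x ∈ X.F k, ∀ i, ev H • w.coord i x ∈ C.O (d + k - hw i) := by
    obtain ⟨H, a1, rfl, a2⟩ := o.unit
    choose s s1 s2 s3 using fun i => thr (ν i).p
    have a3 := hg_prod Finset.univ fun i _ => s1 i
    refine ⟨_, _, a3.mul a1, mul_ne_zero (Finset.prod_ne_zero_iff.2 fun i _ => s3 i)
      fun e => a2 (by rw [e, map_zero]), fun i => ?_, fun k x hx i => ?_⟩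
    · rw [map_mul, map_prod, Finset.prod_eq_zero (Finset.mem_univ i) (s2 i), zero_mul]
    · rw [map_mul, mul_smul]
      exact c.tab.lat.fam.smul a3.mem (o.loc k x hx i) (by ring)
  obtain ⟨Z, z1, z2⟩ := UniA.pts H0
  have z3 : ∀ z ∈ insert 1 (Z ∪ Finset.univ.image fun i => (ν i).p), z ≠ 0 :=
    Finset.forall_mem_insert .. |>.2 ⟨one_ne_zero, fun z hz => (Finset.mem_union.1 hz).elim (z1 z)
      fun hz => let ⟨i, _, e⟩ := Finset.mem_image.1 hz; e ▸ (ν i).hp⟩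
  obtain ⟨n, u, u1, u2⟩ := patch c hall _ z3
  obtain ⟨l₀, l1, l2⟩ := exists_lin _ z3
  obtain ⟨i, hi⟩ : ∃ i, w.coord i u ≠ 0 := by
    by_contra! e
    exact (u2 1 (Finset.mem_insert_self _ _)).ne c (w.forall_coord_eq_zero_iff.1 e)
  have : Nontrivial (Fin a) := Fin.nontrivial_iff_two_le.2 h2
  obtain ⟨j, hj⟩ := exists_ne i
  obtain ⟨e₀, e₂, he⟩ : ∃ e₀ e₂ : ℕ, e₀ + n = d + e₂ + hw j :=
    ⟨(d + hw j - n).toNat, (n - d - hw j).toNat, by omega⟩
  have y0 : Hg e₀ (l₀ ^ e₀) := (l1.pow e₀).cast (mul_one _)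
  have y1 : ev (l₀ ^ e₀) ≠ 0 := y0.ev_ne (pow_ne_zero _ fun e =>
    l2 1 (Finset.mem_insert_self _ _) (by rw [e, map_zero]))
  obtain ⟨Mi, mi⟩ := Mx.ex c (c.tab.lat.fam _ _ _ y0.mem _ (k1 _ _ u1 i))
  obtain ⟨Mj, mj⟩ := Mx.ex c (c.tab.lat.fam _ _ _ y0.mem _ (k1 _ _ u1 j))
  have b0 := smul_ne_zero y1 (smul_ne_zero (h1.ev_ne H0) hi)
  have N0 := mi.ne c b0
  obtain ⟨Z', z4, z5⟩ := UniA.pts N0
  obtain ⟨l₂, l3, l4⟩ := exists_lin _ z4
  obtain ⟨t, ht⟩ := UniA.gen N0 (H * (H * l₂ ^ e₂)) Mj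
  have y2 : Hg e₂ (MvPolynomial.C t * l₂ ^ e₂) := ((l3.pow e₂).cast (mul_one _)).C_mul t
  set y := MvPolynomial.C t * l₂ ^ e₂
  have w1 := o.mem j
  have vi : ev H • w.coord i (ev (l₀ ^ e₀) • u + ev (H * y) • w j) =
      ev (l₀ ^ e₀) • ev H • w.coord i u := by
    rw [map_add, LinearMap.map_smul_of_tower, LinearMap.map_smul_of_tower,
      Basis.coord_apply w i (w j), Basis.repr_self, Finsupp.single_eq_of_ne hj.symm, smul_zero,
      add_zero, smul_comm]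
  have vj : ev H • w.coord j (ev (l₀ ^ e₀) • u + ev (H * y) • w j) =
      ev (l₀ ^ e₀) • ev H • w.coord j u + ev (H * (H * y)) • 1 := by
    rw [map_add, LinearMap.map_smul_of_tower, LinearMap.map_smul_of_tower,
      Basis.coord_apply w j (w j), Basis.repr_self, Finsupp.single_eq_same, smul_add, smul_comm,
      smul_smul (ev H), ← map_mul]
  have um : ∀ z ∈ Z ∪ Finset.univ.image fun i => (ν i).p, eval z H = 0 →
      Um X z (e₀ + n) (ev (l₀ ^ e₀) • u + ev (H * y) • w j) := fun z hz e => by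
    have a3 := Finset.mem_insert_of_mem (b := 1) hz
    refine ((u2 z a3).smul y0 ?_).add c (h1.mul y2) ?_ w1 he.symm
    · rw [map_pow]
      exact pow_ne_zero _ (l2 z a3)
    · rw [map_mul, e, zero_mul]
  refine ⟨e₀ + n, ev (l₀ ^ e₀) • u + ev (H * y) • w j, add_mem (X.lat.fam.smul y0.mem u1 rfl)
    (X.lat.fam.smul (h1.mul y2).mem w1 he.symm), fun e => ?_,
    fun b k hb => c.tab.lat.refl _ _ fun g hg => ?_, fun i => um _ (Finset.mem_union_right _
      (Finset.mem_image_of_mem _ (Finset.mem_univ i))) (h0 i)⟩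
  · rw [e, map_zero, smul_zero] at vi
    exact b0 vi.symm
  have k2 := k1 _ _ hb
  simp only [map_smul, smul_eq_mul, ← mul_smul_comm] at k2
  by_cases gH : g ∣ H
  · obtain ⟨z, a1, a2⟩ := z2 g hg gH
    exact ((um z (Finset.mem_union_left _ a1)
      (zero_dvd_iff.1 (a2 ▸ map_dvd (eval z) gH))).loc hb).locG a2
  by_cases gN : g ∣ Mi.det
  · have k5 := k2 j
    rw [vj] at k5
    obtain ⟨z, a1, a2⟩ := z5 g hg gN
    refine (mj.add ((h1.mul (h1.mul y2)).cast (by omega))).loc c ?_ (mem_cast k5 (by omega))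
    rw [show H * (H * y) = MvPolynomial.C t * (H * (H * l₂ ^ e₂)) by ring]
    refine ht g hg.1 gN fun e => (hg.1.dvd_or_dvd e).elim gH fun e =>
      (hg.1.dvd_or_dvd e).elim gH fun e => l4 z a1 ?_
    exact zero_dvd_iff.1 (a2 ▸ map_dvd (eval z) (hg.1.dvd_of_dvd_pow e))
  · have k5 := k2 i
    rw [vi] at k5
    exact mi.loc c gN (mem_cast k5 (by omega))

end Vale.Agent.P287Z.N
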