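import Vale.Agent.P287Z.N.Sk2
import Vale.Agent.P287Z.L.LfB

/-!
Local units and local generators of the kernels of the characters at a node.
-/

namespace Vale.Agent.P287Z.N

open MvPolynomial Module Filter Matrix Vale.Agent.P287 Vale.Agent.P287.Theta Vale.Agent.P287Z.L

namespace Unt

variable {R : Type} [Ring R] [Algebra ℂ R]

theorem reg {i a b W : R} {α : ℂ} (c : Fin 8 → ℂ) (ii : i * i = α • 1) (aa : a * a = 0)
    (bb : b * b = 0) (ab : a * b + b * a = 0) (ia : i * a + a * i = 0) (ib : i * b + b * i = 0)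
    (h0 : c 0 ^ 2 - c 1 ^ 2 * α ≠ 0)
    (h : (∑ t, c t • ![1, i, a, b, i * a, i * b, a * b, i * (a * b)] t) * W = 0) : W = 0 := by
  have r1 : ∀ z, a * (a * z) = 0 := fun z => by rw [← mul_assoc, aa, zero_mul]
  have r2 : ∀ z, b * (b * z) = 0 := fun z => by rw [← mul_assoc, bb, zero_mul]
  have r3 : ∀ z, b * (a * z) = -(a * (b * z)) := fun z => by
    rw [← mul_assoc, eq_neg_of_add_eq_zero_right ab, neg_mul, mul_assoc]
  have r4 : ∀ z, a * (i * z) = -(i * (a * z)) := fun z => by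
    rw [← mul_assoc, eq_neg_of_add_eq_zero_right ia, neg_mul, mul_assoc]
  have r5 : ∀ z, b * (i * z) = -(i * (b * z)) := fun z => by
    rw [← mul_assoc, eq_neg_of_add_eq_zero_right ib, neg_mul, mul_assoc]
  have hu : ∀ (e : ℂ) z, e ^ 2 = c 1 ^ 2 → c 0 • z + e • (i * z) = 0 → z = 0 := fun e z he k => by
    have k2 := congrArg (i * ·) k
    simp only [mul_add, mul_smul_comm, ← mul_assoc, ii, smul_mul_assoc, one_mul, mul_zero] at k2
    refine (smul_eq_zero.1 (show (c 0 ^ 2 - c 1 ^ 2 * α) • z = 0 from ?_)).resolve_left h0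
    rw [← he]
    linear_combination (norm := module) c 0 • k - e • k2
  simp only [Fin.sum_univ_eight, cons_val, add_mul, smul_mul_assoc, one_mul, mul_assoc] at h
  have h1 : a * (b * W) = 0 := hu _ _ rfl (by
    simpa only [mul_add, mul_smul_comm, r1, r2, r3, r4, r5, mul_neg, neg_neg, mul_zero, neg_zero,
      smul_zero, add_zero] using congrArg (fun z => a * (b * z)) h)
  have h2 : a * W = 0 := hu _ _ (neg_sq _) (by
    simpa only [mul_add, mul_smul_comm, r1, r4, h1, mul_zero, neg_zero, smul_zero, add_zero,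
      smul_neg, neg_smul] using congrArg (a * ·) h)
  have h3 : b * W = 0 := hu _ _ (neg_sq _) (by
    simpa only [mul_add, mul_smul_comm, r2, r5, h1, h2, mul_zero, neg_zero, smul_zero, add_zero,
      smul_neg, neg_smul] using congrArg (b * ·) h)
  exact hu _ _ rfl (by simpa only [h2, h3, mul_zero, smul_zero, add_zero] using h)

theorem comb {F B : Type} [Field F] [CharZero F] [Ring B] [Algebra F B] {x i a b : B}
    {c : Fin 8 → F} {y Z γ k₁ k₂ k₃ A₁ A₂ A₃ : F}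
    (h : Z • x = ∑ t, c t • ![1, i, a, b, i * a, i * b, a * b, i * (a * b)] t)
    (e : y * (c 0 + c 1 * γ) = k₁ * A₁ + k₂ * A₂ + k₃ * A₃) (aa : a * a = algebraMap F B A₁)
    (ab : a * b + b * a = algebraMap F B (2 * A₂)) (bb : b * b = algebraMap F B A₃) :
    (y * Z) • x = (y * c 1) • 1 * (i - algebraMap F B γ) +
      ((y * c 2) • 1 + (y * c 4) • i + k₁ • a + (2⁻¹ * k₂) • b) * a +
      ((y * c 3) • 1 + (y * c 5) • i + (y * c 6) • a + (y * c 7) • (i * a) + (2⁻¹ * k₂) • a +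
        k₃ • b) * b := by
  simp only [Fin.sum_univ_eight, cons_val] at h
  rw [Algebra.algebraMap_eq_smul_one] at ab
  simp only [add_mul, smul_mul_assoc, one_mul, mul_assoc, aa, bb, Algebra.algebraMap_eq_smul_one]
  linear_combination (norm := module) y • h + congrArg (· • (1 : B)) e - ((2 : F)⁻¹ * k₂) • ab

variable {B : Type} [Ring B] [Algebra K B] [Algebra ℂ B]
  {O : ℤ → Submodule ℂ B} {p : Fin 3 → ℂ} {f : ℤ → B → R}

/-- a representation of the fibre of the order at `p` -/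
structure Rp (O : ℤ → Submodule ℂ B) (p : Fin 3 → ℂ) (f : ℤ → B → R) : Prop where
  one : f 0 1 = 1
  add : ∀ k, ∀ x ∈ O k, ∀ y ∈ O k, f k (x + y) = f k x + f k y
  mul : ∀ j k, ∀ x ∈ O j, ∀ y ∈ O k, f (j + k) (x * y) = f j x * f k y
  smul : ∀ j k g, Hg j g → ∀ x ∈ O k, f (j + k) (ev g • x) = eval p g • f k x

theorem Rp.zero (h : Rp O p f) (k : ℤ) : f k 0 = 0 :=
  left_eq_add.1 ((congrArg (f k) (add_zero 0).symm).trans (h.add k 0 (zero_mem _) 0 (zero_mem _)))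

theorem Rp.sum (h : Rp O p f) {κ : Type} (s : Finset κ) {k : ℤ} {v : κ → B} (hv : ∀ i, v i ∈ O k) :
    f k (∑ i ∈ s, v i) = ∑ i ∈ s, f k (v i) := by
  classical
  induction s using Finset.induction_on with
  | empty => exact h.zero k
  | insert a s ha ih =>
    rw [Finset.sum_insert ha, Finset.sum_insert ha, h.add _ _ (hv a) _ (sum_mem fun i _ => hv i), ih]

theorem Rp.sc (h : Rp O p f) (h1 : 1 ∈ O 0) {j : ℤ} {g : P3} (hg : Hg j g) :
    f j (algebraMap K B (ev g)) = eval p g • 1 := by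
  rw [Algebra.algebraMap_eq_smul_one, ← h.one, ← h.smul j 0 g hg 1 h1, add_zero]

theorem Rp.two (h : Rp O p f) {d : ℕ} {x y : B} (hx : x ∈ O d) (hy : y ∈ O d) :
    f (2 * d) (x * y) = f d x * f d y := by rw [two_mul, h.mul _ _ _ hx _ hy]

theorem rp_chr {χ : ℤ → B →ₗ[ℂ] ℂ} (h : Chr O p χ) : Rp O p fun k x => χ k x :=
  ⟨h.one, fun _ _ _ _ _ => map_add _ _ _, h.mul, h.smul⟩

variable [IsScalarTower ℂ K B] (ν : NDg B O)

include ν in
theorem m1 : 1 ∈ O 0 := ν.lb.mem 0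

theorem mI : ν.I ∈ O ν.d := ν.lb.mem 1
theorem ma : ν.a ∈ O ν.d := ν.lb.mem 2
theorem mb : ν.b ∈ O ν.d := ν.lb.mem 3

/-- the degrees of the local basis -/
abbrev dg : Fin 8 → ℤ := ![0, ν.d, ν.d, ν.d, 2 * ν.d, 2 * ν.d, 2 * ν.d, 3 * ν.d]

/-- the local basis -/
abbrev bs : Fin 8 → B :=
  ![1, ν.I, ν.a, ν.b, ν.I * ν.a, ν.I * ν.b, ν.a * ν.b, ν.I * (ν.a * ν.b)]

theorem dec : ∃ (D : ℤ) (Z : P3), Hg D Z ∧ eval ν.p Z ≠ 0 ∧ ∀ k, ∀ x ∈ O k, ∃ c : Fin 8 → P3,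
    (∀ t, Hg (D + k - dg ν t) (c t)) ∧ ev Z • x = ∑ t, ev (c t) • bs ν t :=
  let ⟨D, _, ⟨Z, h1, e, h2⟩, h3⟩ := ν.lb.loc
  ⟨D, Z, h1, h2, fun k x hx => LfA.mem_Sp.1 (e ▸ h3 k x hx)⟩

variable {ν}

theorem Rp.dec (h : Rp O ν.p f) (hF : Fam O) {D k : ℤ} {Z : P3} (hZ : Hg D Z) {x : B} (hx : x ∈ O k)
    {c : Fin 8 → P3} (hc : ∀ t, Hg (D + k - dg ν t) (c t)) (e : ev Z • x = ∑ t, ev (c t) • bs ν t) :
    eval ν.p Z • f k x = ∑ t, eval ν.p (c t) • ![1, f ν.d ν.I, f ν.d ν.a, f ν.d ν.b,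
      f ν.d ν.I * f ν.d ν.a, f ν.d ν.I * f ν.d ν.b, f ν.d ν.a * f ν.d ν.b,
      f ν.d ν.I * (f ν.d ν.a * f ν.d ν.b)] t := by
  rw [← h.smul D k Z hZ x hx, e, h.sum _ fun t =>
    sub_add_cancel (D + k) (dg ν t) ▸ hF _ _ _ (hc t).mem _ (ν.lb.mem t)]
  refine Finset.sum_congr rfl fun t _ => ?_
  rw [← sub_add_cancel (D + k) (dg ν t), h.smul _ _ _ (hc t) _ (ν.lb.mem t)]
  refine congrArg _ ?_
  fin_cases t
  exacts [h.one, rfl, rfl, rfl, h.two (mI ν) (ma ν), h.two (mI ν) (mb ν), h.two (ma ν) (mb ν),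
    (congrArg (f · _) (show 3 * (ν.d : ℤ) = ν.d + 2 * ν.d by ring)).trans
      ((h.mul _ _ _ (mI ν) _ (ν.lb.mem 6)).trans (congrArg _ (h.two (ma ν) (mb ν))))]

theorem chi_eq (hF : Fam O) {D k : ℤ} {Z : P3} (hZ : Hg D Z) {x : B} (hx : x ∈ O k)
    {c : Fin 8 → P3} (hc : ∀ t, Hg (D + k - dg ν t) (c t)) (e : ev Z • x = ∑ t, ev (c t) • bs ν t)
    (s : Bool) :
    eval ν.p Z * ν.χ s k x = eval ν.p (c 0) + eval ν.p (c 1) * (sg s * eval ν.p ν.c) := by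
  simpa [Fin.sum_univ_eight, ν.χI, ν.χa, ν.χb] using (rp_chr (ν.chr s)).dec hF hZ hx hc e

end Unt

open N.Unt

theorem unt (hD : stDET) : stUNT := by
  intro C hC ν k x hx h0
  have hF := hC.tab.lat.fam
  have hM := hC.tab.mul
  obtain ⟨A⟩ := LfA.exists_loc hF ν.lb
  have dgm : ∀ {j y}, y ∈ C.O j → LfA.Dg C.O (LinearMap.mulLeft K y) j := fun h _ _ hv =>
    hM _ _ _ h _ hv
  have hR : Rp C.O ν.p fun j y => A.m (LinearMap.mulLeft K y) j :=
    ⟨by simpa [← Module.End.one_eq_id] using A.m_sc hg_one, fun j y hy z hz => Matrix.ext fun s t => by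
      have e := congrFun (A.φ_add (dgm hy _ _ (A.lb.mem t)) (dgm hz _ _ (A.lb.mem t))) s
      exact (congrArg (A.φ _ · s) (add_mul y z _)).trans e,
    fun j l y hy z hz => by rw [A.m_mul (dgm hy) (dgm hz), LinearMap.mulLeft_mul]; rfl,
    fun j l g hg y hy => Matrix.ext fun s t => by
      have e := congrFun (A.φ_smul hg (dgm hy _ _ (A.lb.mem t))) s
      rw [← add_assoc] at e
      exact (congrArg (A.φ _ · s) (smul_mul_assoc _ y _)).trans e⟩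
  obtain ⟨D, Z, hZ, Z0, h1⟩ := dec ν
  obtain ⟨c, h2, h3⟩ := h1 k x hx
  have sq : ∀ {y z}, y ∈ C.O ν.d → z ∈ C.O ν.d → y * z ∈ C.O (2 * ν.d) := fun hy hz =>
    (two_mul (ν.d : ℤ)).symm ▸ hM _ _ _ hy _ hz
  have an : ∀ {y}, y ∈ C.O ν.d → ν.I * y = -(y * ν.I) → _ := fun hy e => by
    have k := hR.add _ _ (sq (mI ν) hy) _ (sq hy (mI ν))
    rw [hR.two (mI ν) hy, hR.two hy (mI ν), e, neg_add_cancel, hR.zero] at k
    exact k.symm
  have h4 : (A.m (LinearMap.mulLeft K x) k).det ≠ 0 := fun e => by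
    obtain ⟨v, v0, hv⟩ := Matrix.exists_mulVec_eq_zero_iff.2 e
    refine v0 (funext fun s => congrFun₂ (reg (W := Matrix.of fun s _ => v s) (α := eval ν.p ν.α)
      (fun t => eval ν.p (c t)) ?_ ?_ ?_ ?_ (an (ma ν) ν.Ia) (an (mb ν) ν.Ib) ?_ ?_) s 0)
    · rw [← hR.two (mI ν) (mI ν), ν.II, hR.sc (m1 ν) ν.hα]
    · rw [← hR.two (ma ν) (ma ν), ν.aa, hR.sc (m1 ν) ν.h₁, ν.z₁, zero_smul]
    · rw [← hR.two (mb ν) (mb ν), ν.bb, hR.sc (m1 ν) ν.h₃, ν.z₃, zero_smul]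
    · rw [← hR.two (ma ν) (mb ν), ← hR.two (mb ν) (ma ν),
        ← hR.add _ _ (sq (ma ν) (mb ν)) _ (sq (mb ν) (ma ν)), ν.ab, two_mul (ev _), ← map_add,
        hR.sc (m1 ν) (ν.h₂.add ν.h₂), map_add, ν.z₂, add_zero, zero_smul]
    · have k1 := mul_ne_zero (mul_ne_zero Z0 (h0 true)) (mul_ne_zero Z0 (h0 false))
      rw [chi_eq hF hZ hx h2 h3, chi_eq hF hZ hx h2 h3] at k1
      refine fun e => k1 ?_
      simp only [sg, if_true, Bool.false_eq_true, if_false]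
      linear_combination e - eval ν.p (c 1) ^ 2 * ν.cc
    · rw [← hR.dec hF hZ hx h2 h3, smul_mul_assoc]
      exact smul_eq_zero_of_right _ (Matrix.ext fun s _ => congrFun hv s)
  have := Module.finite_of_finrank_pos (R := K) (M := C.B) (by rw [hC.alg.rank]; norm_num)
  obtain ⟨d, y, h5, h6⟩ := (A.lb_of hD hC.tab.lat ν.hp (by rw [hC.alg.rank, Fintype.card_fin])
    (fun t => dgm hx _ _ (A.lb.mem t)) h4).loc
  obtain ⟨κ, h7, h8⟩ := mem_Sp.1 (h6 0 1 (m1 ν))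
  refine ⟨∑ t, κ t • A.u t, d, y, h5, sum_mem fun t _ => ?_, ?_⟩
  · exact (show d + 0 - (k + A.e t) + A.e t = d - k by ring) ▸ hF _ _ _ (h7 t) _ (A.lb.mem t)
  · rw [Algebra.algebraMap_eq_smul_one, ← h8, Finset.mul_sum]
    exact Finset.sum_congr rfl fun t _ => mul_smul_comm _ _ _

theorem lgen : stLGEN := by
  intro C hC ν s
  have hF := hC.tab.lat.fam
  obtain ⟨D, Z, hZ, Z0, h1⟩ := dec ν
  obtain ⟨n, y, hy, y0, h2⟩ := ν.gen
  refine ⟨n + D, ev (y * Z), ⟨_, hy.mul hZ, rfl, by rw [map_mul]; exact mul_ne_zero y0 Z0⟩,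
    fun k x hx h0 => ?_⟩
  obtain ⟨c, h3, h4⟩ := h1 k x hx
  have h5 := chi_eq hF hZ hx h3 h4 s
  rw [h0, mul_zero] at h5
  obtain ⟨k₁, k₂, k₃, e1, e2, e3, e4⟩ := h2 (D + k) (c 0 + c 1 * (MvPolynomial.C (sg s) * ν.c))
    (((h3 0).cast (sub_zero _)).add (((h3 1).mul (ν.hc.C_mul _)).cast (sub_add_cancel _ _)))
    (by rw [map_add, map_mul, map_mul, eval_C, ← h5])
  have sm : ∀ {i j : ℤ} {g : P3} {z}, Hg i g → z ∈ C.O j → i + j = k + (n + D) - ν.d →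
      ev g • z ∈ C.O (k + (n + D) - ν.d) := fun hg hz e => e ▸ hF _ _ _ hg.mem _ hz
  have cm : ∀ (t : Fin 8) {j : ℤ} {z}, z ∈ C.O j → dg ν t = j + ν.d →
      ev (y * c t) • z ∈ C.O (k + (n + D) - ν.d) := fun t _ _ hz e =>
    sm (hy.mul (h3 t)) hz (by rw [e]; ring)
  refine ⟨ev (y * c 1) • 1,
    ev (y * c 2) • 1 + ev (y * c 4) • ν.I + ev k₁ • ν.a + ev (MvPolynomial.C 2⁻¹ * k₂) • ν.b,
    ev (y * c 3) • 1 + ev (y * c 5) • ν.I + ev (y * c 6) • ν.a + ev (y * c 7) • (ν.I * ν.a) +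
      ev (MvPolynomial.C 2⁻¹ * k₂) • ν.a + ev k₃ • ν.b,
    cm 1 (m1 ν) (zero_add _).symm,
    add_mem (add_mem (add_mem (cm 2 (m1 ν) (zero_add _).symm) (cm 4 (mI ν) (two_mul _)))
      (sm e1 (ma ν) (by ring))) (sm (e2.C_mul _) (mb ν) (by ring)),
    add_mem (add_mem (add_mem (add_mem (add_mem (cm 3 (m1 ν) (zero_add _).symm)
      (cm 5 (mI ν) (two_mul _))) (cm 6 (ma ν) (two_mul _)))
      (cm 7 (ν.lb.mem 4) (show 3 * (ν.d : ℤ) = 2 * ν.d + ν.d by ring)))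
      (sm (e2.C_mul _) (ma ν) (by ring))) (sm e3 (mb ν) (by ring)), ?_⟩
  have e5 := congrArg ev e4
  have e7 : ev (MvPolynomial.C 2⁻¹) = 2⁻¹ := by rw [ev_C, map_inv₀, map_ofNat]
  rw [map_mul, map_add, map_mul ev (c 1), map_add, map_add, map_mul ev k₁, map_mul ev k₂,
    map_mul ev k₃] at e5
  simpa only [ND.J, map_mul ev, e7] using comb (c := fun t => ev (c t)) h4 e5 ν.aa ν.ab ν.bb

end Vale.Agent.P287Z.N
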