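import Vale.Agent.P287Z.N.Sk
import Vale.Agent.P287Z.L.V2

/-!
The lattice of rank one whose right order is the order of the form in the second normal form.
-/

namespace Vale.Agent.P287Z.N

open MvPolynomial Module Filter Matrix Vale.Agent.P287 Vale.Agent.P287.Theta Vale.Agent.P287Z.L

namespace V2N

variable {C : Cx} {ν : K} {u : Fin 4 → Fin 4 → K} {h : Fin 4 → ℤ} {l : ℤ}

/-- the products of the two orders -/
noncomputable def LL (C : Cx) (O' : ℤ → Submodule ℂ C.B) : ℤ → Submodule ℂ C.B :=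
  bil (LinearMap.mul K C.B) C.O O'

lemma fam_LL (hC : Ctx C) (O' : ℤ → Submodule ℂ C.B) : Fam (LL C O') :=
  fam_bil _ hC.tab.lat.fam _

lemma LL_left (hC : Ctx C) (O' : ℤ → Submodule ℂ C.B) {j : ℤ} {b : C.B} (hb : b ∈ C.O j) (k : ℤ) :
    ∀ v ∈ LL C O' k, LinearMap.mulLeft K b v ∈ LL C O' (j + k) :=
  bil_le (T := (LL C O' (j + k)).comap (LinearMap.mulLeft ℂ b)) fun i i' e x hx y hy => by
    show b * (x * y) ∈ LL C O' (j + k)
    rw [← mul_assoc]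
    exact mem_bil (ω := LinearMap.mul K C.B) (hC.tab.mul _ _ _ hb _ hx) hy (by omega)

lemma LL_right (T : Tab C.G ν u h l) {j : ℤ} {b : C.B} (hb : b ∈ Ord C.G ν u h l j) (k : ℤ) :
    ∀ v ∈ LL C (Ord C.G ν u h l) k,
      LinearMap.mulRight K b v ∈ LL C (Ord C.G ν u h l) (j + k) :=
  bil_le (T := (LL C _ (j + k)).comap (LinearMap.mulRight ℂ b)) fun i i' e x hx y hy => by
    show (x * y) * b ∈ LL C _ (j + k)
    rw [mul_assoc]
    exact mem_bil (ω := LinearMap.mul K C.B) hx (T.mul _ _ _ hy _ hb) (by omega)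

/-- the lattice -/
noncomputable def EL (hH : stHULL) (hC : Ctx C) (T : Tab C.G ν u h l) : OL C where
  V := C.B
  t₁ := (inferInstance : IsScalarTower ℂ K C.B)
  t₂ := (inferInstance : IsScalarTower K C.B C.B)
  t₃ := (inferInstance : IsScalarTower ℂ C.B C.B)
  F := hull (LL C (Ord C.G ν u h l))
  lat := hH _ _ (hC.tab.lat.fg.bil _ T.lat.fg) (Full.bil hC.tab.lat.fg T.lat.fg hC.tab.lat.full
    T.lat.full (eq_top_iff.2 fun x _ => Submodule.subset_span ⟨1, x, (one_mul x).symm⟩))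
  stab _ _ b hb _ hv := V2H.hull_map (fam_LL hC _) (LinearMap.mulLeft K b) (LL_left hC _ hb) hv

/-- right multiplication preserves the family -/
def Rt (F : ℤ → Submodule ℂ C.B) (k : ℤ) (r : C.B) : Prop := ∀ j, ∀ v ∈ F j, v * r ∈ F (j + k)

lemma Rt.mul {F : ℤ → Submodule ℂ C.B} {j k : ℤ} {r s : C.B} (hr : Rt F j r) (hs : Rt F k s) :
    Rt F (j + k) (r * s) := fun i v hv => by
  rw [← mul_assoc, ← add_assoc]
  exact hs _ _ (hr i v hv)

lemma rt_of_mem (hC : Ctx C) (T : Tab C.G ν u h l) {k : ℤ} {r : C.B}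
    (hr : r ∈ Ord C.G ν u h l k) : Rt (hull (LL C (Ord C.G ν u h l))) k r := fun _ _ hv =>
  mem_cast (V2H.hull_map (fam_LL hC _) (LinearMap.mulRight K r) (LL_right T hr) hv) (add_comm _ _)

lemma lam_loc (hC : Ctx C) {F : ℤ → Submodule ℂ C.B} {p : Fin 3 → ℂ} {v : Fin 1 → C.B}
    {e : Fin 1 → ℤ} (hv : LB F p (fun s : Fin 8 × Fin 1 => C.o s.1 * v s.2)
      fun s => oz s.1 + e s.2) {k : ℤ} {r : C.B} (hr : Rt F k r) :
    LocP AA p (k - 3) (lam C.G r) := by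
  have h1 : v 0 ∈ F (e 0) := by
    have := hv.mem (0, 0)
    simpa [ob, od] using this
  have h2 : v 0 ≠ 0 := fun h0 => hv.li.ne_zero (0, 0) (by simp [h0])
  obtain ⟨a, ha⟩ := hC.div _ h2
  obtain ⟨d, y, hy, h3⟩ := hv.loc
  obtain ⟨c, hc, h4⟩ := mem_Sp.1 (h3 _ _ (hr _ _ h1))
  have h5 : ∑ s, c (s, 0) • C.o s ∈ C.O (d + k) :=
    mem_Sp.2 ⟨fun s => c (s, 0), fun s => AA_cast (hc (s, 0)) (by ring), rfl⟩
  have h6 : (∑ s, c (s, 0) • C.o s) * a = a * (y • r) := by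
    rw [mul_smul_comm, ha, ← h4, Fintype.sum_prod_type, Finset.sum_mul]
    simp only [Fin.sum_univ_one, smul_mul_assoc, Fin.isValue]
  refine ⟨d, y, hy, ?_⟩
  have h7 : lam C.G (y • r) = lam C.G (∑ s, c (s, 0) • C.o s) := by
    rw [← Units.inv_mul_cancel_left a (y • r), ← h6, hC.alg.lam_comm, mul_assoc, Units.mul_inv,
      mul_one]
  rw [← map_smul, h7]
  exact AA_cast (hC.tab.int _ _ h5) (by ring)

lemma mem_of_rt (hH : stHULL) (hL : stLF) (hC : Ctx C) (T : Tab C.G ν u h l) {k : ℤ} {r : C.B}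
    (hr : Rt (hull (LL C (Ord C.G ν u h l))) k r) : r ∈ Ord C.G ν u h l k := by
  refine T.dual k r fun j y hy => hC.nodal.locP refl_AA fun p hp => ?_
  obtain ⟨v, e, hv⟩ := hL C hC (EL hH hC T) 1 hC.alg.rank {p} (by simpa using hp)
  rw [add_comm j k]
  exact lam_loc hC (hv p (Finset.mem_singleton_self p)) (hr.mul (rt_of_mem hC T hy))

/-- the value at one -/
noncomputable def at1 (C : Cx) : (C.B →ₗ[C.B] C.B) →ₗ[ℂ] C.B where
  toFun φ := φ 1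
  map_add' _ _ := rfl
  map_smul' _ _ := rfl

lemma app_eq (φ : C.B →ₗ[C.B] C.B) (v : C.B) : φ v = v * φ 1 := by
  rw [← smul_eq_mul, ← map_smul, smul_eq_mul, mul_one]

lemma fin_hom (hH : stHULL) (hL : stLF) (hC : Ctx C) (T : Tab C.G ν u h l) (k : ℤ) :
    finrank ℂ (HomF (EL hH hC T) (EL hH hC T) k) = finrank ℂ (Ord C.G ν u h l k) := by
  have h1 : Function.Injective (at1 C) := fun φ ψ e => LinearMap.ext fun v => by
    have h2 : φ 1 = ψ 1 := e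
    rw [app_eq φ, app_eq ψ, h2]
  have h2 : Submodule.map (at1 C) (HomF (EL hH hC T) (EL hH hC T) k) = Ord C.G ν u h l k := by
    refine le_antisymm ?_ fun r hr => ?_
    · rintro _ ⟨φ, hφ, rfl⟩
      refine mem_of_rt hH hL hC T fun j v hv => ?_
      exact (congrArg (· ∈ hull (LL C (Ord C.G ν u h l)) (j + k)) (app_eq φ v)).mp (hφ j v hv)
    · exact ⟨LinearMap.toSpanSingleton C.B C.B r, rt_of_mem hC T hr, one_mul r⟩
  rw [← h2]
  exact (finrank_map_inj (at1 C) h1 _).symm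

end V2N

open V2N in
theorem v2' (hT : stTAB) (hH : stHULL) (hL : stLF) : stV2 := by
  intro C hC ν φ u w hν hV
  have key : ∀ a b : Fin 4 → K, a ⬝ᵥ (ν⁻¹ • C.G) *ᵥ b = ν⁻¹ * (a ⬝ᵥ C.G *ᵥ b) := fun a b => by
    rw [smul_mulVec, dotProduct_smul, smul_eq_mul]
  have uu : ∀ i j, ν⁻¹ * (u i ⬝ᵥ C.G *ᵥ u j) = ev (φ i j) := fun i j => key _ _ ▸ hV.uu i j
  have uw : ∀ i, u i ⬝ᵥ C.G *ᵥ w = 0 := fun i =>
    (mul_eq_zero.1 (key _ _ ▸ hV.uw i)).resolve_left (inv_ne_zero hν)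
  have wu : ∀ i, w ⬝ᵥ C.G *ᵥ u i = 0 := fun i => (bf_symm hC.symm _ _).trans (uw i)
  have ww : ν⁻¹ * (w ⬝ᵥ C.G *ᵥ w) = 1 := key _ _ ▸ hV.ww
  obtain ⟨c, hc, hd⟩ := hV.det
  have h1 := V2H.det_aux _ (φ.map ev) u w hV.uu hV.uw hV.ww
  rw [det_smul, Fintype.card_fin, ← AlgHom.mapMatrix_apply, ← AlgHom.map_det, hd, map_mul, ev_C,
    ← hC.det_eq, ← mul_assoc] at h1
  obtain ⟨s, rfl⟩ := IsAlgClosed.exists_pow_nat_eq c two_pos
  have hs : s ≠ 0 := fun h0 => hc (by rw [h0]; simp)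
  have h2 : (Matrix.of ![u 0, u 1, u 2, w]).det ^ 2 = (algebraMap ℂ K s * ν ^ 2) ^ 2 := by
    rw [mul_pow, ← map_pow, ← mul_right_cancel₀ hC.det0 h1, mul_assoc, ← pow_mul, ← mul_pow,
      inv_mul_cancel₀ hν, one_pow, mul_one]
  obtain ⟨t, ht, h3⟩ : ∃ t : ℂ, t ≠ 0 ∧
      (Matrix.of ![u 0, u 1, u 2, w]).det = algebraMap ℂ K t * ν ^ 2 := by
    rcases sq_eq_sq_iff_eq_or_eq_neg.1 h2 with h | h
    · exact ⟨s, hs, h⟩
    · exact ⟨-s, neg_ne_zero.2 hs, by rw [h, map_neg, neg_mul]⟩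
  have a1 : ∀ i j, ν⁻¹ * (u i ⬝ᵥ C.G *ᵥ u j) ∈ AA (1 + 1 + 0) := fun i j =>
    uu i j ▸ (hV.deg i j).mem
  have a2 : ∀ i, ν⁻¹ * (u i ⬝ᵥ C.G *ᵥ w) ∈ AA (1 + 0 + 0) := fun i => by
    rw [uw, mul_zero]
    exact Submodule.zero_mem _
  have a3 : ∀ i, ν⁻¹ * (w ⬝ᵥ C.G *ᵥ u i) ∈ AA (0 + 1 + 0) := fun i => by
    rw [wu, mul_zero]
    exact Submodule.zero_mem _
  have a4 : ν⁻¹ * (w ⬝ᵥ C.G *ᵥ w) ∈ AA (0 + 0 + 0) := ww ▸ AA_one
  have T : Tab C.G ν ![u 0, u 1, u 2, w] ![1, 1, 1, 0] 0 :=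
    hT _ _ _ _ _ t hC.symm hC.det0 hC.alg hν ht h3 (by decide) fun i j => by
      fin_cases i <;> fin_cases j
      exacts [a1 0 0, a1 0 1, a1 0 2, a2 0, a1 1 0, a1 1 1, a1 1 2, a2 1, a1 2 0, a1 2 1, a1 2 2,
        a2 2, a3 0, a3 1, a3 2, a4]
  refine ⟨EL hH hC T, hC.alg.rank, ?_,
    fun i => LinearMap.toSpanSingleton C.B C.B (ν⁻¹ • mm C.G (u i) w), fun i => ?_,
    fun i j v => ?_⟩
  · have h4 := hp_Sp (hC.alg.li ν ![u 0, u 1, u 2, w] hν (by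
      rw [h3]
      exact mul_ne_zero ((map_ne_zero _).2 ht) (pow_ne_zero _ hν))) (od ![1, 1, 1, 0] 0)
    exact (h4.congr (Eventually.of_forall (fin_hom hH hL hC T))).chi_eq.trans (by decide)
  · refine rt_of_mem hC T ?_
    fin_cases i
    exacts [T.mem 0 3, T.mem 1 3, T.mem 2 3]
  · have h4 : (ν⁻¹ • mm C.G (u j) w) * (ν⁻¹ • mm C.G (u i) w) +
        (ν⁻¹ • mm C.G (u i) w) * (ν⁻¹ • mm C.G (u j) w) = algebraMap K _ (-2 * ev (φ i j)) := by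
      rw [smul_mul_smul_comm, smul_mul_smul_comm, V2H.anti hC.symm (uw i), V2H.anti hC.symm (uw j),
        ← smul_add, ← neg_add, ← smul_add, add_comm, mm_swap hC.symm, ← uu,
        Algebra.algebraMap_eq_smul_one, Algebra.algebraMap_eq_smul_one, smul_smul, ← neg_smul,
        smul_smul]
      congr 1
      linear_combination (-2 * (ν⁻¹ * (u i ⬝ᵥ C.G *ᵥ u j))) * ww
    have h5 : ∀ x : C.B, x * (ν⁻¹ • mm C.G (u j) w) * (ν⁻¹ • mm C.G (u i) w) +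
        x * (ν⁻¹ • mm C.G (u i) w) * (ν⁻¹ • mm C.G (u j) w) = (-2 * ev (φ i j)) • x := fun x => by
      rw [mul_assoc, mul_assoc, ← mul_add, h4, ← Algebra.commutes, ← Algebra.smul_def]
    exact h5 v

theorem v2 : stTAB → stHULL → stLF → stHOM → stV2 := fun h1 h2 h3 _ => v2' h1 h2 h3

end Vale.Agent.P287Z.N
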