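import Vale.Agent.P287Z.N.Sk
import Vale.Agent.P287Z.V.Wt

/-!
# The Verra case when the discriminant curve has nodes
-/

namespace Vale.Agent.P287Z.N

open MvPolynomial Matrix Vale.Agent.P287 Vale.Agent.P287.Theta Vale.Agent.P287Z.V

namespace Vr

/-- vanishing to the order two -/
def V2 (x : Fin 3 → ℂ) (p : P3) : Prop := eval x p = 0 ∧ ∀ i, eval x (pderiv i p) = 0

/-- vanishing of the second derivatives -/
def V3 (x : Fin 3 → ℂ) (p : P3) : Prop := ∀ i j, eval x (pderiv i (pderiv j p)) = 0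

variable {x : Fin 3 → ℂ} {p q : P3}

theorem v2_mul (hp : eval x p = 0) (hq : eval x q = 0) : V2 x (p * q) :=
  ⟨by rw [map_mul, hp, zero_mul], fun i => by simp [Derivation.leibniz, hp, hq]⟩

theorem V2.mul (hp : V2 x p) (q : P3) : V2 x (p * q) :=
  ⟨by rw [map_mul, hp.1, zero_mul], fun i => by simp [Derivation.leibniz, hp.1, hp.2]⟩

theorem V2.sub (hp : V2 x p) (hq : V2 x q) : V2 x (p - q) :=
  ⟨by rw [map_sub, hp.1, hq.1, sub_zero], fun i => by simp [hp.2, hq.2]⟩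

theorem v3_mul (hp : eval x p = 0) (hq : V2 x q) : V3 x (p * q) := fun i j => by
  simp [Derivation.leibniz, hp, hq.1, hq.2]

theorem v3_mul' (hp : V2 x p) (hq : eval x q = 0) : V3 x (p * q) := mul_comm q p ▸ v3_mul hq hp

theorem V3.sub (hp : V3 x p) (hq : V3 x q) : V3 x (p - q) := fun i j => by simp [hp i j, hq i j]

theorem V3.add (hp : V3 x p) (hq : V3 x q) : V3 x (p + q) := fun i j => by simp [hp i j, hq i j]

theorem V3.of_C {c : ℂ} (hc : c ≠ 0) (h : V3 x (C c * p)) : V3 x p := fun i j => by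
  have := h i j
  rw [pderiv_C_mul, pderiv_C_mul, map_mul, eval_C] at this
  exact (mul_eq_zero.1 this).resolve_left hc

variable {φ T : Matrix (Fin 3) (Fin 3) P3}

theorem bf_add (hA : φ.IsSymm) (u v : Fin 3 → ℂ) :
    C 2 * bf φ u v = bf φ (u + v) (u + v) - bf φ u u - bf φ v v := by
  have e : (fun i => (C ((u + v) i) : P3)) = (fun i => C (u i)) + fun i => C (v i) :=
    funext fun i => map_add _ _ _
  have h := bf_comm hA v u
  unfold bf at h ⊢
  rw [e, mulVec_add, add_dotProduct, dotProduct_add, dotProduct_add, h, show (C 2 : P3) = 2 from rfl]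
  ring

theorem ker_basis {a : Fin 3 → ℂ} (ha : a ≠ 0) : ∃ z z' n : Fin 3 → ℂ, a ⬝ᵥ z = 0 ∧ a ⬝ᵥ z' = 0 ∧
    (Matrix.of ![z, z', n]).det ≠ 0 := by
  obtain ⟨i, hi⟩ := Function.ne_iff.1 ha
  fin_cases i
  · refine ⟨![-a 1, a 0, 0], ![-a 2, 0, a 0], ![1, 0, 0], ?_, ?_, by simpa [det_fin_three] using hi⟩
      <;> simp [dotProduct, Fin.sum_univ_three, mul_comm]
  · refine ⟨![0, -a 2, a 1], ![a 1, -a 0, 0], ![0, 1, 0], ?_, ?_, by simpa [det_fin_three] using hi⟩
      <;> simp [dotProduct, Fin.sum_univ_three, mul_comm]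
  · refine ⟨![a 2, 0, -a 0], ![0, a 2, -a 1], ![0, 0, 1], ?_, ?_, by simpa [det_fin_three] using hi⟩
      <;> simp [dotProduct, Fin.sum_univ_three, mul_comm]

theorem lin_zero {π : P3} (hπ : Prime π) {a : Fin 3 → ℂ} (ha : a ≠ 0)
    (h : π ∣ ∑ j, C (a j) * X j) {z : Fin 3 → ℂ} (hz : a ⬝ᵥ z = 0) : eval z π = 0 := by
  obtain ⟨c, hc⟩ := h
  have h0 : (∑ j, C (a j) * X j : P3) ≠ 0 := fun h0 => ha (funext fun i => by
    simpa [Pi.single_apply] using congrArg (eval (Pi.single i 1)) h0)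
  have c0 : c ≠ 0 := fun e => h0 (by rw [hc, e, mul_zero])
  have h1 : (∑ j, C (a j) * X j : P3).totalDegree ≤ 1 :=
    (IsHomogeneous.sum _ _ _ fun j _ => (isHomogeneous_X ℂ j).C_mul _).totalDegree_le
  have h2 : π.totalDegree ≠ 0 := fun e => by
    have e1 := totalDegree_eq_zero_iff_eq_C.1 e
    refine hπ.not_isUnit (e1 ▸ IsUnit.map C (IsUnit.mk0 _ fun e2 => hπ.ne_zero ?_))
    rw [e1, e2, map_zero]
  rw [hc, totalDegree_mul_of_isDomain hπ.ne_zero c0] at h1
  have h3 := totalDegree_eq_zero_iff_eq_C.1 (show c.totalDegree = 0 by omega)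
  have h4 := congrArg (eval z) hc
  rw [map_mul, h3, eval_C] at h4
  refine (mul_eq_zero.1 (h4.symm.trans ?_)).resolve_right fun e => c0 (by rw [h3, e, map_zero])
  simpa [dotProduct] using hz

theorem node (h : Dual φ T) (hx : ¬ V3 x φ.det) {π : P3} (hπ : Prime π) : ∃ Q : P3, ¬ π ∣ Q ∧
    ∀ z, (φ.map (eval x)) *ᵥ z = 0 → (T.map (eval z)) *ᵥ x = 0 → eval z Q = 0 := by
  by_contra hcon
  have d1 : ∀ l, π ∣ ∑ j, C (eval x (φ l j)) * X j := fun l => by
    by_contra h1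
    exact hcon ⟨_, h1, fun z h2 _ => by simpa [mulVec, dotProduct] using congrFun h2 l⟩
  have d2 : ∀ l, π ∣ ∑ j, T l j * C (x j) := fun l => by
    by_contra h1
    exact hcon ⟨_, h1, fun z _ h2 => by simpa [mulVec, dotProduct] using congrFun h2 l⟩
  by_cases h0 : φ.map (eval x) = 0
  · have k : ∀ u v, eval x (bf φ u v) = 0 := fun u v => by rw [eval_bf, h0]; simp
    obtain ⟨e, e', he⟩ := exists_basis (z := ![1, 0, 0]) (by simp)
    refine hx (V3.of_C (pow_ne_zero 2 he) ?_)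
    rw [gram h.s1, pow_two]
    exact (((v3_mul (k _ _) ((v2_mul (k _ _) (k _ _)).sub (v2_mul (k _ _) (k _ _)))).sub
      (v3_mul (k _ _) (v2_mul (k _ _) (k _ _)))).add (v3_mul (k _ _) (v2_mul (k _ _)
        (by rw [map_mul, k, mul_zero])))).sub (v3_mul (k _ _) (v2_mul (k _ _) (k _ _)))
  obtain ⟨l, hl⟩ := Function.ne_iff.1 h0
  have key : ∀ z, (φ.map (eval x)) l ⬝ᵥ z = 0 →
      (∀ y, eval x (bf φ z y) = 0) ∧ V2 x (bf φ z z) := fun z hz => by
    have h1 := lin_zero hπ hl (d1 l) hz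
    have h2 : (φ.map (eval x)) *ᵥ z = 0 := funext fun i => by
      obtain ⟨c, hc⟩ := d1 i
      simpa [mulVec, dotProduct, h1] using congrArg (eval z) hc
    have h3 : ∀ y, eval x (bf φ z y) = 0 := fun y => by
      rw [bf_comm h.s1, eval_bf, h2, dotProduct_zero]
    refine ⟨h3, h3 z, fun i => ?_⟩
    obtain ⟨c, hc⟩ := d2 i
    rw [h.symm.deriv]
    simpa [mulVec, dotProduct, h1] using congrArg (eval z) hc
  obtain ⟨z, z', n, hz, hz', he⟩ := ker_basis hl
  obtain ⟨a1, a2⟩ := key z hz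
  obtain ⟨b1, b2⟩ := key z' hz'
  have c2 : V2 x (bf φ z z') := by
    have := ((key (z + z') (by rw [dotProduct_add, hz, hz', add_zero])).2.sub a2).sub b2
    rw [← bf_add h.s1] at this
    refine ⟨a1 _, fun i => ?_⟩
    have h4 := this.2 i
    rw [pderiv_C_mul, map_mul, eval_C] at h4
    exact (mul_eq_zero.1 h4).resolve_left two_ne_zero
  refine hx (V3.of_C (pow_ne_zero 2 he) ?_)
  rw [gram h.s1]
  exact (((v3_mul' a2 (by simp [b1])).sub (v3_mul' c2 (by simp [a1]))).add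
    (v3_mul' c2 (by simp [a1]))).sub (v3_mul (a1 _) (mul_comm (bf φ z' z') _ ▸ b2.mul _))

/-- finitely many singular points, all double points -/
def Nod (f : P3) : Prop := ∃ (r : ℕ) (z : Fin r → Fin 3 → ℂ), (∀ i, ¬ V3 (z i) f) ∧
  ∀ p, Nd f p → ∃ i, ∃ c : ℂ, p = c • z i

theorem good (h : Dual φ T) (h2 : ∀ i j, (φ i j).IsHomogeneous 2) (hN : Nod φ.det) {π : P3}
    (hπ : Prime π) : ∃ P : P3, ¬ π ∣ P ∧ ∀ {x z : Fin 3 → ℂ}, z ≠ 0 → eval z P ≠ 0 →
      (φ.map (eval x)) *ᵥ z = 0 → (T.map (eval z)) *ᵥ x = 0 → x = 0 := by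
  obtain ⟨r, w, h3, h4⟩ := hN
  choose Q q1 q2 using fun i => node h (h3 i) hπ
  refine ⟨∏ i, Q i, fun e => ?_, fun {x z} hz hP k1 k2 => ?_⟩
  · obtain ⟨i, -, hi⟩ := hπ.exists_mem_finset_dvd e
    exact q1 i hi
  by_contra hx
  obtain ⟨e, e', he⟩ := exists_basis hz
  obtain ⟨i, c, rfl⟩ := h4 x ⟨hx, fun i => by
    have := gram_deriv h.s1 k1 e e' i
    rw [h.symm.deriv, k2, Pi.zero_apply, mul_zero, zero_mul] at this
    exact (mul_eq_zero.1 this).resolve_left (pow_ne_zero 2 he)⟩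
  have hc : c ≠ 0 := fun e => hx (by rw [e, zero_smul])
  rw [map_prod] at hP
  refine Finset.prod_ne_zero_iff.1 hP i (Finset.mem_univ i) (q2 i z ?_ ?_)
  · have : φ.map (eval (c • w i)) = c ^ 2 • φ.map (eval (w i)) := Matrix.ext fun a b => by
      rw [Matrix.smul_apply, map_apply, map_apply, H925.eval_eq_aeval, H925.eval_eq_aeval]
      exact H925.aeval_scale (h2 a b) c (w i)
    rw [this, smul_mulVec] at k1
    exact (smul_eq_zero.1 k1).resolve_left (pow_ne_zero 2 hc)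
  · rw [mulVec_smul] at k2
    exact (smul_eq_zero.1 k2).resolve_left hc

theorem exists_pt' {π P : P3} (hπ : Prime π) (hP : ¬ π ∣ P) :
    ∃ z : Fin 3 → ℂ, z ≠ 0 ∧ eval z π = 0 ∧ eval z P ≠ 0 := by
  by_contra hcon
  push Not at hcon
  have key : ∀ i : Fin 3, π ∣ X i := fun i =>
    (hπ.dvd_or_dvd (dvd_of_vanish hπ (g := P * X i) fun z hz => by
      by_cases h : z = 0
      · simp [h]
      · rw [map_mul, hcon z h hz, zero_mul])).resolve_left hP
  have h1 := (hπ.irreducible.associated_of_dvd (X_prime (i := (0 : Fin 3))).irreducible (key 0))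
  have h2 : (X 0 : P3) ∣ X 1 := h1.symm.dvd.trans (key 1)
  rw [X_dvd_X] at h2
  exact absurd h2 (by decide)

theorem not_sq (h : Dual φ T) (h2 : ∀ i j, (φ i j).IsHomogeneous 2) (hN : Nod φ.det)
    (h0' : ∀ i j, eval 0 (T i j) = 0) {π : P3} (hπ : Prime π) : ¬ π ^ 2 ∣ T.det := by
  rintro ⟨g, hg⟩
  have h0 : ∀ i j, eval 0 (φ i j) = 0 := fun i j => eval_zero_of_hom (h2 i j)
  obtain ⟨P, hP, hs⟩ := good h h2 hN hπ
  have hμ : ∀ x n, π ∣ bf T x x * bf T n n - bf T x n ^ 2 := fun x n => by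
    refine (hπ.dvd_or_dvd (dvd_of_vanish hπ
      (g := P * (bf T x x * bf T n n - bf T x n ^ 2)) fun z hz => ?_)).resolve_left hP
    rw [map_mul]
    refine mul_eq_zero.2 (or_iff_not_imp_left.2 fun hzP => ?_)
    by_cases hz0 : z = 0
    · have : T.map (eval z) = 0 := by
        ext i j
        rw [hz0]
        exact h0' i j
      simp [eval_bf, this]
    have hd : (T.map (eval z)).det = 0 := by
      rw [← RingHom.mapMatrix_apply, ← RingHom.map_det, hg]
      simp [hz]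
    obtain ⟨k, hk0, hk⟩ := exists_mulVec_eq_zero_iff.2 hd
    by_contra hne
    refine hk0 (hs hz0 hzP (funext fun i => ?_) hk)
    have := gram_deriv h.s2 hk x n i
    rw [hg, h.deriv] at this
    simp only [pow_two, Derivation.leibniz, smul_eq_mul, map_add, map_mul, hz, zero_mul,
      mul_zero, add_zero] at this
    rw [← pow_two (bf T x n)] at this
    have h2 := (mul_eq_zero.1 this.symm).resolve_right hne
    exact (mul_eq_zero.1 h2).resolve_left two_ne_zero
  obtain ⟨z, hz0, hz, hzP⟩ := exists_pt' hπ hP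
  have hrow : ∀ l, aeval (0 : Fin 3 → ℂ) (∑ j, φ l j * C (z j)) = 0 := fun l => by
    rw [aeval_row]
    simp only [mulVec, dotProduct, map_apply, h0, zero_mul, Finset.sum_const_zero]
  obtain ⟨τ, l, hτ, hl⟩ := exists_tangent (fun i => eval z (pderiv i π)) hz0
  have hsym : ∀ u v, u ⬝ᵥ (T.map (eval z)) *ᵥ v = v ⬝ᵥ (T.map (eval z)) *ᵥ u := fun u v => by
    rw [← eval_bf, ← eval_bf, bf_comm h.s2]
  by_cases hn : ∀ n, n ⬝ᵥ (T.map (eval z)) *ᵥ n = 0
  · have hT : ∀ x, (T.map (eval z)) *ᵥ x = 0 := fun x => funext fun i => by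
      have h1 := hn (Pi.single i 1 + x)
      rw [mulVec_add, add_dotProduct, dotProduct_add, dotProduct_add, hn, hn, hsym x,
        single_one_dotProduct] at h1
      rw [Pi.zero_apply]
      linear_combination h1 / 2
    obtain ⟨x, hx0, hx⟩ := exists_common_zero (k := ℂ) (by norm_num : 2 < 3)
      ![∑ j, φ l j * C (z j), ∑ i, C (τ i) * ∑ j, φ i j * C (z j)] (fun r => by
        fin_cases r
        · exact hrow l
        · simp only [Fin.mk_one, cons_val_one, cons_val_zero, map_sum, map_mul, hrow, mul_zero,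
            Finset.sum_const_zero])
    refine hx0 (hs hz0 hzP (hl _ ?_ ?_ ?_) (hT x))
    · rw [← aeval_row]
      exact hx 0
    · rw [h.dot, hn]
    · have := hx 1
      simp only [cons_val_one, cons_val_zero] at this
      rw [map_sum] at this
      simpa only [map_mul, aeval_row, aeval_C, Algebra.algebraMap_self, RingHom.id_apply,
        dotProduct] using this
  · push Not at hn
    obtain ⟨n, hn⟩ := hn
    obtain ⟨x, hx0, hx⟩ := exists_common_zero (k := ℂ) (by norm_num : 2 < 3)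
      ![∑ j, φ l j * C (z j), ∑ i, X i * C (((T.map (eval z)) *ᵥ n) i)] (fun r => by
        fin_cases r
        · exact hrow l
        · simp)
    have k1 : x ⬝ᵥ (T.map (eval z)) *ᵥ n = 0 := by simpa [dotProduct] using hx 1
    have k2 : ∀ y, y ⬝ᵥ (T.map (eval z)) *ᵥ y * (n ⬝ᵥ (T.map (eval z)) *ᵥ n) =
        (y ⬝ᵥ (T.map (eval z)) *ᵥ n) ^ 2 := fun y => by
      obtain ⟨c, hc⟩ := hμ y n
      have := congrArg (eval z) hc
      simp only [map_sub, map_mul, map_pow, eval_bf, hz, zero_mul] at this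
      exact sub_eq_zero.1 this
    have k3 : x ⬝ᵥ (T.map (eval z)) *ᵥ x = 0 := by
      have := k2 x
      rw [k1, zero_pow two_ne_zero] at this
      exact (mul_eq_zero.1 this).resolve_right hn
    have k4 : (T.map (eval z)) *ᵥ x = 0 := funext fun i => by
      have h1 := k2 (Pi.single i 1 + x)
      have h2 := k2 (Pi.single i 1)
      rw [mulVec_add, add_dotProduct, dotProduct_add, dotProduct_add, add_dotProduct, k1, k3,
        hsym x, single_one_dotProduct i ((T.map (eval z)) *ᵥ x)] at h1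
      refine mul_left_cancel₀ hn ?_
      rw [Pi.zero_apply]
      linear_combination (h1 - h2) / 2
    refine hx0 (hs hz0 hzP (hl _ ?_ ?_ ?_) k4)
    · rw [← aeval_row]
      exact hx 0
    · rw [h.dot, k3]
    · obtain ⟨c, hc⟩ := hμ x n
      have k5 : ∀ i, 2 * ((φ.map (eval x)) *ᵥ z) i * (n ⬝ᵥ (T.map (eval z)) *ᵥ n) =
          eval z c * eval z (pderiv i π) := fun i => by
        have := congrArg (fun f => eval z (pderiv i f)) hc
        simp only [pow_two, Derivation.leibniz, smul_eq_mul, map_add, map_sub, map_mul, hz,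
          zero_mul, eval_bf, k1, k3, h.deriv, add_zero, zero_add, sub_zero] at this
        linear_combination this
      refine mul_left_cancel₀ (mul_ne_zero two_ne_zero hn) ?_
      have k6 : ∑ i, τ i * (eval z c * eval z (pderiv i π)) = 0 := by
        rw [dotProduct] at hτ
        simp only [mul_left_comm (τ _), ← Finset.mul_sum, hτ, mul_zero]
      rw [mul_zero, ← k6, dotProduct.eq_1 τ, Finset.mul_sum]
      exact Finset.sum_congr rfl fun i _ => by rw [← k5]; ring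

theorem Tm_not_sq (hs : φ.IsSymm) (h : ∀ i j, (φ i j).IsHomogeneous 2) (hN : Nod φ.det) :
    ¬ IsSquare ((Tm φ).map (aeval tvec : P3 →ₐ[ℂ] RatK)).det := by
  intro hr
  have key {π : P3} (hπ : Prime π) : ¬ π ^ 2 ∣ (Tm φ).det :=
    not_sq (dual_Tm hs h) h hN (fun i j => eval_zero_of_hom (Tm_hom i j)) hπ
  have hd : (Tm φ).det.IsHomogeneous 6 := H925.det_hom (Tm φ) (fun _ => 2) fun k i => Tm_hom k i
  rw [← AlgHom.mapMatrix_apply, ← AlgHom.map_det] at hr
  obtain ⟨g, h5⟩ := sq_of_sq hd hr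
  by_cases hg0 : g = 0
  · exact key (X_prime (i := (0 : Fin 3))) (by rw [h5, hg0]; simp)
  have hgu : ¬ IsUnit g := fun hu => by
    have h6 : IsUnit (eval 0 (Tm φ).det) := by
      rw [h5]
      exact (hu.pow 2).map _
    have h7 := H925.aeval_scale hd (0 : ℂ) (0 : Fin 3 → ℂ)
    rw [zero_pow (by norm_num), zero_mul] at h7
    rw [H925.eval_eq_aeval, show (0 : Fin 3 → ℂ) = fun i => 0 * (0 : Fin 3 → ℂ) i from by
      funext i; simp, h7] at h6
    exact not_isUnit_zero h6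
  obtain ⟨π, hπ, hπg⟩ := WfDvdMonoid.exists_irreducible_factor hgu hg0
  exact key hπ.prime (h5 ▸ pow_dvd_pow_of_dvd hπg 2)

open Vale.Agent.P287.H925 in
theorem verra (M : Matrix (Fin 4) (Fin 4) P3)
    (hdeg : ∀ i j, (M i j).IsHomogeneous (1 + wt i + wt j)) (hs : SmoothForm (cubicOf M))
    (h2 : ∀ i j, (φ i j).IsHomogeneous 2)
    (hsm : ((Tm φ).map (aeval tvec : P3 →ₐ[ℂ] RatK)).det ≠ 0)
    {l : RatK} (hl : l ≠ 0) (ψ : (Fin 4 → RatK) ≃ₗ[RatK] (Fin 4 → RatK))
    (h : ∀ v, ![ψ v 0, ψ v 1, ψ v 2] ⬝ᵥ (φ.map (aeval tvec : P3 →ₐ[ℂ] RatK)) *ᵥ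
      ![ψ v 0, ψ v 1, ψ v 2] + ψ v 3 ^ 2 = l * (v ⬝ᵥ (M.map (aeval tvec : P3 →ₐ[ℂ] RatK)) *ᵥ v)) :
    NetResult.RationalHypersurface (cubicOf M) ∨ ∀ (x : Fin 3 → RatK) (w : RatK),
      x ⬝ᵥ ((Tm φ).map (aeval tvec : P3 →ₐ[ℂ] RatK)) *ᵥ x + w ^ 2 = 0 → x = 0 ∧ w = 0 := by
  by_cases hB : aeval tvec (φ 0 0) = 0
  · refine Or.inl (rational_of_isotropic_matrix M hdeg hs (ψ.symm (Pi.single 0 1))
      (by simp) ?_)
    have := h (ψ.symm (Pi.single 0 1))
    rw [ψ.apply_symm_apply] at this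
    refine (mul_eq_zero.1 (this.symm.trans ?_)).resolve_left hl
    simp [dotProduct, mulVec, Fin.sum_univ_three, hB]
  refine or_iff_not_imp_right.2 fun hc => ?_
  push Not at hc
  obtain ⟨x, w, h3, h4⟩ := hc
  obtain ⟨B, hB1, hB2⟩ := reduce M hdeg
  rw [hB1] at hs ⊢
  let τ : (Fin 4 → RatK) ≃ₗ[RatK] (Fin 4 → RatK) := LinearEquiv.funCongrLeft RatK RatK perm4
  have hid (A : Matrix (Fin 3) (Fin 3) RatK) : A.map (algebraMap RatK RatK) = A := rfl
  refine rational_of_fourGenerated B (prime_of_smooth B hs) (nondegenerate_of_smooth B hs)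
    fun E _ _ _ _ η H hC => verra_four h2 hsm
      (P := LinearMap.toMatrix' (τ.trans ψ).toLinearMap) ?_ hl (fun u => ?_) hB H hC
      ![x 0, x 1, x 2, w] (fun h0 => ?_) ?_
  · rw [LinearMap.det_toMatrix']
    exact (τ.trans ψ).isUnit_det'
  · rw [LinearMap.toMatrix'_mulVec, qf_blk, hid, ← hB2, qM_apply]
    exact h (u ∘ perm4)
  · refine h4 (funext fun i => ?_) (congrFun h0 3)
    fin_cases i
    exacts [congrFun h0 0, congrFun h0 1, congrFun h0 2]
  · rw [qf_blk, hid, ← h3]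
    simp only [cons_val_zero, cons_val_one, cons_val]
    rw [show ![x 0, x 1, x 2] = x from funext fun i => by fin_cases i <;> rfl]

end Vr

open Vr in
theorem vr : stVR := by
  intro D ν φ u w hN hν h
  obtain ⟨c, hc, hd⟩ := h.det
  have h2 (i j : Fin 3) : (φ i j).IsHomogeneous 2 := B.hg_iff.1 (h.deg i j)
  have h3 : Nod φ.det := by
    obtain ⟨r, z, k1, -, k2⟩ := hN.fin
    refine ⟨r, z, fun i e => ?_, fun p hp => k2 p ⟨hp.1, fun i => ?_⟩⟩
    · obtain ⟨a, b, hab⟩ := hN.hess _ (k1 i)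
      rw [hd] at e
      exact hab (e.of_C hc a b)
    · have := hp.2 i
      rw [hd, pderiv_C_mul, map_mul, eval_C] at this
      exact (mul_eq_zero.1 this).resolve_left hc
  have h4 := Vr.Tm_not_sq h.symm h2 h3
  have h6 := det_hom6 D.deg
  have h0 : (φ.map ev).det ≠ 0 := by
    rw [ev_det, hd]
    exact ev_ne (h6.C_mul c) (mul_ne_zero (C_ne_zero.2 hc) hN.sqf.ne_zero)
  obtain ⟨ψ, hψ⟩ := ver_iso ((D.symm.map L.ev).smul ν⁻¹) h0 h.uu h.uw h.ww
  refine (Vr.verra D.M D.deg D.smooth h2 (fun e => h4 (e ▸ IsSquare.zero)) (inv_ne_zero hν) ψ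
    fun v => ?_).imp_right
    fun h4' => ⟨fun w x h5 => (h4' x w (by rw [← psi_eq, add_comm, h5])).symm, ?_⟩
  · rw [hψ, smul_mulVec, dotProduct_smul, smul_eq_mul]
    rfl
  · rw [psi_eq]
    exact h4

end Vale.Agent.P287Z.N
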