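import Vale.Agent.P287Z.L.All43
import Vale.Agent.P287Z.L.Alg2
import Vale.Agent.P287Z.L.Div2
import Vale.Agent.P287Z.N.A1a
import Vale.Agent.P287Z.N.A1b
import Vale.Agent.P287Z.N.Chr
import Vale.Agent.P287Z.N.Ctx
import Vale.Agent.P287Z.N.Ev
import Vale.Agent.P287Z.N.Fib2
import Vale.Agent.P287Z.N.Frm
import Vale.Agent.P287Z.N.H1
import Vale.Agent.P287Z.N.Hom
import Vale.Agent.P287Z.N.Iso
import Vale.Agent.P287Z.N.Ker
import Vale.Agent.P287Z.N.Lf
import Vale.Agent.P287Z.N.Mu
import Vale.Agent.P287Z.N.Nd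
import Vale.Agent.P287Z.N.Net
import Vale.Agent.P287Z.N.Olm
import Vale.Agent.P287Z.N.Ort
import Vale.Agent.P287Z.N.Pj
import Vale.Agent.P287Z.N.Pl
import Vale.Agent.P287Z.N.Pts
import Vale.Agent.P287Z.N.Qc
import Vale.Agent.P287Z.N.Spa
import Vale.Agent.P287Z.N.Spb
import Vale.Agent.P287Z.N.Sph1
import Vale.Agent.P287Z.N.Sqf
import Vale.Agent.P287Z.N.Step
import Vale.Agent.P287Z.N.Symm
import Vale.Agent.P287Z.N.Top
import Vale.Agent.P287Z.N.Two
import Vale.Agent.P287Z.N.Ty1
import Vale.Agent.P287Z.N.Ty2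
import Vale.Agent.P287Z.N.Uni
import Vale.Agent.P287Z.N.Unt
import Vale.Agent.P287Z.N.V2
import Vale.Agent.P287Z.N.Vr

/-!
Assembly of the theorem for all smooth cubics containing a plane.
-/

universe w w'

namespace Vale.Agent.P287Z.N

open Vale.Agent.P287Z.L

theorem main_of (hQ : stQF) : Top.stMAINN := by
  have hres := res noeth mg
  have hhpx := hpx hres rsd
  have hlfa := lfa hres rsd split
  have hdet := det hres rsd split
  have hhull := hull_lat noeth
  have hdual := dual_lat noeth hres rsd split van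
  have hlf := N.lf N.ort fib hlfa hdet
  have hhom := N.hom noeth
  have hctx := N.ctx alg2 snd div2 tab frm sqf (nd mu chr)
  have hsum := N.sum hhom hhpx
  have hty := ty1 noeth van
  have hty2 := ty2 noeth van hty
  have hker := ker noeth
  have hpj := pj fib2 hlf hhom hlfa hdet
  refine Top.mainN (N.olm hctx ?_) hctx N.ev_cm hhom hhpx
  exact ⟨hhom, hhpx, hsum, N.iso, N.o1, N.symm hhom hlf hdual hhpx, N.h1 hhom hlf hdet,
    N.step (N.uni hlf hpj hty2 (unt hdet)) (N.pts noeth van finz N.ort hlf hhom) hhull hhom N.iso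
      hhpx hsum hty,
    N.a1a hhull hlf (pic hlfa hdet) hlfa hdet,
    N.a1b hdet (wedge hhull hres rsd split van hlfa noeth) (qc hdet) hhpx hhom,
    hQ, N.net, N.vr, N.v2' tab hhull hlf, bgg' div2, hpj, hty, two noeth van hty, hker,
    sph1 noeth van hhpx hhom N.iso hpj hty2,
    sph2 hty hsum hker lgen (spa hty hsum N.iso hker) (spb hty lgen)⟩

theorem thmP_of' (hQ : stQF) : Pl.ThmP.{w, w'} := Pl.thmP_of T.t2 (main_of hQ)

end Vale.Agent.P287Z.N
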