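import Vale.Agent.P287Z.L.Basic3
import Vale.Agent.P287Z.L.ClB

/-!
Lattices over the even Clifford order when the discriminant curve has nodes.
-/

namespace Vale.Agent.P287Z.N

open MvPolynomial Module Filter Matrix Vale.Agent.P287 Vale.Agent.P287.Theta Vale.Agent.P287Z.L

/-- `p` is not a singular point of the curve `f = 0` -/
def Gd (f : P3) (p : Fin 3 → ℂ) : Prop := p ≠ 0 ∧ ∃ i, eval p (pderiv i f) ≠ 0

/-- `p` is a singular point of the curve `f = 0` -/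
def Nd (f : P3) (p : Fin 3 → ℂ) : Prop := p ≠ 0 ∧ ∀ i, eval p (pderiv i f) = 0

/-- a reduced curve whose singular points are double points -/
structure Nodal (f : P3) : Prop where
  sqf : Squarefree f
  fin : ∃ (r : ℕ) (z : Fin r → Fin 3 → ℂ), (∀ i, Nd f (z i)) ∧
    (∀ i j, ∀ c : ℂ, z i = c • z j → i = j) ∧ ∀ p, Nd f p → ∃ i, ∃ c : ℂ, p = c • z i
  hess : ∀ p, Nd f p → ∃ i j, eval p (pderiv i (pderiv j f)) ≠ 0
  gd : ∀ g, HPrime g → ∃ p, Gd f p ∧ eval p g = 0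

/-- a local frame at a point of corank two -/
structure Frm (M : Matrix (Fin 4) (Fin 4) P3) (p : Fin 3 → ℂ) (T : Matrix (Fin 4) (Fin 4) P3)
    (h : ℕ) (q₀ q₁ A₁ A₂ A₃ : P3) : Prop where
  deg : ∀ i j, Hg (h - wz j) (T i j)
  det : eval p T.det ≠ 0
  gram : T * M * Tᵀ = !![q₀, 0, 0, 0; 0, q₁, 0, 0; 0, 0, A₁, A₂; 0, 0, A₂, A₃]
  u₀ : eval p q₀ ≠ 0
  u₁ : eval p q₁ ≠ 0
  z₁ : eval p A₁ = 0
  z₂ : eval p A₂ = 0
  z₃ : eval p A₃ = 0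
  grad : ∀ s t : ℂ, s ≠ 0 ∨ t ≠ 0 →
    ∃ k, eval p (pderiv k (C (s ^ 2) * A₁ + C (2 * s * t) * A₂ + C (t ^ 2) * A₃)) ≠ 0

section Gen

variable {B : Type} [Ring B] [Algebra K B] [Algebra ℂ B] [IsScalarTower ℂ K B]

/-- a character of the order `O` at the point `p` -/
structure Chr (O : ℤ → Submodule ℂ B) (p : Fin 3 → ℂ) (χ : ℤ → B →ₗ[ℂ] ℂ) : Prop where
  one : χ 0 1 = 1
  mul : ∀ j k, ∀ x ∈ O j, ∀ y ∈ O k, χ (j + k) (x * y) = χ j x * χ k y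
  smul : ∀ j k g, Hg j g → ∀ x ∈ O k, χ (j + k) (ev g • x) = eval p g * χ k x

end Gen

/-- the sign attached to a boolean -/
def sg (s : Bool) : ℂ := if s then 1 else -1

/-- the structure of the order at a node -/
structure NDg (B : Type) [Ring B] [Algebra K B] [Algebra ℂ B] [IsScalarTower ℂ K B]
    (O : ℤ → Submodule ℂ B) where
  p : Fin 3 → ℂ
  d : ℕ
  e : ℤ
  I : B
  a : B
  b : B
  α : P3
  c : P3
  A₁ : P3
  A₂ : P3
  A₃ : P3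
  μ₁ : P3
  μ₂ : P3
  μ₃ : P3
  σ : B ≃ₐ[K] B
  χ : Bool → ℤ → B →ₗ[ℂ] ℂ
  hp : p ≠ 0
  lb : LB O p ![1, I, a, b, I * a, I * b, a * b, I * (a * b)]
    ![0, d, d, d, 2 * d, 2 * d, 2 * d, 3 * d]
  hα : Hg (2 * d) α
  hc : Hg d c
  h₁ : Hg (2 * d) A₁
  h₂ : Hg (2 * d) A₂
  h₃ : Hg (2 * d) A₃
  m₁ : Hg e μ₁
  m₂ : Hg e μ₂
  m₃ : Hg e μ₃
  II : I * I = algebraMap K B (ev α)
  aa : a * a = algebraMap K B (ev A₁)
  ab : a * b + b * a = algebraMap K B (2 * ev A₂)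
  bb : b * b = algebraMap K B (ev A₃)
  Ia : I * a = -(a * I)
  Ib : I * b = -(b * I)
  c0 : eval p c ≠ 0
  cc : eval p c ^ 2 = eval p α
  z₁ : eval p A₁ = 0
  z₂ : eval p A₂ = 0
  z₃ : eval p A₃ = 0
  grad : ∀ s t : ℂ, s ≠ 0 ∨ t ≠ 0 →
    ∃ k, eval p (pderiv k (C (s ^ 2) * A₁ + C (2 * s * t) * A₂ + C (t ^ 2) * A₃)) ≠ 0
  rel : μ₁ * A₁ + 2 * μ₂ * A₂ + μ₃ * A₃ = 0
  μ0 : eval p (μ₁ * μ₃ - μ₂ ^ 2) ≠ 0
  gen : ∃ (n : ℤ) (y : P3), Hg n y ∧ eval p y ≠ 0 ∧ ∀ k g, Hg k g → eval p g = 0 →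
    ∃ c₁ c₂ c₃, Hg (k + n - 2 * d) c₁ ∧ Hg (k + n - 2 * d) c₂ ∧ Hg (k + n - 2 * d) c₃ ∧
      y * g = c₁ * A₁ + c₂ * A₂ + c₃ * A₃
  σI : σ I = -I
  σa : σ a = -a
  σb : σ b = -b
  chr : ∀ s, Chr O p (χ s)
  χI : ∀ s, χ s d I = sg s * eval p c
  χa : ∀ s, χ s d a = 0
  χb : ∀ s, χ s d b = 0

/-- a quadric surface fibration without section -/
structure Cx where
  M : Matrix (Fin 4) (Fin 4) P3
  symm : M.IsSymm
  deg : ∀ i j, (M i j).IsHomogeneous (1 + H925.wt i + H925.wt j)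
  smooth : SmoothForm (H925.cubicOf M)
  aniso : ∀ v : Fin 4 → K, v ⬝ᵥ M.map ev *ᵥ v = 0 → v = 0

/-- the matrix over the function field -/
noncomputable abbrev Cx.G (C : Cx) : Matrix (Fin 4) (Fin 4) K := C.M.map ev

/-- the even Clifford algebra of the fibration -/
abbrev Cx.B (C : Cx) : Type := BB C.G

/-- the standard basis of the even Clifford order -/
noncomputable abbrev Cx.o (C : Cx) : Fin 8 → C.B := ob C.G 1 e4

/-- the even Clifford order -/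
noncomputable abbrev Cx.O (C : Cx) : ℤ → Submodule ℂ C.B := Ord C.G 1 e4 wz 1

/-- the cubic fourfold is rational -/
abbrev Cx.Rat (C : Cx) : Prop := H925.NetResult.RationalHypersurface (H925.cubicOf C.M)

/-- a lattice over the even Clifford order -/
abbrev OL (C : Cx) : Type 1 := OLg C.B C.O

/-- the structure of the even Clifford order at a node -/
abbrev ND (C : Cx) : Type := NDg C.B C.O

variable {C : Cx}

/-- the rank over the function field -/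
noncomputable abbrev rk (X : OL C) : ℕ := finrank K X.V

/-- the family of homomorphisms -/
noncomputable def HomF (X Y : OL C) (k : ℤ) : Submodule ℂ (X.V →ₗ[C.B] Y.V) where
  carrier := {φ | ∀ j, ∀ v ∈ X.F j, φ v ∈ Y.F (j + k)}
  add_mem' := fun ha hb j v hv => Submodule.add_mem _ (ha j v hv) (hb j v hv)
  zero_mem' := fun _ _ _ => Submodule.zero_mem _
  smul_mem' := fun c _ hφ j v hv => Submodule.smul_mem _ c (hφ j v hv)

/-- the Euler form -/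
noncomputable def eu (X Y : OL C) : ℤ := chi (HomF X Y)

/-- `P` is free of rank one, generated in degree `m` -/
def IsO (P : OL C) (m : ℤ) : Prop :=
  ∃ φ : P.V ≃ₗ[C.B] C.B, ∀ k v, v ∈ P.F k ↔ φ v ∈ C.O (k - m)

/-- `Q` is free, generated in degree `m` -/
def IsFr (Q : OL C) (ι : Type) (m : ℤ) : Prop :=
  ∃ φ : Q.V ≃ₗ[C.B] (ι → C.B), ∀ k v, v ∈ Q.F k ↔ ∀ i, φ v i ∈ C.O (k - m)

/-- `S` is the direct sum of `X` and `Y` -/
def IsSum (S X Y : OL C) : Prop :=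
  ∃ φ : S.V ≃ₗ[C.B] X.V × Y.V, ∀ k v, v ∈ S.F k ↔ (φ v).1 ∈ X.F k ∧ (φ v).2 ∈ Y.F k

/-- `L` is the lattice of the relations between the elements `g i` of degree `m` -/
def IsKer (L : OL C) {ι : Type} [Fintype ι] (m : ℤ) (g : ι → C.B) : Prop :=
  ∃ κ : L.V →ₗ[C.B] (ι → C.B), Function.Injective κ ∧
    (∀ x, (∃ v, κ v = x) ↔ ∑ i, x i * g i = 0) ∧ ∀ k v, v ∈ L.F k ↔ ∀ i, κ v i ∈ C.O (k - m)

/-- the elements `g i` of degree `m` generate the kernel of the character in degrees `≥ m` -/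
def GenM (χ : ℤ → C.B →ₗ[ℂ] ℂ) {ι : Type} [Fintype ι] (m : ℤ) (g : ι → C.B) : Prop :=
  (∀ i, g i ∈ C.O m ∧ χ m (g i) = 0) ∧ ∀ k, m ≤ k → ∀ x ∈ C.O k, χ k x = 0 →
    ∃ c : ι → C.B, (∀ i, c i ∈ C.O (k - m)) ∧ x = ∑ i, c i * g i

/-- `v`, `h` is a local basis of `X` over the order at the point `p` -/
def OB (X : OL C) (p : Fin 3 → ℂ) {a : ℕ} (v : Fin a → X.V) (h : Fin a → ℤ) : Prop :=
  LB X.F p (fun s : Fin 8 × Fin a => C.o s.1 • v s.2) fun s => oz s.1 + h s.2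

/-- the quadratic lattice `U` is, off the nodes, the sandwich of the standard one by a local
generator of the rank one lattice `X` -/
def LocU (X : OL C) (φ : X.V ≃ₗ[C.B] C.B) (U : ℤ → Submodule ℂ (Fin 4 → K)) (ν : K) (l : ℤ) :
    Prop :=
  ∀ p : Fin 3 → ℂ, Gd C.M.det p → ∃ (a : X.V) (h : ℤ) (u : Fin 4 → Fin 4 → K) (y : K),
    OB X p ![a] ![h] ∧ (∀ i, Sand C.G (φ a) (e4 i) (u i)) ∧
      LB U p u (fun i => wz i + 2 * h) ∧ U1 p (4 * h + l - 1) y ∧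
        ∀ i j, u i ⬝ᵥ C.G *ᵥ u j = ν * y * C.G i j

/-- composition with a homomorphism -/
noncomputable def post (Y : OL C) {X X' : OL C} (π : X.V →ₗ[C.B] X'.V) :
    (Y.V →ₗ[C.B] X.V) →ₗ[ℂ] (Y.V →ₗ[C.B] X'.V) where
  toFun φ := π ∘ₗ φ
  map_add' _ _ := LinearMap.comp_add _ _ _
  map_smul' c φ := LinearMap.ext fun v => LinearMap.map_smul_of_tower π c (φ v)

/-- the homomorphisms to the order -/
noncomputable def HO (Y : OL C) (k : ℤ) : Submodule ℂ (Y.V →ₗ[C.B] C.B) where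
  carrier := {φ | ∀ j, ∀ v ∈ Y.F j, φ v ∈ C.O (j + k)}
  add_mem' := fun ha hb j v hv => Submodule.add_mem _ (ha j v hv) (hb j v hv)
  zero_mem' := fun _ _ _ => Submodule.zero_mem _
  smul_mem' := fun c _ hφ j v hv => Submodule.smul_mem _ c (hφ j v hv)

/-- the homomorphisms to the kernel of a character -/
noncomputable def HM (χ : ℤ → C.B →ₗ[ℂ] ℂ) (Y : OL C) (k : ℤ) :
    Submodule ℂ (Y.V →ₗ[C.B] C.B) where
  carrier := {φ | ∀ j, ∀ v ∈ Y.F j, φ v ∈ C.O (j + k) ∧ χ (j + k) (φ v) = 0}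
  add_mem' := fun ha hb j v hv => ⟨Submodule.add_mem _ (ha j v hv).1 (hb j v hv).1, by
    rw [LinearMap.add_apply, map_add, (ha j v hv).2, (hb j v hv).2, add_zero]⟩
  zero_mem' := fun _ _ _ => ⟨Submodule.zero_mem _, map_zero _⟩
  smul_mem' := fun c _ hφ j v hv => ⟨Submodule.smul_mem _ c (hφ j v hv).1, by
    rw [LinearMap.smul_apply, map_smul, (hφ j v hv).2, smul_zero]⟩

/-- `Y` is projective over the order at the point `p` -/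
def PJ (Y : OL C) (p : Fin 3 → ℂ) : Prop :=
  ∃ (n : ℕ) (φ : Fin n → Y.V →ₗ[C.B] C.B) (v : Fin n → Y.V) (h : Fin n → ℤ) (d : ℤ) (y : K),
    U1 p d y ∧ (∀ r, v r ∈ Y.F (h r)) ∧ (∀ r, φ r ∈ HO Y (d - h r)) ∧
      ∀ x, ∑ r, φ r x • v r = y • x

/-- the product of the kernel of a character with a lattice -/
def rad (χ : ℤ → C.B →ₗ[ℂ] ℂ) (Y : OL C) (k : ℤ) : Submodule ℂ Y.V :=
  Submodule.span ℂ {x | ∃ (i j : ℤ) (b : C.B) (v : Y.V),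
    j + i = k ∧ b ∈ C.O j ∧ χ j b = 0 ∧ v ∈ Y.F i ∧ x = b • v}

/-- the multiplicity of the character in the top of the lattice is `t` -/
def Ty (χ : ℤ → C.B →ₗ[ℂ] ℂ) (Y : OL C) (t : ℕ) : Prop :=
  ∀ᶠ k in atTop, finrank ℂ (Y.F k) = finrank ℂ (rad χ Y k) + t

/-- the multiplicity of the character in the top of the lattice -/
noncomputable def ty (χ : ℤ → C.B →ₗ[ℂ] ℂ) (Y : OL C) : ℕ := Classical.epsilon (Ty χ Y)

/-- a system of data at all the nodes -/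
structure Sys (C : Cx) {r : ℕ} (ν : Fin r → ND C) : Prop where
  nd : ∀ i, Nd C.M.det (ν i).p
  inj : ∀ i j, ∀ c : ℂ, (ν i).p = c • (ν j).p → i = j
  all : ∀ p, Nd C.M.det p → ∃ i, ∃ c : ℂ, p = c • (ν i).p

lemma mem_HomF {X Y : OL C} {k : ℤ} {φ : X.V →ₗ[C.B] Y.V} :
    φ ∈ HomF X Y k ↔ ∀ j, ∀ v ∈ X.F j, φ v ∈ Y.F (j + k) := Iff.rfl

lemma mem_HO {Y : OL C} {k : ℤ} {φ : Y.V →ₗ[C.B] C.B} :
    φ ∈ HO Y k ↔ ∀ j, ∀ v ∈ Y.F j, φ v ∈ C.O (j + k) := Iff.rfl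

lemma mem_HM {χ : ℤ → C.B →ₗ[ℂ] ℂ} {Y : OL C} {k : ℤ} {φ : Y.V →ₗ[C.B] C.B} :
    φ ∈ HM χ Y k ↔ ∀ j, ∀ v ∈ Y.F j, φ v ∈ C.O (j + k) ∧ χ (j + k) (φ v) = 0 := Iff.rfl

lemma gd_or_nd (f : P3) {p : Fin 3 → ℂ} (hp : p ≠ 0) : Gd f p ∨ Nd f p := by
  by_cases h : ∀ i, eval p (pderiv i f) = 0
  · exact Or.inr ⟨hp, h⟩
  · exact Or.inl ⟨hp, not_forall.1 h⟩

lemma Gd.not_nd {f : P3} {p : Fin 3 → ℂ} (h : Gd f p) : ¬ Nd f p :=
  fun h' => let ⟨i, hi⟩ := h.2; hi (h'.2 i)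

/-- membership in a reflexive family can be checked off the nodes -/
lemma Nodal.locP {f : P3} (hf : Nodal f) {V : Type} [AddCommGroup V] [Module ℂ V] [Module K V]
    {L : ℤ → Submodule ℂ V} (h : Refl L) {k : ℤ} {v : V}
    (hv : ∀ p : Fin 3 → ℂ, Gd f p → LocP L p k v) : v ∈ L k :=
  h k v fun g hg =>
    let ⟨p, h1, h2⟩ := hf.gd g hg
    let ⟨d, y, k1, k2⟩ := hv p h1
    ⟨d, y, k1.ug h2, k2⟩

lemma Nodal.unit_of {f : P3} (hf : Nodal f) {y : K} {n : ℤ}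
    (h : ∀ p : Fin 3 → ℂ, Gd f p → ∃ d y₁ y₂, U1 p d y₁ ∧ U1 p (d + n) y₂ ∧ y * y₁ = y₂) :
    n = 0 ∧ ∃ c : ℂ, c ≠ 0 ∧ y = algebraMap ℂ K c :=
  L.unit_of fun g hg =>
    let ⟨p, h1, h2⟩ := hf.gd g hg
    let ⟨d, y₁, y₂, a, b, c⟩ := h p h1
    ⟨d, y₁, y₂, a.ug h2, b.ug h2, c⟩

lemma Nodal.exists_gd {f : P3} (hf : Nodal f) : ∃ p, Gd f p :=
  let ⟨p, h, _⟩ := hf.gd _ (hprime_X 0); ⟨p, h⟩

end Vale.Agent.P287Z.N
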