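import Vale.Agent.P287Z.V.Qf
import Vale.Agent.P287Z.N.Sk

/-!
# Quadratic lattices of rank four with reduced discriminant: nets, conics, or a parity condition
-/

namespace Vale.Agent.P287Z.N

open Module Matrix MvPolynomial Filter Vale.Agent.P287 Vale.Agent.P287.Theta Vale.Agent.P287.H925
open Vale.Agent.P287Z.V

theorem sq_dvd_det {R ι : Type*} [CommRing R] [Fintype ι] [DecidableEq ι] {A : Matrix ι ι R}
    (hA : A.IsSymm) {i j : ι} (hij : i ≠ j) (h : ∀ k ≠ j, A k i = 0) : A j i * A j i ∣ A.det := by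
  rw [det_apply']
  refine Finset.dvd_sum fun σ _ => Dvd.dvd.mul_left ?_ _
  by_cases h1 : σ i = j
  · by_cases h2 : σ j = i
    · have h3 := Finset.prod_dvd_prod_of_subset {i, j} Finset.univ (fun k => A (σ k) k)
        (Finset.subset_univ _)
      rwa [Finset.prod_pair hij, h1, h2, hA.apply j i] at h3
    · rw [Finset.prod_eq_zero (Finset.mem_univ (σ.symm i))]
      · exact dvd_zero _
      · rw [σ.apply_symm_apply, ← hA.apply]
        exact h _ fun h3 => h2 (by rw [← h3, σ.apply_symm_apply])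
  · rw [Finset.prod_eq_zero (f := fun k => A (σ k) k) (Finset.mem_univ i) (h _ h1)]
    exact dvd_zero _

theorem qf (hQC : N.stQC) (hSG : N.stSG) (hPAR : L.stPAR) (hHP : L.stHPX) : N.stQF := by
  intro f U G l h6 hp h1
  have hc1 := (hQC f U G l h6 hp.ne_zero h1).2
  obtain ⟨n, d, φ, N, h3, hN, hd, hdim⟩ := hSG f U G l h6 hp h1
  have h6' : f.IsHomogeneous 6 := L.hg_nat.1 h6
  obtain ⟨c, hc, hdet⟩ := h3.det
  have hG0 : G.det ≠ 0 := fun h0 => by
    obtain ⟨v, hv, hv'⟩ := exists_mulVec_eq_zero_iff.2 h0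
    exact hv (h1.aniso v (by rw [hv', dotProduct_zero]))
  have hΦ : (φ.map L.ev).det = algebraMap ℂ L.K c * L.ev f := by
    rw [← L.ev_C, ← map_mul, ← hdet]
    exact (AlgHom.map_det L.ev φ).symm
  have hΦ0 : (φ.map L.ev).det ≠ 0 := by
    rw [hΦ]
    exact mul_ne_zero ((map_ne_zero _).2 hc) (h6.ev_ne hp.ne_zero)
  have hΦs := h3.symm.map L.ev
  have hsq : IsSquare (G.det * (φ.map L.ev).det) := by
    obtain ⟨s, rfl⟩ := IsAlgClosed.exists_eq_mul_self c
    rw [hΦ, mul_left_comm]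
    exact IsSquare.mul ⟨_, map_mul _ s s⟩ h1.sq
  have hB : (fromBlocks G 0 0 (-φ.map L.ev)).IsSymm :=
    isSymm_fromBlocks_iff.2 ⟨h1.symm, by simp, by simp, hΦs.neg⟩
  have hB0 {κ : Type} [Fintype κ] [DecidableEq κ] {A : Matrix κ κ L.K} (hA : A.det ≠ 0) :
      (fromBlocks G 0 0 (-A)).det ≠ 0 := by
    rw [det_fromBlocks_zero₂₁, det_neg]
    exact mul_ne_zero hG0 (mul_ne_zero (pow_ne_zero _ (by norm_num)) hA)
  obtain ⟨Λ1, hΛ1⟩ := selfDual hB (hB0 hΦ0) hN hd
  have hΨ : (fromBlocks (φ.map L.ev) 0 0 (1 : Matrix (Fin 1) (Fin 1) L.K)).det =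
      (φ.map L.ev).det := by rw [det_fromBlocks_zero₂₁, det_one, mul_one]
  have hΨs : (fromBlocks (φ.map L.ev) 0 0 (1 : Matrix (Fin 1) (Fin 1) L.K)).IsSymm :=
    isSymm_fromBlocks_iff.2 ⟨hΦs, by simp, by simp, isSymm_one⟩
  obtain ⟨Λ2, hΛ2⟩ := sd_ext (hB0 (hΨ.symm ▸ hΦ0)) (lastE L.K (Fin n)) (lastE_bil G _) hΛ1
  have lag1 := fun m => lag_blocks (m := m) h1.symm hΦs hsq hΛ1
  have lag2 := fun m => lag_blocks (m := m) h1.symm hΨs (hΨ.symm ▸ hsq) hΛ2
  obtain ⟨k1, σ, k2⟩ := det_deg (φ := φ) (e := fun i => 2 * -d i + -l) (N := 6)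
    (by rw [hdet]; exact mul_ne_zero (C_ne_zero.2 hc) hp.ne_zero)
    (by rw [hdet]; exact h6'.C_mul c) fun i j => by
      obtain h0 | ⟨k, a1, a2⟩ := B.hg_cases (h3.deg i j)
      · exact .inl h0
      · rcases k with _ | k
        · exact .inl (h3.min i j a1)
        · exact .inr ⟨k + 1, by omega, by omega, a2⟩
  have hz (i j : Fin n) (hij : 2 * -d i + -l + (2 * -d j + -l) ≤ 0) : φ i j = 0 := by
    rcases lt_or_eq_of_le hij with h | h
    · exact (h3.deg i j).eq_zero_of_neg (by omega)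
    · exact h3.min i j (by omega)
  have hh (i j : Fin n) (k : ℕ) (hij : 2 * -d i + -l + (2 * -d j + -l) = 2 * k) :
      (φ i j).IsHomogeneous k := L.hg_nat.1 ((h3.deg i j).cast (by omega))
  set S := Finset.univ.filter fun i => 2 * -d i + -l ≤ 0 with hS
  have hS' : ∀ i ∈ S, ∀ j ∈ S, φ.map L.ev i j = 0 := fun i hi j hj => by
    have := (Finset.mem_filter.1 hi).2
    have := (Finset.mem_filter.1 hj).2
    rw [map_apply, hz i j (by omega), map_zero]
  obtain ⟨r, m, a1, a2, a3⟩ : ∃ r m : ℕ, r ≤ 1 ∧ 4 + (Fintype.card (Fin n) + r) = 2 * m ∧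
      m + S.card ≤ Fintype.card (Fin n) + r := by
    obtain ⟨m, hm | hm⟩ := (Fintype.card (Fin n)).even_or_odd'
    · obtain ⟨U, b2, b3⟩ := lag1 (m + 2) (by omega)
      exact ⟨0, m + 2, by omega, by omega, b3 ▸ wit_bound h1.aniso hΦ0 b2 S hS'⟩
    · obtain ⟨U, b2, b3⟩ := lag2 (m + 3) (by rw [Fintype.card_sum, hm, Fintype.card_fin]; omega)
      have := wit_bound h1.aniso (hΨ.symm ▸ hΦ0) b2 (S.map ⟨Sum.inl, Sum.inl_injective⟩)
        fun i hi j hj => by
          obtain ⟨i, hi', rfl⟩ := Finset.mem_map.1 hi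
          obtain ⟨j, hj', rfl⟩ := Finset.mem_map.1 hj
          exact hS' i hi' j hj'
      rw [Finset.card_map, Fintype.card_sum, Fintype.card_fin 1, b3] at this
      exact ⟨1, m + 3, le_rfl, by omega, this⟩
  obtain ⟨b1, b2⟩ | ⟨b1, b2⟩ | ⟨b1, i, b2, b3⟩ | ⟨i, j, b1, b2⟩ :=
    patterns (e := fun i => 2 * -d i + -l) (fun _ => rfl) k1 k2 a1 a2 a3
  · obtain rfl : n = 6 := (Fintype.card_fin n).symm.trans b1
    refine ⟨fun _ => .inl ?_, fun ⟨s, hs⟩ => by have := b2 0; omega⟩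
    obtain ⟨W, c1, c2⟩ := lag1 5 (by decide)
    obtain ⟨v, hv, hv'⟩ | ⟨ψ, hψ⟩ := exists_similarity (Q := G) two_ne_zero hΦs hΦ0 one_ne_zero W
      (fun x hx y hy => by rw [one_mul, sub_eq_zero]; exact c1 x hx y hy) c2
    · exact absurd (h1.aniso v hv') hv
    choose a ha using fun i j => lin_form (hh i j 1 (by rw [b2, b2]; rfl))
    refine ⟨fun k => Matrix.of fun i j => a i j k, 1⁻¹, inv_ne_zero one_ne_zero, ψ,
      fun v x y => .trans ?_ (hψ v x y)⟩
    simp only [Vale.Agent.P287.net, Vale.Agent.P287.qf, dotProduct, mulVec, map_apply, ha, map_sum, map_mul,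
      L.ev_C, L.ev_X, of_apply, Finset.mul_sum, Finset.sum_mul]
    rw [Finset.sum_comm]
    refine Finset.sum_congr rfl fun i _ => ?_
    rw [Finset.sum_comm]
    exact Finset.sum_congr rfl fun j _ => Finset.sum_congr rfl fun k _ => by ring
  · obtain rfl : n = 3 := (Fintype.card_fin n).symm.trans b1
    refine ⟨fun ⟨s, hs⟩ => by have := b2 0; omega, fun _ => ?_⟩
    obtain ⟨W, c1, c2⟩ := lag2 4 (by decide)
    obtain ⟨ψ, hψ⟩ := wit_iso h1.aniso (hΨ.symm ▸ hΦ0) c1 c2 (by decide)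
    have k (x y : Fin 3 ⊕ Fin 1) : ψ.symm (Pi.single x 1) ⬝ᵥ G *ᵥ ψ.symm (Pi.single y 1) =
        fromBlocks (φ.map L.ev) 0 0 (1 : Matrix (Fin 1) (Fin 1) L.K) x y := by
      rw [← polar h1.symm hΨs ψ.toLinearMap hψ, LinearEquiv.coe_coe, ψ.apply_symm_apply,
        ψ.apply_symm_apply, single_one_dotProduct, mulVec_single_one]
      rfl
    exact ⟨φ, fun i => ψ.symm (Pi.single (Sum.inl i) 1), ψ.symm (Pi.single (Sum.inr 0) 1),
      h3.symm, fun i j => L.hg_nat.2 (hh i j 2 (by rw [b2, b2]; rfl)), ⟨c, hc, hdet⟩,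
      fun i j => k _ _, fun i => k _ _, k _ _⟩
  · refine ⟨fun ⟨s0, hs0⟩ => .inr ?_, fun ⟨s, hs⟩ => by omega⟩
    obtain ⟨s, rfl⟩ : ∃ s, l = -3 - 2 * s := ⟨-2 - s0, by omega⟩
    have h4 := hPAR _ _ (L.sh N s) hB (hB0 hΦ0) (hN.sh s) fun k => by
      ext w
      rw [L.sh, ← hd, L.mem_sharp, L.mem_sharp]
      exact ⟨fun h j v hv => L.AA_cast (h (j - s) v (L.mem_cast (L := N) hv (by ring))) (by ring),
        fun h j v hv => L.AA_cast (h (j + s) v hv) (by ring)⟩
    have h5 := hHP _ U h1.lat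
    have h7 : ∑ j, (1 - (d j - s)) * (2 - (d j - s)) = 2 := by
      rw [Finset.sum_eq_single i (fun j _ hj => by
        rw [show d j - s = 1 by have := b3 j hj; omega]; rfl) (by simp),
        show d i - s = 0 by omega]
      rfl
    have ht := tendsto_atTop_add_const_right atTop s tendsto_id
    have h8 : L.HP (L.sh N s) 8 (4 * s + L.c1 U - ∑ j, (d j - s))
        (2 * (s ^ 2 + 3 * s) + L.c1 U * s + L.chi U + 1) := by
      filter_upwards [ht.eventually hdim, ht.eventually h5, B.hp_Fr fun j => d j - s]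
        with k e1 e2 e3
      rw [b1, h7] at e3
      rw [finrank_fintype_fun_eq_card, Fintype.card_fin] at e2
      have e4 : (finrank ℂ (L.sh N s k) : ℤ) = finrank ℂ (U (id k + s)) +
          finrank ℂ (L.Fr (fun j => d j - s) k) := by
        rw [← L.Fr_sh]
        exact (congrArg (Nat.cast : ℕ → ℤ) e1).trans (Nat.cast_add _ _)
      generalize (finrank ℂ (U (id k + s)) : ℤ) = A at e2 e4
      simp only [id, Nat.cast_ofNat] at e2 e3
      linear_combination 2 * e4 + e2 + e3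
    rw [(chi_eq h8).1, hc1] at h4
    obtain ⟨t, ht⟩ := h4
    exact ⟨t - 1, by linear_combination 2 * ht⟩
  · have h4 := hh j i 1 b1
    have hij : i ≠ j := by
      rintro rfl
      have h9 : ∑ k, (2 * -d k + -l) ≤ ∑ k, (if k = i then 1 else 0 : ℤ) :=
        Finset.sum_le_sum fun k _ => by
          split_ifs with h
          · subst h
            omega
          · have := b2 k h
            omega
      rw [Finset.sum_ite_eq', if_pos (Finset.mem_univ _)] at h9
      omega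
    have h5 := sq_dvd_det h3.symm hij fun k hk => hz k i (b2 k hk)
    rw [hdet, ((isUnit_iff_ne_zero.2 hc).map C).dvd_mul_left] at h5
    have h8 := hp _ h5
    exfalso
    obtain ⟨a, -, ha⟩ := exists_C_of_isUnit h8
    exact absurd (h4.inj_right (ha ▸ isHomogeneous_C _ a) h8.ne_zero) (by decide)

end Vale.Agent.P287Z.N
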