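import Vale.Agent.P287Z.N.SgD
import Vale.Agent.P287Z.N.Sk
import Vale.Agent.P287Z.L.Qd1

/-!
A quadratic lattice of rank four glues with a symmetric matrix of forms to a self-dual lattice.
-/

namespace Vale.Agent.P287Z.N

open MvPolynomial Module Filter Matrix Vale.Agent.P287 Vale.Agent.P287.Theta Vale.Agent.P287Z.L
open Vale.Agent.P287Z.G (dot_mem sym_dot dot_blocks)

namespace Sg

variable {U : ℤ → Submodule ℂ (Fin 4 → K)} {G : Matrix (Fin 4) (Fin 4) K} {l k : ℤ} {n : ℕ}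
  {d e : Fin n → ℤ} {N : ℤ → Submodule ℂ ((Fin 4 → K) × (Fin n → K))} {M : ℕ}
  {w : Fin n → Fin 3 → Fin 4 → K} {ψ : Fin n → Fin n → K} {Γ Φ : Matrix (Fin n) (Fin n) K}

theorem Pre.span (P : Pre U (sharp G U l) d N M w e ψ) {p : Fin 3 → ℂ} {u : Fin 4 → Fin 4 → K}
    {h : Fin 4 → ℤ} (hb : LB U p u h) {s : Fin 3} (hs : U1 p 1 (tvec s)) :
    ∃ a y, U1 p a y ∧ ∀ k, ∀ x ∈ N k, y • x ∈ Sp (Sum.elim (fun b => (u b, (0 : Fin n → K)))
      fun i => (w i s, tvec s ^ M • (Pi.single i 1 : Fin n → K))) (Sum.elim h fun i => d i + M)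
        (a + k) := by
  obtain ⟨a, y, h1, h2⟩ := hb.loc
  refine ⟨_, _, h1.mul (hs.pow M), fun k x hx => ?_⟩
  have h3 := Submodule.sub_mem _ (P.fam.smul (tp s M) hx (add_comm _ _))
    (P.comb (P.mem _ _ hx).2 s)
  rw [← Prod.mk.eta (p := _ - _), Prod.snd_sub, Prod.smul_snd, sub_self] at h3
  obtain ⟨c, c1, c2⟩ := mem_Sp.1 (h2 _ _ ((P.left _ _).1 h3))
  refine mem_Sp.2 ⟨Sum.elim c (y • x.2), Sum.forall.2 ⟨fun b => AA_cast (c1 b) (by simp; ring),
    fun i => AA_cast (AA_mul h1.mem (mem_Fr.1 (P.mem _ _ hx).2 i)) (by simp; ring)⟩, ?_⟩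
  rw [Fintype.sum_sum_type]
  refine Prod.ext ?_ ?_
  · simp only [Sum.elim_inl, Sum.elim_inr, Prod.fst_add, Prod.fst_sum, Prod.smul_fst, c2,
      Prod.fst_sub, Pi.smul_apply, smul_assoc, ← Finset.smul_sum, smul_sub, mul_smul,
      sub_add_cancel]
  · simp only [Sum.elim_inl, Sum.elim_inr, Prod.snd_add, Prod.snd_sum, Prod.smul_snd, smul_zero,
      Finset.sum_const_zero, zero_add, Pi.smul_apply, smul_assoc, smul_comm (x.2 _) (tvec s ^ M),
      ← Finset.smul_sum, ← pi_eq_sum_univ' x.2, mul_smul]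

end Sg

open Sg in
theorem sgl (hN : stNOETH) (hR : stRES) (hRS : stRSD) (hL : stLFA) (hV : stVAN) (hD : stDUAL) :
    stSG := by
  intro f U G l h6 hf Q
  have f0 := h6.ev_ne hf.ne_zero
  have hG : G.det ≠ 0 := fun h0 => by
    obtain ⟨v, hv, hv'⟩ := exists_mulVec_eq_zero_iff.2 h0
    exact hv (Q.aniso v (by rw [hv', dotProduct_zero]))
  have hW := lat_sharp hD hG Q.lat l
  have bid (k : ℤ) (v) (hv : v ∈ sharp G (sharp G U l) l k) : v ∈ U k :=
    bidual Q.symm hG Q.lat (fun p hp => let ⟨u, h, _, hb, _⟩ := Q.loc p hp; ⟨u, h, hb⟩) hv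
  obtain ⟨n, d, N, M, w, e, ψ, P⟩ := exists_pre hN hR hRS f0 h6.mem hW (fun k v => ⟨bid k v,
    fun hv => mem_sharp.2 fun j x hx => AA_eq (mem_sharp.1 hx _ _ hv) (by ring)
      (sym_dot Q.symm _ _)⟩) Q.int fun k v hv => QdA.ann h6 Q hv
  obtain ⟨Γ, hΓ, hI⟩ := P.exists_form Q.symm
  obtain ⟨Φ, h1, h2⟩ := P.inv hΓ hI fun k ε => P.surj hL hV hD hG hW hΓ hI bid
  have h1' : Γ * Φ = 1 := mul_eq_one_comm.1 h1
  have hΦ : Φ.IsSymm := by
    rw [IsSymm, ← Matrix.mul_one Φᵀ, ← h1', ← Matrix.mul_assoc, ← hΓ.eq, ← transpose_mul, h1',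
      transpose_one, Matrix.one_mul]
  choose φ φ1 φ2 using fun i j => mem_AA.1 (mem_Fr.1 (P.mem _ _ (h2 i)).2 j)
  obtain rfl : Φ = (Matrix.of φ).map ev := (Matrix.ext φ2).symm
  generalize hφ : Matrix.of φ = T at h1 h1' h2 hΦ
  have φ3 (i j : Fin n) : Hg (-l - d j - d i) (T i j) := hφ ▸ (φ1 i j).cast (by ring)
  have hlat := P.lat hN Q.lat hW
  let E := ((LinearEquiv.refl K (Fin 4 → K)).prodCongr (toLin'OfInv h1 h1')).trans
    (LinearEquiv.sumArrowLequivProdArrow (Fin 4) (Fin n) K K).symm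
  have hE (x) : E x = Sum.elim x.1 (Γ *ᵥ x.2) := rfl
  have hB (x y) : E x ⬝ᵥ fromBlocks G 0 0 (-T.map ev) *ᵥ E y =
      x.1 ⬝ᵥ G *ᵥ y.1 - x.2 ⬝ᵥ Γ *ᵥ y.2 := by
    rw [dot_blocks, hE, hE, Sum.elim_comp_inl, Sum.elim_comp_inl, Sum.elim_comp_inr,
      Sum.elim_comp_inr, mulVec_mulVec, h1, one_mulVec, dotProduct_comm (Γ *ᵥ _), sym_dot hΓ]
  have hlat' := hlat.map E
  have hd (k : ℤ) : sharp (fromBlocks G 0 0 (-T.map ev))
      (fun k => (N k).map (E.toLinearMap.restrictScalars ℂ)) l k =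
        (N k).map (E.toLinearMap.restrictScalars ℂ) := by
    ext z
    obtain ⟨y, rfl⟩ := E.surjective z
    rw [mem_sharp]
    refine ⟨fun h => ⟨y, P.self hI bid h1 h2 fun j x hx => hB x y ▸ h j _ ⟨x, hx, rfl⟩, rfl⟩, ?_⟩
    rintro ⟨y', hy, h⟩ j _ ⟨x, hx, rfl⟩
    exact AA_eq (hI _ _ x hx y' hy) rfl ((hB x y').symm.trans (congrArg (_ ⬝ᵥ _ *ᵥ ·) h))
  have hdet : (T.map ev).det * Γ.det = 1 := by rw [← det_mul, h1, det_one]
  have hB0 : (fromBlocks G 0 0 (-T.map ev)).det = G.det * ((-1) ^ n * (T.map ev).det) := by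
    rw [det_fromBlocks_zero₂₁, det_neg, Fintype.card_fin]
  have hT0 := left_ne_zero_of_mul_eq_one hdet
  obtain ⟨h3, c, c0, h4⟩ := unit_of_pts (y := (T.map ev).det / ev f)
    (n := ∑ j, (-l - d j) - ∑ i, d i - 6) fun p hp => by
      obtain ⟨u, h, y, hb, y1, y2⟩ := Q.loc p hp
      obtain ⟨s, hs⟩ := exists_coord hp
      obtain ⟨a, z, z1, z2⟩ := P.span hb hs
      let b := Sum.elim (fun b => (u b, (0 : Fin n → K)))
        fun i => (w i s, tvec s ^ M • (Pi.single i 1 : Fin n → K))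
      have e1 : (Matrix.of fun t => E (b t)) =
          fromBlocks (Matrix.of u) 0 (Matrix.of fun i => w i s) (tvec s ^ M • Γ) := by
        ext (t | t) (r | r)
        · rfl
        · exact congrFun (mulVec_zero Γ) r
        · rfl
        · refine (congrFun (mulVec_smul Γ _ _) r).trans ?_
          rw [mulVec_single_one]
          exact congrArg (tvec s ^ M * ·) (hΓ.apply t r)
      have e2 : (Matrix.of fun t => E (b t)).det = (Matrix.of u).det * ((tvec s ^ M) ^ n * Γ.det) := by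
        rw [e1, det_fromBlocks_zero₁₂, det_smul, Fintype.card_fin]
      rw [QdA.gram, Pi.basisFun_det_apply] at y2
      have e3 : (Matrix.of u).det ≠ 0 := fun h0 => mul_ne_zero y1.ne f0 (by rw [← y2, h0]; simp)
      have e4 := gram_unit (p := p) (u := fun t => E (b t)) (h := Sum.elim h fun i => d i + M)
        (hB0 ▸ mul_ne_zero hG (mul_ne_zero (by simp) hT0)) hlat'.full hd
        ⟨fun t => ⟨b t, by
          rcases t with t | t
          exacts [(P.left _ _).2 (hb.mem t), P.sat t s], rfl⟩,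
        linearIndependent_rows_iff_isUnit.2 ((isUnit_iff_isUnit_det _).2 (Ne.isUnit (e2 ▸
          mul_ne_zero e3 (mul_ne_zero (pow_ne_zero _ (pow_ne_zero _ hs.ne))
            (right_ne_zero_of_mul_eq_one hdet))))), a, z, z1, by
          rintro k _ ⟨x, hx, rfl⟩
          exact Sp_map b _ E.toLinearMap _ ▸ ⟨_, z2 k x hx, map_smul E z x⟩⟩
      rw [QdA.gram, Pi.basisFun_det_apply, e2, hB0] at e4
      refine ⟨_, _, _, e4, ((y1.mul (((hs.pow M).pow n).pow 2)).mul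
        ((u1_const p (neg_ne_zero.2 one_ne_zero)).pow n)).cast ?_, ?_⟩
      · simp only [Fintype.sum_sum_type, Sum.elim_inl, Sum.elim_inr, Finset.sum_add_distrib,
          Finset.sum_sub_distrib, Finset.sum_neg_distrib, Finset.sum_const, Finset.card_univ,
          Fintype.card_sum, Fintype.card_fin, nsmul_eq_mul]
        push_cast
        ring
      · rw [map_neg, map_one, div_mul_eq_mul_div, div_eq_iff f0]
        linear_combination ((tvec s ^ M) ^ n) ^ 2 * (-1) ^ n * (((T.map ev).det * Γ.det) ^ 2 * y2 +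
          y * ev f * ((T.map ev).det * Γ.det + 1) * hdet)
  refine ⟨n, d, T, _, ⟨IsSymm.ext fun i j => (φ3 j i).inj ((φ3 i j).cast (by ring)) (hΦ.apply i j),
    fun i j => (φ3 i j).cast (by ring), fun i j h => (φ3 i j).eq_zero_of_ev
      (P.min _ _ (h2 i) j (by omega)), c, c0, (hg_det T d (fun j => -l - d j) φ3).inj
        ((h6.C_mul c).cast (by omega)) ?_⟩, hlat', hd, (P.dim hlat.fg).mono fun k hk =>
      (finrank_map_inj _ E.injective _).trans hk⟩
  rw [map_mul, ev_C, ← h4, div_mul_cancel₀ _ f0]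
  exact AlgHom.map_det ev T

end Vale.Agent.P287Z.N
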