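import Vale.Agent.P287Z.N.All
import Vale.Agent.P287Z.N.Qf
import Vale.Agent.P287Z.N.Sg

/-!
The theorem for all smooth cubics containing a plane.
-/

universe w w'

namespace Vale.Agent.P287Z.N

open Vale.Agent.P287Z.L

theorem qf_all : stQF :=
  have hres := res noeth mg
  N.qf (qc (det hres rsd split))
    (sgl noeth hres rsd (lfa hres rsd split) van (dual_lat noeth hres rsd split van))
    (V.par hres rsd split) (hpx hres rsd)

theorem mainN : Top.stMAINN := main_of qf_all

theorem thmP : Pl.ThmP.{w, w'} := thmP_of' qf_all

end Vale.Agent.P287Z.N
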