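import Vale.Agent.P287Z.N.Sk2

/-!
The structure of the even Clifford order at a node.
-/

namespace Vale.Agent.P287Z.N

open MvPolynomial Module Filter Matrix Vale.Agent.P287 Vale.Agent.P287.Theta Vale.Agent.P287Z.L

namespace NdH

section tab

variable {B : Type} [Ring B] [Algebra K B] [Algebra ℂ B] [IsScalarTower ℂ K B]

theorem mul_of {ι : Type} [Fintype ι] {β : ι → B} {e : ι → ℤ} {x : B} {d : ℤ}
    (h : ∀ s, x * β s ∈ Sp β e (e s + d)) (k : ℤ) : ∀ y ∈ Sp β e k, x * y ∈ Sp β e (k + d) :=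
  Sp_le (((fam_Sp β e).sh d).comap (LinearMap.mulLeft K x)) h k

/-- the multiplication table -/
theorem tab {I a b : B} {α A₁ A₂ A₃ : K} {d : ℤ} {N : ℤ → Submodule ℂ B}
    (hN : N = Sp ![1, I, a, b, I * a, I * b, a * b, I * (a * b)]
      ![0, d, d, d, 2 * d, 2 * d, 2 * d, 3 * d])
    (hα : α ∈ AA (2 * d)) (h₁ : A₁ ∈ AA (2 * d)) (h₂ : A₂ ∈ AA (2 * d)) (h₃ : A₃ ∈ AA (2 * d))
    (II : I * I = algebraMap K B α) (aa : a * a = algebraMap K B A₁)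
    (ab : a * b + b * a = algebraMap K B (2 * A₂)) (bb : b * b = algebraMap K B A₃)
    (Ia : I * a = -(a * I)) (Ib : I * b = -(b * I)) (k : ℤ) (y : B) (hy : y ∈ N k) :
    I * y ∈ N (k + d) ∧ a * y ∈ N (k + d) ∧ b * y ∈ N (k + d) := by
  have f : Fam N := hN ▸ fam_Sp _ _
  have m0 : (1 : B) ∈ N 0 := hN ▸ self_mem_Sp _ _ 0
  have m1 : I ∈ N d := hN ▸ self_mem_Sp _ _ 1
  have m2 : a ∈ N d := hN ▸ self_mem_Sp _ _ 2
  have m3 : b ∈ N d := hN ▸ self_mem_Sp _ _ 3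
  have m4 : I * a ∈ N (2 * d) := hN ▸ self_mem_Sp _ _ 4
  have m5 : I * b ∈ N (2 * d) := hN ▸ self_mem_Sp _ _ 5
  have m6 : a * b ∈ N (2 * d) := hN ▸ self_mem_Sp _ _ 6
  have m7 : I * (a * b) ∈ N (3 * d) := hN ▸ self_mem_Sp _ _ 7
  have h₂' : 2 * A₂ ∈ AA (2 * d) := two_mul A₂ ▸ add_mem h₂ h₂
  have e1 : ∀ x, I * (I * x) = α • x := fun x => by rw [← mul_assoc, II, Algebra.smul_def]
  have e2 : ∀ x, a * (a * x) = A₁ • x := fun x => by rw [← mul_assoc, aa, Algebra.smul_def]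
  have e3 : ∀ x, b * (b * x) = A₃ • x := fun x => by rw [← mul_assoc, bb, Algebra.smul_def]
  have e4 : ∀ x, a * (I * x) = -(I * (a * x)) := fun x => by
    rw [← mul_assoc, ← mul_assoc, Ia, neg_mul, neg_neg]
  have e5 : ∀ x, b * (I * x) = -(I * (b * x)) := fun x => by
    rw [← mul_assoc, ← mul_assoc, Ib, neg_mul, neg_neg]
  have e6 : ∀ x, b * (a * x) = (2 * A₂) • x - a * (b * x) := fun x => by
    rw [← mul_assoc, ← mul_assoc, Algebra.smul_def, ← ab, add_mul, add_sub_cancel_left]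
  have g1 : I * I = α • (1 : B) := by simpa only [mul_one] using e1 1
  have g2 : a * a = A₁ • (1 : B) := by simpa only [mul_one] using e2 1
  have g3 : b * b = A₃ • (1 : B) := by simpa only [mul_one] using e3 1
  have g4 : a * I = -(I * a) := by simpa only [mul_one] using e4 1
  have g5 : b * I = -(I * b) := by simpa only [mul_one] using e5 1
  have g6 : b * a = (2 * A₂) • (1 : B) - a * b := by simpa only [mul_one] using e6 1
  have i0 : I * 1 ∈ N (0 + d) := by rw [mul_one, zero_add]; exact m1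
  have i1 : I * I ∈ N (d + d) := g1 ▸ f.smul hα m0 (by ring)
  have i2 : I * a ∈ N (d + d) := mem_cast m4 (by ring)
  have i3 : I * b ∈ N (d + d) := mem_cast m5 (by ring)
  have i4 : I * (I * a) ∈ N (2 * d + d) := e1 a ▸ f.smul hα m2 rfl
  have i5 : I * (I * b) ∈ N (2 * d + d) := e1 b ▸ f.smul hα m3 rfl
  have i6 : I * (a * b) ∈ N (2 * d + d) := mem_cast m7 (by ring)
  have i7 : I * (I * (a * b)) ∈ N (3 * d + d) := e1 (a * b) ▸ f.smul hα m6 (by ring)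
  have a0 : a * 1 ∈ N (0 + d) := by rw [mul_one, zero_add]; exact m2
  have a1 : a * I ∈ N (d + d) := g4 ▸ neg_mem i2
  have a2 : a * a ∈ N (d + d) := g2 ▸ f.smul h₁ m0 (by ring)
  have a3 : a * b ∈ N (d + d) := mem_cast m6 (by ring)
  have a4 : a * (I * a) ∈ N (2 * d + d) := by
    rw [e4, g2, mul_smul_comm, mul_one]; exact neg_mem (f.smul h₁ m1 rfl)
  have a5 : a * (I * b) ∈ N (2 * d + d) := e4 b ▸ neg_mem i6
  have a6 : a * (a * b) ∈ N (2 * d + d) := e2 b ▸ f.smul h₁ m3 rfl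
  have a7 : a * (I * (a * b)) ∈ N (3 * d + d) := by
    rw [e4, e2, mul_smul_comm]; exact neg_mem (f.smul h₁ m5 (by ring))
  have b0 : b * 1 ∈ N (0 + d) := by rw [mul_one, zero_add]; exact m3
  have b1 : b * I ∈ N (d + d) := g5 ▸ neg_mem i3
  have b2 : b * a ∈ N (d + d) := g6 ▸ sub_mem (f.smul h₂' m0 (by ring)) a3
  have b3 : b * b ∈ N (d + d) := g3 ▸ f.smul h₃ m0 (by ring)
  have b4 : b * (I * a) ∈ N (2 * d + d) := by
    rw [e5, g6, mul_sub, mul_smul_comm, mul_one]; exact neg_mem (sub_mem (f.smul h₂' m1 rfl) i6)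
  have b5 : b * (I * b) ∈ N (2 * d + d) := by
    rw [e5, g3, mul_smul_comm, mul_one]; exact neg_mem (f.smul h₃ m1 rfl)
  have b6 : b * (a * b) ∈ N (2 * d + d) := by
    rw [e6, g3, mul_smul_comm, mul_one]; exact sub_mem (f.smul h₂' m3 rfl) (f.smul h₃ m2 rfl)
  have b7 : b * (I * (a * b)) ∈ N (3 * d + d) := by
    rw [e5, e6, g3, mul_smul_comm, mul_one, mul_sub, mul_smul_comm, mul_smul_comm]
    exact neg_mem (sub_mem (f.smul h₂' m5 (by ring)) (f.smul h₃ m4 (by ring)))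
  subst hN
  refine ⟨mul_of (fun s => ?_) k y hy, mul_of (fun s => ?_) k y hy, mul_of (fun s => ?_) k y hy⟩
  · fin_cases s
    exacts [i0, i1, i2, i3, i4, i5, i6, i7]
  · fin_cases s
    exacts [a0, a1, a2, a3, a4, a5, a6, a7]
  · fin_cases s
    exacts [b0, b1, b2, b3, b4, b5, b6, b7]

/-- the elements which lie in `N` locally at `p` -/
def loc {N : ℤ → Submodule ℂ B} (h : Fam N) (p : Fin 3 → ℂ) (k : ℤ) : Submodule ℂ B where
  carrier := {x | LocP N p k x}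
  add_mem' := LocP.add h
  zero_mem' := locP_of_mem (zero_mem _)
  smul_mem' c x hx := by
    have h1 := LocP.smul h (AA_const c) hx
    rwa [zero_add, algebraMap_smul] at h1

theorem lb_of {O : ℤ → Submodule ℂ B} {p : Fin 3 → ℂ} {I a b : B} {d : ℤ} (hO : Lat O)
    (h8 : finrank K B = 8) (mul : ∀ j k, ∀ x ∈ O j, ∀ y ∈ O k, x * y ∈ O (j + k)) (h1 : 1 ∈ O 0)
    (hI : I ∈ O d) (ha : a ∈ O d) (hb : b ∈ O d)
    (hloc : ∀ k, ∀ v ∈ O k, LocP (Sp ![1, I, a, b, I * a, I * b, a * b, I * (a * b)]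
      ![0, d, d, d, 2 * d, 2 * d, 2 * d, 3 * d]) p k v) :
    LB O p ![1, I, a, b, I * a, I * b, a * b, I * (a * b)]
      ![0, d, d, d, 2 * d, 2 * d, 2 * d, 3 * d] := by
  obtain ⟨e, y, hy, hl⟩ := hO.fg.exists_u1 (fam_Sp _ _) hloc
  refine ⟨fun s => ?_, linearIndependent_of_top_le_span_of_card_eq_finrank (fun v _ => ?_)
    (by rw [h8, Fintype.card_fin]), e, y, hy, hl⟩
  · have k1 : ∀ {x y}, x ∈ O d → y ∈ O d → x * y ∈ O (2 * d) := fun hx hy =>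
      mem_cast (mul _ _ _ hx _ hy) (by ring)
    have k2 : I * (a * b) ∈ O (3 * d) := mem_cast (mul _ _ _ hI _ (k1 ha hb)) (by ring)
    fin_cases s
    exacts [h1, hI, ha, hb, k1 hI ha, k1 hI hb, k1 ha hb, k2]
  · obtain ⟨k, z, z0, hz⟩ := hO.full v
    obtain ⟨c, -, hc⟩ := mem_Sp.1 (hl k _ hz)
    rw [← Submodule.smul_mem_iff _ z0, ← Submodule.smul_mem_iff _ hy.ne, ← hc]
    exact sum_mem fun s _ => Submodule.smul_mem _ _ (Submodule.subset_span ⟨s, rfl⟩)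

end tab

theorem four {P : Fin 4 → Prop} (h0 : P 0) (h1 : P 1) (h2 : P 2) (h3 : P 3) (i : Fin 4) : P i := by
  fin_cases i
  exacts [h0, h1, h2, h3]

theorem ent {R : Type} [Zero R] {M : Matrix (Fin 4) (Fin 4) R} {q₀ q₁ A₁ A₂ A₃ : R}
    (h : M = !![q₀, 0, 0, 0; 0, q₁, 0, 0; 0, 0, A₁, A₂; 0, 0, A₂, A₃]) :
    (M 0 0 = q₀ ∧ M 1 1 = q₁ ∧ M 2 2 = A₁ ∧ M 2 3 = A₂ ∧ M 3 3 = A₃) ∧
      M 0 1 = 0 ∧ M 0 2 = 0 ∧ M 0 3 = 0 ∧ M 1 2 = 0 ∧ M 1 3 = 0 :=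
  h ▸ ⟨⟨rfl, rfl, rfl, rfl, rfl⟩, rfl, rfl, rfl, rfl, rfl⟩

variable {G : Matrix (Fin 4) (Fin 4) K}

theorem mm_neg (hG : G.IsSymm) {u x : Fin 4 → K} (h : u ⬝ᵥ G *ᵥ x = 0) : mm G x u = -mm G u x := by
  have k := mm_swap hG u x
  rw [h, mul_zero, map_zero] at k
  exact eq_neg_of_add_eq_zero_right k

theorem mm_mul (hG : G.IsSymm) {u x : Fin 4 → K} (h : u ⬝ᵥ G *ᵥ x = 0) (y : Fin 4 → K) :
    mm G u x * mm G u y = (-(u ⬝ᵥ G *ᵥ u)) • mm G x y := by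
  rw [neg_smul, ← mm_mid, mm_neg hG h, neg_mul, neg_neg]

theorem mm_anti (hG : G.IsSymm) {u x y : Fin 4 → K} (h : u ⬝ᵥ G *ᵥ x = 0) (h' : u ⬝ᵥ G *ᵥ y = 0) :
    mm G u x * mm G u y + mm G u y * mm G u x =
      algebraMap K _ (2 * (-(u ⬝ᵥ G *ᵥ u) * (x ⬝ᵥ G *ᵥ y))) := by
  rw [mm_mul hG h, mm_mul hG h', ← smul_add, mm_swap hG, Algebra.smul_def, ← map_mul,
    mul_left_comm]

theorem mm_sq (hG : G.IsSymm) {u x : Fin 4 → K} (h : u ⬝ᵥ G *ᵥ x = 0) :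
    mm G u x * mm G u x = algebraMap K _ (-(u ⬝ᵥ G *ᵥ u) * (x ⬝ᵥ G *ᵥ x)) := by
  rw [mm_mul hG h, mm_self, Algebra.smul_def, ← map_mul]

theorem conjA {A R : Type} [Ring A] [Algebra K A] [Ring R] [Algebra K R] (ι : A →ₐ[K] R)
    (hι : Function.Injective ι) {v : R} {q : K} (h : q ≠ 0) (v0 : v * v = algebraMap K R q)
    (hm : ∀ x, ∃ y, ι y = q⁻¹ • (v * (ι x * v))) :
    ∃ σ : A ≃ₐ[K] A, ∀ x, ι (σ x) = q⁻¹ • (v * (ι x * v)) := by
  have vv : ∀ x, v * (v * x) = q • x := fun x => by rw [← mul_assoc, v0, Algebra.smul_def]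
  have v1 : v * v = q • 1 := by simpa only [mul_one] using vv 1
  choose σ hσ using hm
  let f : A →ₐ[K] A := AlgHom.ofLinearMap
    { toFun := σ
      map_add' := fun x y => hι (by simp only [hσ, map_add, mul_add, add_mul, smul_add])
      map_smul' := fun c x => hι (by
        simp only [hσ, map_smul, RingHom.id_apply, smul_mul_assoc, mul_smul_comm, smul_comm c]) }
    (hι (by
      simp only [LinearMap.coe_mk, AddHom.coe_mk, hσ, map_one, one_mul, v1, inv_smul_smul₀ h]))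
    fun x y => hι (by
      simp only [LinearMap.coe_mk, AddHom.coe_mk, hσ, map_mul, smul_mul_assoc, mul_smul_comm,
        mul_assoc, vv, inv_smul_smul₀ h])
  have hf : Function.Involutive f := fun x => hι (by
    show ι (σ (σ x)) = _
    simp only [hσ, smul_mul_assoc, mul_smul_comm, mul_assoc, vv, v1, mul_one, inv_smul_smul₀ h])
  exact ⟨AlgEquiv.ofBijective f hf.bijective, hσ⟩

/-- the conjugation by a vector -/
theorem conj (hG : G.IsSymm) {u : Fin 4 → K} (h : u ⬝ᵥ G *ᵥ u ≠ 0) :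
    ∃ σ : BB G ≃ₐ[K] BB G, ∀ x, u ⬝ᵥ G *ᵥ x = 0 → σ (mm G u x) = -mm G u x := by
  have hv := CliffordAlgebra.ι_mem_evenOdd_one (qf4 G) u
  have e : (1 + (0 + 1) : ZMod 2) = 0 := by decide
  obtain ⟨σ, hσ⟩ := conjA (inc G) inc_inj h (iota_sq u) fun x => exists_inc
    (Submodule.smul_mem _ _
      (e ▸ SetLike.mul_mem_graded hv (SetLike.mul_mem_graded (inc_mem x) hv)))
  refine ⟨σ, fun x hx => inc_inj ?_⟩
  rw [hσ, ← mm_neg hG hx, inc_mm, inc_mm, mul_assoc, ← mul_assoc, iota_sq, ← Algebra.smul_def,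
    inv_smul_smul₀ h]

theorem sg_sq (s : Bool) : sg s ^ 2 = 1 := by cases s <;> simp [sg]

end NdH

open NdH

theorem nd (hM : stMU) (hX : stCHR) : stND := by
  intro C hC p T h q₀ q₁ A₁ A₂ A₃ hp F
  obtain ⟨d, hd⟩ : ∃ d : ℕ, (d : ℤ) = 2 * h + 1 := ⟨2 * h + 1, by push_cast; ring⟩
  have hG := hC.symm
  set n : Fin 4 → Fin 4 → K := fun i j => ev (T i j) with hn
  have gr : ∀ i j, n i ⬝ᵥ C.G *ᵥ n j = ev ((T * C.M * Tᵀ) i j) := fun i j => by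
    simp only [hn, dotProduct, Matrix.mulVec, Matrix.mul_apply, Matrix.map_apply,
      Matrix.transpose_apply, map_sum, map_mul, Finset.mul_sum, Finset.sum_mul, mul_assoc]
    exact Finset.sum_comm
  have dg : ∀ i j, Hg d ((T * C.M * Tᵀ) i j) := fun i j => by
    simp only [Matrix.mul_apply, Matrix.transpose_apply, Finset.sum_mul]
    exact hg_sum _ fun b _ => hg_sum _ fun a _ =>
      (((F.deg i a).mul (hC.degM a b)).mul (F.deg j b)).cast (by rw [hd]; ring)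
  obtain ⟨⟨e00, e11, e22, e23, e33⟩, e01, e02, e03, e12, e13⟩ := ent F.gram
  have g00 : n 0 ⬝ᵥ C.G *ᵥ n 0 = ev q₀ := by rw [gr, e00]
  have g01 : n 0 ⬝ᵥ C.G *ᵥ n 1 = 0 := by rw [gr, e01, map_zero]
  have g02 : n 0 ⬝ᵥ C.G *ᵥ n 2 = 0 := by rw [gr, e02, map_zero]
  have g03 : n 0 ⬝ᵥ C.G *ᵥ n 3 = 0 := by rw [gr, e03, map_zero]
  have g11 : n 1 ⬝ᵥ C.G *ᵥ n 1 = ev q₁ := by rw [gr, e11]
  have g12 : n 1 ⬝ᵥ C.G *ᵥ n 2 = 0 := by rw [gr, e12, map_zero]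
  have g13 : n 1 ⬝ᵥ C.G *ᵥ n 3 = 0 := by rw [gr, e13, map_zero]
  have g22 : n 2 ⬝ᵥ C.G *ᵥ n 2 = ev A₁ := by rw [gr, e22]
  have g23 : n 2 ⬝ᵥ C.G *ᵥ n 3 = ev A₂ := by rw [gr, e23]
  have g33 : n 3 ⬝ᵥ C.G *ᵥ n 3 = ev A₃ := by rw [gr, e33]
  have d0 : Hg d q₀ := e00 ▸ dg 0 0
  have dd : ∀ {x : P3}, Hg d x → Hg (2 * d) (-q₀ * x) := fun hx => (d0.neg.mul hx).cast (by ring)
  have hα : Hg (2 * d) (-q₀ * q₁) := dd (e11 ▸ dg 1 1)
  have h₁ : Hg (2 * d) (-q₀ * A₁) := dd (e22 ▸ dg 2 2)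
  have h₂ : Hg (2 * d) (-q₀ * A₂) := dd (e23 ▸ dg 2 3)
  have h₃ : Hg (2 * d) (-q₀ * A₃) := dd (e33 ▸ dg 3 3)
  have uq : U1 p d (ev q₀) := ⟨_, d0, rfl, F.u₀⟩
  have fO : Fam C.O := hC.tab.lat.fam
  have me : ∀ i j, mm C.G (e4 i) (e4 j) ∈ C.O (wz i + wz j + 1) := fun i j => by
    have k := hC.tab.mem i j
    rwa [inv_one, one_smul] at k
  have mn : ∀ i j, mm C.G (n i) (n j) ∈ C.O d := fun i j => by
    rw [← sum_e4 (n i), ← sum_e4 (n j), ← bilin_sum]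
    exact sum_mem fun s _ => fO.smul (AA_mul (F.deg i s.1).mem (F.deg j s.2).mem) (me _ _)
      (by rw [hd]; ring)
  set I := mm C.G (n 0) (n 1) with hI
  set a := mm C.G (n 0) (n 2) with ha
  set b := mm C.G (n 0) (n 3) with hb
  have II : I * I = algebraMap K C.B (ev (-q₀ * q₁)) := by
    rw [mm_sq hG g01, g00, g11, map_mul ev, map_neg]
  have aa : a * a = algebraMap K C.B (ev (-q₀ * A₁)) := by
    rw [mm_sq hG g02, g00, g22, map_mul ev, map_neg]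
  have bb : b * b = algebraMap K C.B (ev (-q₀ * A₃)) := by
    rw [mm_sq hG g03, g00, g33, map_mul ev, map_neg]
  have ab : a * b + b * a = algebraMap K C.B (2 * ev (-q₀ * A₂)) := by
    rw [mm_anti hG g02 g03, g00, g23, map_mul ev, map_neg]
  have Ia : I * a = -(a * I) := eq_neg_of_add_eq_zero_left (by
    rw [mm_anti hG g01 g02, g12, mul_zero, mul_zero, map_zero])
  have Ib : I * b = -(b * I) := eq_neg_of_add_eq_zero_left (by
    rw [mm_anti hG g01 g03, g13, mul_zero, mul_zero, map_zero])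
  obtain ⟨N, hN⟩ : ∃ N, N = Sp ![1, I, a, b, I * a, I * b, a * b, I * (a * b)]
    ![0, d, d, d, 2 * d, 2 * d, 2 * d, 3 * d] := ⟨_, rfl⟩
  have fN : Fam N := hN ▸ fam_Sp _ _
  have tb := tab hN hα.mem h₁.mem h₂.mem h₃.mem II aa ab bb Ia Ib
  have t0 : ∀ k, ∀ y ∈ N k, mm C.G (n 0) (n 0) * y ∈ N (k + d) := fun k y hy => by
    rw [mm_self, g00, ← Algebra.smul_def]
    exact fN.smul d0.mem hy (add_comm _ _)
  have t1 : ∀ i k, ∀ y ∈ N k, mm C.G (n 0) (n i) * y ∈ N (k + d) := fun i k y hy =>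
    four (P := fun i => mm C.G (n 0) (n i) * y ∈ N (k + d)) (t0 k y hy) (tb k y hy).1
      (tb k y hy).2.1 (tb k y hy).2.2 i
  have t2 : ∀ i k, ∀ y ∈ N k, mm C.G (n i) (n 0) * y ∈ N (k + d) := fun i k y hy => by
    have k1 : ∀ j, n 0 ⬝ᵥ C.G *ᵥ n j = 0 → mm C.G (n j) (n 0) * y ∈ N (k + d) := fun j hj => by
      rw [mm_neg hG hj, neg_mul]
      exact neg_mem (t1 j k y hy)
    exact four (P := fun i => mm C.G (n i) (n 0) * y ∈ N (k + d)) (t0 k y hy) (k1 1 g01)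
      (k1 2 g02) (k1 3 g03) i
  have hT : ∀ i j, (T.map ev) i j ∈ AA (h - wz j - 0) := fun i j =>
    AA_cast (F.deg i j).mem (sub_zero _).symm
  have uD : U1 p (∑ j, ((h : ℤ) - wz j) - ∑ _j : Fin 4, (0 : ℤ)) (T.map ev).det :=
    ⟨T.det, hg_det T (fun _ => 0) _ fun i j => (F.deg i j).cast (sub_zero _).symm,
      ev.map_det T, F.det⟩
  have adj : ∀ i, (T.map ev).det • e4 i = ∑ j, (T.map ev).adjugate i j • n j := fun i => by
    funext j
    have k := congrFun (congrFun (Matrix.adjugate_mul (T.map ev)) i) j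
    rw [Matrix.mul_apply] at k
    simpa [e4, Matrix.one_apply, Pi.single_apply, eq_comm, hn] using k.symm
  have hloc : ∀ k, C.O k ≤ loc fN p k := by
    refine hC.tab.ind (loc fN p) (fun _ _ _ ha _ hv => LocP.smul fN ha hv)
      (locP_of_mem (hN ▸ self_mem_Sp _ _ 0)) ?_
    rintro i j k x ⟨e, y, hy, hx⟩
    refine ⟨_, _, ((uq.mul uD).mul uD).mul hy, ?_⟩
    have k1 : (ev q₀ * (T.map ev).det * (T.map ev).det * y) •
        (((1 : K)⁻¹ • mm C.G (e4 i) (e4 j)) * x) =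
        ev q₀ • (mm C.G ((T.map ev).det • e4 i) ((T.map ev).det • e4 j) * (y • x)) := by
      simp only [inv_one, one_smul, map_smul, LinearMap.smul_apply, smul_mul_assoc,
        mul_smul_comm, smul_smul]
      exact congrArg (· • _) (by ring)
    rw [k1, adj, adj, ← bilin_sum, Finset.sum_mul, Finset.smul_sum]
    refine sum_mem fun s _ => ?_
    rw [smul_mul_assoc, smul_comm, ← smul_mul_assoc, ← g00, ← mm_mid, mul_assoc]
    exact fN.smul (AA_mul (AA_adj _ _ _ hT i s.1) (AA_adj _ _ _ hT j s.2))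
      (t2 _ _ _ (t1 _ _ _ hx)) (by rw [hd]; ring)
  have mul := hC.tab.mul
  have hloc' : ∀ k, ∀ v ∈ C.O k, LocP N p k v := fun k v hv => hloc k hv
  rw [hN] at hloc'
  have lb := lb_of hC.tab.lat hC.alg.rank mul (self_mem_Sp _ _ 0) (mn 0 1) (mn 0 2) (mn 0 3)
    hloc'
  have zz : ∀ {x : P3}, eval p x = 0 → eval p (-q₀ * x) = 0 := fun hx => by
    rw [map_mul, hx, mul_zero]
  have grad : ∀ s t : ℂ, s ≠ 0 ∨ t ≠ 0 → ∃ k, eval p (pderiv k (MvPolynomial.C (s ^ 2) *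
      (-q₀ * A₁) + MvPolynomial.C (2 * s * t) * (-q₀ * A₂) + MvPolynomial.C (t ^ 2) *
        (-q₀ * A₃))) ≠ 0 := fun s t hst => by
    obtain ⟨k, hk⟩ := F.grad s t hst
    refine ⟨k, ?_⟩
    rw [mul_left_comm, mul_left_comm _ (-q₀), mul_left_comm _ (-q₀), ← mul_add, ← mul_add,
      Derivation.leibniz]
    simp only [smul_eq_mul, map_add (eval p), map_mul (eval p), F.z₁, F.z₂, F.z₃, mul_zero,
      add_zero, zero_mul, map_neg]
    exact mul_ne_zero (neg_ne_zero.2 F.u₀) hk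
  obtain ⟨⟨e', μ₁, μ₂, μ₃, m₁, m₂, m₃, rel, μ0⟩, gen⟩ :=
    hM p (2 * d) _ _ _ hp h₁ h₂ h₃ (zz F.z₁) (zz F.z₂) (zz F.z₃) grad
  obtain ⟨γ, hγ⟩ := IsAlgClosed.exists_pow_nat_eq (eval p (-q₀ * q₁)) two_pos
  obtain ⟨l, l1, l0⟩ := exists_lin {p} (by simpa using hp)
  have l2 := pow_ne_zero d (l0 p (Finset.mem_singleton_self p))
  have c1 : eval p (MvPolynomial.C (γ / eval p l ^ d) * l ^ d) = γ := by
    rw [map_mul, eval_C, map_pow, div_mul_cancel₀ _ l2]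
  have γ0 : γ ≠ 0 := by
    rintro rfl
    rw [map_mul, map_neg, zero_pow two_ne_zero] at hγ
    exact mul_ne_zero (neg_ne_zero.2 F.u₀) F.u₁ hγ.symm
  obtain ⟨σ, hσ⟩ := conj hG (g00 ▸ uq.ne)
  choose χ x1 x2 x3 x4 using fun s : Bool => hX C.B C.O p d I a b _ _ _ _ (sg s * γ) fO mul lb
    hα h₁ h₂ h₃ II aa ab bb Ia Ib (by rw [mul_pow, sg_sq, one_mul, hγ]) (zz F.z₁) (zz F.z₂)
    (zz F.z₃)
  exact ⟨⟨p, d, e', I, a, b, _, MvPolynomial.C (γ / eval p l ^ d) * l ^ d, _, _, _, μ₁, μ₂, μ₃,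
    σ, χ, hp, lb, hα, ((l1.pow d).cast (mul_one _)).C_mul _, h₁, h₂, h₃, m₁, m₂, m₃, II, aa, ab,
    bb, Ia, Ib, c1.symm ▸ γ0, c1.symm ▸ hγ, zz F.z₁, zz F.z₂, zz F.z₃, grad, rel, μ0, gen,
    hσ _ g01, hσ _ g02, hσ _ g03, x1, fun s => c1.symm ▸ x2 s, x3, x4⟩, rfl⟩

end Vale.Agent.P287Z.N
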