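import Vale.Agent.P287Z.N.Sk2
import Vale.Agent.P287Z.L.Olm

/-!
The parity argument when the discriminant curve has nodes: reduction to rank one.
-/

namespace Vale.Agent.P287Z.N

open MvPolynomial Module Filter Matrix Vale.Agent.P287 Vale.Agent.P287.Theta Vale.Agent.P287Z.L
open L.Olm (zo f2 cast_eq dvd_of_cast)

namespace Olm

/-- the steps used in the parity argument -/
structure Hyp : Prop where
  hom : stHOM
  hpx : stHPX
  sum : stSUM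
  iso : stISO
  o1 : stO1
  symm : stSYMM
  h1 : stH1
  step : stSTEP
  a1a : stA1a
  a1b : stA1b
  qf : stQF
  net : stNET
  vr : stVR
  v2 : stV2
  bgg : stBGG
  pj : stPJ
  ty1 : stTY1
  two : stTWO
  ker : stKER
  sph1 : stSPH1
  sph2 : stSPH2

variable {C : Cx}

/-- the lattice with Euler form given by the first Chern class -/
def GoodE (E : OL C) : Prop := rk E = 8 ∧ eu E E = 2 ∧
  ∀ (Y : OL C) (a : ℕ), rk Y = 8 * a → 4 ∣ 2 * eu Y E - a * c1 E.F + c1 Y.F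

lemma fd_hom (X Y : OL C) : FiniteDimensional K (X.V →ₗ[C.B] Y.V) :=
  Module.Finite.of_injective (LinearMap.restrictScalarsₗ K C.B X.V Y.V K)
    (LinearMap.restrictScalars_injective K)

/-- composition with an endomorphism, linear over the function field -/
noncomputable def postK (Y : OL C) {E : OL C} (ζ : E.V →ₗ[C.B] E.V) :
    (Y.V →ₗ[C.B] E.V) →ₗ[K] (Y.V →ₗ[C.B] E.V) where
  toFun φ := ζ ∘ₗ φ
  map_add' _ _ := LinearMap.comp_add _ _ _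
  map_smul' c φ := LinearMap.ext fun v => LinearMap.map_smul_of_tower ζ c (φ v)

lemma good_of_ver (H : Hyp) (hC : Ctx C) (hn : ¬ C.Rat) {ν : K} (hν : ν ≠ 0)
    {φ : Matrix (Fin 3) (Fin 3) P3} {u : Fin 3 → Fin 4 → K} {w : Fin 4 → K}
    (hV : Ver C.M.det (ν⁻¹ • C.G) φ u w) : ∃ E : OL C, GoodE E := by
  have hG := (H.vr C ν φ u w hC.nodal hν hV).resolve_left hn
  obtain ⟨E, h8, h2, ζ, hζ, hζ'⟩ := H.v2 C hC ν φ u w hν hV
  refine ⟨E, h8, h2, fun Y a ha => ?_⟩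
  have := fd_hom Y E
  obtain ⟨hl, hr, -⟩ := H.hom C hC Y E
  have hp := H.hpx _ _ hl
  have h3 := H.bgg _ (HomF Y E) _ _ _ φ (fun i => postK Y (ζ i)) hV.symm hV.deg hG hl hp
    (fun i k ψ hψ j v hv => mem_cast (hζ i _ _ (hψ j v hv)) (add_assoc _ _ _))
    (fun i j ψ => LinearMap.ext fun v => hζ' i j (ψ v))
  have h4 := H.h1 C hC Y E a 1 ha h8
  have h5 : finrank K (Y.V →ₗ[C.B] E.V) = 8 * a := by
    rw [h8, ha] at hr
    omega
  rw [h4, h5] at h3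
  obtain ⟨t, ht⟩ := h3
  refine ⟨t, ?_⟩
  have h6 : 2 * (2 * eu Y E - a * c1 E.F + c1 Y.F) = 2 * (4 * t) := by
    push_cast at ht
    unfold eu
    linear_combination ht
  omega

lemma rank_one (H : Hyp) (hC : Ctx C) (hn : ¬ C.Rat) (X : OL C) (h8 : rk X = 8) :
    ∃ l : ℤ, c1 X.F = 2 * l - 14 ∧ 2 ∣ eu X X ∧ (Odd l → 4 ∣ eu X X - 2) ∧
      (Even l → ∃ E : OL C, GoodE E) := by
  obtain ⟨φ⟩ := (H.hom C hC X X).2.2.2 h8
  obtain ⟨U, ν, l, hν, hQ, hL⟩ := H.a1a C hC X φ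
  obtain ⟨h1, h2⟩ := H.a1b C hC X φ U ν l hν hQ hL
  obtain ⟨h3, h4⟩ := H.qf _ U _ l hC.hf hC.nodal.sqf hQ
  refine ⟨l, h1, ⟨chi U - (l ^ 2 + 3 * l) / 2, ?_⟩, fun hl => ?_, fun hl => ?_⟩
  · rw [h2]; linear_combination two_dvd_sq_add l
  · rw [h2]
    exact (h3 hl).resolve_left fun h => hn (H.net C ν hν h)
  · obtain ⟨ψ, u, w, hV⟩ := h4 hl
    exact good_of_ver H hC hn hν hV

lemma eu_O (H : Hyp) (hC : Ctx C) {P : OL C} {m : ℤ} (hP : IsO P m) (Y : OL C) :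
    eu P Y = chi Y.F + rk Y * ((m ^ 2 + 3 * m) / 2) + c1 Y.F * m := by
  rw [((H.iso C hC).2 P m hP).2.2 Y]
  exact ((H.hpx _ _ Y.lat).sh m).chi_eq

lemma eu_OO (H : Hyp) (hC : Ctx C) {P : OL C} {m : ℤ} (hP : IsO P m) : eu P P = 2 := by
  obtain ⟨h1, h2, -⟩ := (H.iso C hC).2 P m hP
  rw [eu_O H hC hP, h1, h2.chi_eq, h2.c1_eq]
  push_cast
  linear_combination 4 * two_dvd_sq_add m

/-- the multiplicities at the nodes differ from the rank by at most one -/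
def Nm {r : ℕ} (ν : Fin r → ND C) (X : OL C) (a : ℕ) : Prop :=
  ∀ i s, a ≤ ty ((ν i).χ s) X + 1

lemma reduce (H : Hyp) (hC : Ctx C) (hn : ¬ C.Rat) {r : ℕ} {ν : Fin r → ND C} (hν : Sys C ν)
    (a : ℕ) : ∀ X : OL C, rk X = 8 * (a + 1) → Nm ν X (a + 1) →
    ∃ e : OL C, rk e = 8 ∧ 4 ∣ c1 X.F - c1 e.F ∧ 2 ∣ chi X.F - chi e.F ∧
      4 ∣ eu X X - eu e e - a * (2 + 2 * chi e.F) := by
  induction a with
  | zero => exact fun X hX _ => ⟨X, hX, by simp, by simp, by simp⟩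
  | succ a ih =>
    intro X hX hN
    obtain ⟨X', P, m, μ, hP, h1, h2, h3, h4⟩ := H.step C hC r ν hν X _ hX (by omega)
      fun i s => by have := hN i s; omega
    have hX' : rk X' = 8 * (a + 1) := by omega
    obtain ⟨e, e1, ⟨t₁, e2⟩, ⟨t₂, e3⟩, ⟨t₃, e4⟩⟩ := ih X' hX' fun i s => by
      have := hN i s
      have := h4 i s
      omega
    obtain ⟨l, hl, -⟩ := rank_one H hC hn e e1
    obtain ⟨P₀, hP₀⟩ := (H.iso C hC).1 0
    obtain ⟨p1, p2, -⟩ := (H.iso C hC).2 P m hP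
    have q1 := ((H.iso C hC).2 P₀ 0 hP₀).1
    have a1 := h3 X
    have a2 := h3 P
    have a3 := h3 X'
    have a4 := h3 P₀
    rw [H.symm C hC X P, H.symm C hC X X', hX] at a1
    rw [eu_OO H hC hP, p1] at a2
    rw [H.symm C hC X' P, hX'] at a3
    rw [eu_O H hC hP₀, eu_O H hC hP₀, eu_O H hC hP₀, p2.chi_eq, q1] at a4
    have a5 := eu_O H hC hP X'
    rw [hX'] at a5
    push_cast at a1 a2 a3 a4 a5
    refine ⟨e, e1, ⟨t₁ - 3 - 2 * m, by linear_combination h2 + e2⟩, ⟨t₂ + 2 * m ^ 2 + 1 - μ, ?_⟩,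
      ⟨t₃ + t₂ + 4 * (a + 1) * ((m ^ 2 + 3 * m) / 2) + (2 * t₁ + l - 7) * m - (a + 2) * μ, ?_⟩⟩
    · have : 4 * (chi X.F - chi e.F) = 4 * (2 * (t₂ + 2 * m ^ 2 + 1 - μ)) := by
        linear_combination a4 + 4 * e3
      omega
    · have : 4 * (eu X X - eu e e - ((a + 1 : ℕ) : ℤ) * (2 + 2 * chi e.F)) =
          4 * (4 * (t₃ + t₂ + 4 * (a + 1) * ((m ^ 2 + 3 * m) / 2) + (2 * t₁ + l - 7) * m -
            (a + 2) * μ)) := by
        push_cast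
        linear_combination a1 + a2 + a3 + 8 * a5 + 4 * e4 + 8 * e3 + 8 * m * e2 + 8 * m * hl
      exact mul_left_cancel₀ (by norm_num) this

lemma eu_sum (H : Hyp) (hC : Ctx C) {X Y S : OL C} (h : ∀ W, eu W S = eu W X + eu W Y) :
    eu S S = eu X X + eu Y Y + 2 * eu X Y := by
  rw [h S, H.symm C hC S X, H.symm C hC S Y, h X, h Y, H.symm C hC Y X]
  ring

/-- the invariants of a direct sum -/
structure Sm {r : ℕ} (ν : Fin r → ND C) (S X Y : OL C) : Prop where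
  h1 : rk S = rk X + rk Y
  h2 : c1 S.F = c1 X.F + c1 Y.F
  h3 : ∀ W, eu W S = eu W X + eu W Y
  h4 : ∀ i s, ty ((ν i).χ s) S = ty ((ν i).χ s) X + ty ((ν i).χ s) Y

lemma ex_sum (H : Hyp) (hC : Ctx C) {r : ℕ} (ν : Fin r → ND C) (X Y : OL C) :
    ∃ S, Sm ν S X Y := by
  obtain ⟨S, h0, h1, h2, h3⟩ := H.sum C hC X Y
  exact ⟨S, h1, h2, h3, fun i s =>
    (H.ty1 C hC _ _ (ν i).hp ((ν i).chr s)).2.2.1 S X Y h0⟩

lemma ty_O (H : Hyp) (hC : Ctx C) (ν : ND C) (s : Bool) {P : OL C} {m : ℤ} (hP : IsO P m) :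
    ty (ν.χ s) P = 1 :=
  (H.ty1 C hC _ _ ν.hp (ν.chr s)).2.2.2.1 P m hP

lemma ty_two (H : Hyp) (hC : Ctx C) (ν : ND C) (s : Bool) (Y : OL C) {a : ℕ}
    (h : rk Y = 8 * a) : ty (ν.χ s) Y + ty (ν.χ (!s)) Y = 2 * a := by
  have := H.two C hC ν Y a h (H.pj C hC Y ν.p ν.hp)
  cases s
  · rw [add_comm]; exact this
  · exact this

/-- the invariants of the lattice attached to a character at a node -/
structure IsL {r : ℕ} (ν : Fin r → ND C) (i : Fin r) (s : Bool) (L : OL C) (b : ℕ) : Prop where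
  h1 : rk L = 8 * (2 * b)
  h2 : 4 ∣ c1 L.F
  h3 : 4 ∣ eu L L - 2
  h4 : ∀ Y : OL C, 2 ∣ c1 Y.F → 2 ∣ eu Y L - ty ((ν i).χ s) Y
  h5 : ty ((ν i).χ s) L = 2 * b + 2
  h6 : ty ((ν i).χ (!s)) L + 2 = 2 * b
  h7 : ∀ j, j ≠ i → ∀ s', ty ((ν j).χ s') L = 2 * b

lemma genM_ext {χ : ℤ → C.B →ₗ[ℂ] ℂ} {m : ℤ} {n : ℕ} {g : Fin n → C.B} (h : GenM χ m g)
    {g' : Fin 3 → C.B} (h' : ∀ i, g' i ∈ C.O m ∧ χ m (g' i) = 0) :
    GenM χ m (Sum.elim g' (Fin.append g g)) := by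
  refine ⟨?_, fun k hk x hx h0 => ?_⟩
  · rintro (i | i)
    · exact h' i
    · refine Fin.addCases (fun j => ?_) (fun j => ?_) i
      · rw [Sum.elim_inr, Fin.append_left]; exact h.1 j
      · rw [Sum.elim_inr, Fin.append_right]; exact h.1 j
  · obtain ⟨c, hc, rfl⟩ := h.2 k hk x hx h0
    refine ⟨Sum.elim 0 (Fin.append c 0), ?_, ?_⟩
    · rintro (i | i)
      · exact Submodule.zero_mem _
      · refine Fin.addCases (fun j => ?_) (fun j => ?_) i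
        · rw [Sum.elim_inr, Fin.append_left]; exact hc j
        · rw [Sum.elim_inr, Fin.append_right]; exact Submodule.zero_mem _
    · rw [Fintype.sum_sum_type, Fin.sum_univ_add]
      simp only [Sum.elim_inl, Sum.elim_inr, Fin.append_left, Fin.append_right, Pi.zero_apply,
        zero_mul, Finset.sum_const_zero, add_zero, zero_add]

lemma J_mem (hC : Ctx C) (ν : ND C) (s : Bool) :
    ν.J s ∈ C.O ν.d ∧ ν.χ s ν.d (ν.J s) = 0 := by
  have h1 : (1 : C.B) ∈ C.O 0 := ν.lb.mem 0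
  have h2 : ν.I ∈ C.O ν.d := ν.lb.mem 1
  have h3 := ν.hc.C_mul (sg s)
  have h4 := (ν.chr s).smul _ _ _ h3 1 h1
  rw [add_zero, (ν.chr s).one, mul_one, map_mul (eval ν.p), eval_C] at h4
  unfold ND.J
  rw [Algebra.algebraMap_eq_smul_one]
  refine ⟨Submodule.sub_mem _ h2 (hC.tab.lat.fam.smul h3.mem h1 (add_zero _)), ?_⟩
  rw [map_sub, ν.χI, h4, sub_self]

lemma ex_L (H : Hyp) (hC : Ctx C) {r : ℕ} {ν : Fin r → ND C} (hν : Sys C ν) (i : Fin r)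
    (s : Bool) : ∃ L b, IsL ν i s L b := by
  obtain ⟨k1, -, k3⟩ := H.ker C hC
  obtain ⟨m, n, g, hm, hg⟩ := k3 _ _ ((ν i).chr s) (ν i).d
  obtain ⟨t, rfl⟩ := Int.le.dest hm
  obtain ⟨l, l1, l2⟩ := exists_lin {(ν i).p} fun z hz => Finset.mem_singleton.1 hz ▸ (ν i).hp
  have l3 := l2 _ (Finset.mem_singleton_self _)
  have key : ∀ x ∈ C.O (ν i).d, (ν i).χ s (ν i).d x = 0 →
      ev l ^ t • x ∈ C.O ((ν i).d + t) ∧ (ν i).χ s ((ν i).d + t) (ev l ^ t • x) = 0 := by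
    intro x hx h0
    have h1 : Hg t (l ^ t) := (l1.pow t).cast (mul_one _)
    have h2 := ((ν i).chr s).smul _ _ _ h1 x hx
    rw [h0, mul_zero, add_comm, map_pow] at h2
    refine ⟨hC.tab.lat.fam.smul (map_pow ev l t ▸ h1.mem) hx (add_comm _ _), h2⟩
  have hg' := genM_ext hg (g' := ![ev l ^ t • (ν i).J s, ev l ^ t • (ν i).a, ev l ^ t • (ν i).b])
    fun j => by
      fin_cases j
      · exact key _ (J_mem hC _ s).1 (J_mem hC _ s).2
      · exact key _ ((ν i).lb.mem 2) ((ν i).χa s)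
      · exact key _ ((ν i).lb.mem 3) ((ν i).χb s)
  obtain ⟨L, hL⟩ := k1 _ ((ν i).d + t)
    (Sum.elim ![ev l ^ t • (ν i).J s, ev l ^ t • (ν i).a, ev l ^ t • (ν i).b] (Fin.append g g))
  obtain ⟨P, hP⟩ := (H.iso C hC).1 ((ν i).d + t)
  obtain ⟨P₀, hP₀⟩ := (H.iso C hC).1 0
  obtain ⟨a1, a2, a3⟩ := H.sph1 C hC _ _ _ _ _ L P P₀ (ν i).hp ((ν i).chr s) hg' hL hP hP₀
  obtain ⟨b1, b2⟩ := H.sph2 C hC (ν i) s l (n + n) t _ L l1 l3 rfl rfl rfl hg' hL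
  rw [Fintype.card_sum, Fintype.card_fin, Fintype.card_fin] at a1 a2 a3
  generalize ((ν i).d + t : ℤ) = m at hP a2
  have r1 : rk L = 8 * (2 * (n + 1)) := by omega
  have t1 := ty_two H hC (ν i) s L r1
  have t2 : ty ((ν i).χ s) L = 2 * (n + 1) + 2 := by omega
  have e1 : ∀ Y : OL C, eu Y L = (2 * n + 2) * chi Y.F +
      (2 * n + 3) * (rk Y * ((m ^ 2 + 3 * m) / 2) + c1 Y.F * m) + ty ((ν i).χ s) Y := by
    intro Y
    rw [a3, H.symm C hC Y P, H.symm C hC Y P₀, eu_O H hC hP, eu_O H hC hP₀]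
    push_cast
    ring
  have c4 : c1 L.F = 4 * ((2 * n + 3) * (-3 - 2 * m) + 3) := by
    rw [a2]
    push_cast
    ring
  refine ⟨L, n + 1, r1, ⟨_, c4⟩, ?_, fun Y hY => ?_, t2, by omega, fun j hj s' => ?_⟩
  · have h1 := a3 P₀
    rw [eu_O H hC hP₀, eu_O H hC hP₀, eu_OO H hC hP₀, ty_O H hC _ s hP₀,
      ((H.iso C hC).2 P m hP).2.1.chi_eq] at h1
    have h2 : chi L.F = 2 * ((2 * n + 3) * (2 * m ^ 2 + 1) - 1) + 1 := by
      push_cast at h1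
      linear_combination h1
    rw [e1, t2, r1, c4, h2]
    refine ⟨(n + 1) * ((2 * n + 3) * (2 * m ^ 2 + 1)) + (2 * n + 3) *
      (4 * (n + 1) * ((m ^ 2 + 3 * m) / 2) + ((2 * n + 3) * (-3 - 2 * m) + 3) * m), ?_⟩
    push_cast
    ring
  · obtain ⟨a, ha⟩ := (H.hom C hC Y Y).2.2.1
    obtain ⟨ρ, hρ⟩ := hY
    rw [e1, ha, hρ]
    refine ⟨(n + 1) * chi Y.F + (2 * n + 3) * (4 * a * ((m ^ 2 + 3 * m) / 2) + ρ * m), ?_⟩
    push_cast
    ring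
  · rw [b2 _ _ (ν j).hp ((ν j).chr s') fun c hc => hj (hν.inj j i c hc)]
    omega

end Olm

end Vale.Agent.P287Z.N
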