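import Vale.Agent.P287Z.L.Basic3
import Vale.Agent.P287Z.V.Glu

/-!
General lemmas for the gluing of a quadratic lattice: first cohomology of line bundles, biduality,
saturation, minimal generators modulo a subfamily.
-/

namespace Vale.Agent.P287Z.N.Sg

open MvPolynomial Module Filter Matrix Vale.Agent.P287 Vale.Agent.P287.Theta Vale.Agent.P287Z.L

theorem tp (s : Fin 3) (M : ℕ) : tvec s ^ M ∈ AA M := AA_cast (AA_pow (tvec_mem s) M) (mul_one _)

/-- the first cohomology of a line bundle on the plane vanishes -/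
theorem h1 (M : ℕ) (k : ℤ) (y : Fin 3 → K)
    (h : ∀ r s, tvec r ^ M * y s - tvec s ^ M * y r ∈ AA (k + 2 * M)) :
    ∃ z, ∀ s, y s - tvec s ^ M * z ∈ AA (k + M) := by
  rcases M with _ | N
  · exact ⟨y 0, fun s => by simpa using h 0 s⟩
  choose g g1 g2 using fun r s => mem_AA.1 (h r s)
  have hX (i : Fin 3) : Hg (N + 1 : ℕ) (X i ^ (N + 1)) := ((hg_X i).pow _).cast (mul_one _)
  obtain ⟨q, -, q1, q2⟩ := V.kos2 N (r := ![g 1 2, g 2 0, g 0 1])
    (((((hX 0).mul (g1 1 2)).add ((hX 1).mul (g1 2 0))).add ((hX 2).mul (g1 0 1))).eq_zero_of_ev (by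
      simp only [map_add, map_mul, map_pow, ev_X, g2]
      ring))
  simp only [cons_val] at q1 q2
  have e : k + 2 * (N + 1 : ℕ) - (N + 1 : ℕ) = k + (N + 1 : ℕ) := by ring
  have k1 := congrArg (fun a => ev (hc (k + 2 * (N + 1 : ℕ)) a)) q1
  have k2 := congrArg (fun a => ev (hc (k + 2 * (N + 1 : ℕ)) a)) q2
  simp only [(g1 _ _).hc_self, g2, map_sub, (hX _).hc_mul, e, map_mul, map_pow, ev_X, tvec_zero,
    one_pow, one_mul] at k1 k2
  refine ⟨y 0 - ev (hc (k + (N + 1 : ℕ)) (q 0)), fun s => ?_⟩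
  have k3 : ∀ s, y s - tvec s ^ (N + 1) * (y 0 - ev (hc (k + (N + 1 : ℕ)) (q 0))) =
      ev (hc (k + (N + 1 : ℕ)) (q s)) := by
    simp only [Fin.forall_fin_succ, Fin.succ_zero_eq_one, Fin.succ_one_eq_two, IsEmpty.forall_iff,
      and_true, tvec_zero, one_pow]
    exact ⟨by ring, by linear_combination k2, by linear_combination -k1⟩
  rw [k3]
  exact (hg_hc _ _).mem

section Mat

variable {ι κ : Type} [Fintype ι] [DecidableEq ι] [Fintype κ] [DecidableEq κ] {G : Matrix ι ι K}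
  {U : ℤ → Submodule ℂ (ι → K)} {l k : ℤ} {p : Fin 3 → ℂ}

theorem rep (hG : G.det ≠ 0) (φ : (ι → K) →ₗ[K] K) : ∃ x, ∀ v, v ⬝ᵥ G *ᵥ x = φ v := by
  refine ⟨G⁻¹ *ᵥ fun i => φ (Pi.single i 1), fun v => ?_⟩
  rw [mulVec_mulVec, mul_nonsing_inv _ hG.isUnit, one_mulVec]
  conv_rhs => rw [pi_eq_sum_univ' v, map_sum]
  simp only [map_smul, smul_eq_mul, dotProduct]

omit [DecidableEq κ] in
/-- the dual vectors of a local basis -/
theorem dual_vec (hG : G.det ≠ 0) {u : κ → ι → K} {h : κ → ℤ} (hb : LB U p u h) (hf : Full U) :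
    ∃ (x : κ → ι → K) (d : ℤ) (y : K), U1 p d y ∧ (∀ k, ∀ v ∈ U k, y • v ∈ Sp u h (d + k)) ∧
      (∀ (c : κ → K) b, (∑ a, c a • u a) ⬝ᵥ G *ᵥ x b = c b) ∧
      (∀ w, ∃ c : κ → K, ∑ a, c a • u a = w) ∧ ∀ l b, y • x b ∈ sharp G U l (d - h b - l) := by
  let B := Basis.mk hb.li (hb.span hf).ge
  choose x hx using fun b => rep hG (B.coord b)
  obtain ⟨d, y, h1, h2⟩ := hb.loc
  have h3 (c : κ → K) (b) : (∑ a, c a • u a) ⬝ᵥ G *ᵥ x b = c b := by
    rw [hx, Basis.coord_apply, ← B.equivFun_apply,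
      show ∑ a, c a • u a = B.equivFun.symm c by simp [B], LinearEquiv.apply_symm_apply]
  refine ⟨x, d, y, h1, h2, h3, fun w => (Submodule.mem_span_range_iff_exists_fun K).1
    (hb.span hf ▸ Submodule.mem_top), fun l b => mem_sharp.2 fun j v hv => ?_⟩
  obtain ⟨c, c1, c2⟩ := mem_Sp.1 (h2 j v hv)
  rw [mulVec_smul, dotProduct_smul, ← smul_dotProduct, ← c2, h3]
  exact AA_cast (c1 b) (by ring)

omit [DecidableEq κ] in
theorem bidual (hs : G.IsSymm) (hG : G.det ≠ 0) (hU : Lat U)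
    (hl : ∀ p : Fin 3 → ℂ, p ≠ 0 → ∃ (u : κ → ι → K) (h : κ → ℤ), LB U p u h) {w : ι → K}
    (hw : w ∈ sharp G (sharp G U l) l k) : w ∈ U k := by
  refine hU.refl.locP fun p hp => ?_
  obtain ⟨u, h, hb⟩ := hl p hp
  obtain ⟨x, d, y, h1, -, h3, h4, h5⟩ := dual_vec hG hb hU.full
  obtain ⟨c, rfl⟩ := h4 w
  refine ⟨d, y, h1, ?_⟩
  rw [Finset.smul_sum]
  refine Submodule.sum_mem _ fun b _ => ?_
  have h6 := mem_sharp.1 hw _ _ (h5 l b)
  rw [smul_dotProduct, P287Z.G.sym_dot hs, h3] at h6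
  rw [smul_smul]
  exact hU.fam.smul h6 (hb.mem b) (by ring)

/-- the Gram determinant of a local basis of a self-dual lattice is a unit -/
theorem gram_unit (hG : G.det ≠ 0) (hf : Full U) (hd : ∀ k, sharp G U l k = U k)
    {u : κ → ι → K} {h : κ → ℤ} (hb : LB U p u h) :
    U1 p (∑ b, (h b + l) - ∑ a, -h a) (Matrix.of fun a b => u a ⬝ᵥ G *ᵥ u b).det := by
  obtain ⟨x, d, y, h1, h2, h3, -, h5⟩ := dual_vec hG hb hf
  choose R R1 R2 using fun b => mem_Sp.1 (h2 _ _ (hd _ ▸ h5 l b))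
  have e : (Matrix.of fun a b => u a ⬝ᵥ G *ᵥ u b) * (Matrix.of R)ᵀ =
      (y * y) • (1 : Matrix κ κ K) := by
    ext a b
    have h6 := congrArg (fun v => u a ⬝ᵥ G *ᵥ v) (R2 b)
    have h7 := h3 (Pi.single a 1) b
    simp only [Pi.single_apply, ite_smul, one_smul, zero_smul, Finset.sum_ite_eq',
      Finset.mem_univ, if_true] at h7
    simp only [mulVec_sum, dotProduct_sum, mulVec_smul, dotProduct_smul, smul_eq_mul, h7] at h6
    simp only [mul_apply, of_apply, transpose_apply, Matrix.smul_apply, one_apply, smul_eq_mul,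
      mul_comm (_ ⬝ᵥ _), h6, mul_assoc, eq_comm (a := a)]
  refine U1.of_mul (AA_det _ (fun a => -h a) (fun b => h b + l) fun a b =>
    AA_cast (mem_sharp.1 (hd _ ▸ hb.mem b) _ _ (hb.mem a)) (by ring))
    (AA_det (Matrix.of R)ᵀ h (fun b => d + (d - h b - l)) fun a b => R1 b a) ?_
  rw [← det_mul, e, det_smul, det_one, mul_one]
  refine ((h1.mul h1).pow _).cast ?_
  simp only [Finset.sum_add_distrib, Finset.sum_sub_distrib, Finset.sum_neg_distrib,
    Finset.sum_const, Finset.card_univ, nsmul_eq_mul]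
  ring

end Mat

section Fam

variable {V : Type} [AddCommGroup V] [Module ℂ V] [Module K V] [IsScalarTower ℂ K V]
  {L F : ℤ → Submodule ℂ V} {k : ℤ} {x : V}

omit [IsScalarTower ℂ K V] in
theorem pow_mono (hL : Fam L) {s : Fin 3} {M M' : ℕ} (h : tvec s ^ M • x ∈ L (k + M))
    (hM : M ≤ M') : tvec s ^ M' • x ∈ L (k + M') := by
  obtain ⟨a, rfl⟩ := Nat.exists_eq_add_of_le' hM
  rw [pow_add, mul_smul]
  exact hL.smul (tp s a) h (by push_cast; ring)

/-- the saturation of a family -/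
noncomputable def satF (L : ℤ → Submodule ℂ V) (hL : Fam L) (k : ℤ) : Submodule ℂ V where
  carrier := {x | ∃ M : ℕ, ∀ s, tvec s ^ M • x ∈ L (k + M)}
  add_mem' := fun ⟨M, h⟩ ⟨M', h'⟩ => ⟨M + M', fun s => by
    rw [smul_add]
    exact Submodule.add_mem _ (pow_mono hL (h s) (by omega)) (pow_mono hL (h' s) (by omega))⟩
  zero_mem' := ⟨0, fun s => by rw [smul_zero]; exact Submodule.zero_mem _⟩
  smul_mem' := fun c _ ⟨M, h⟩ => ⟨M, fun s => by
    rw [smul_comm]; exact Submodule.smul_mem _ c (h s)⟩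

theorem fam_satF (hL : Fam L) : Fam (satF L hL) := fun d k a ha v ⟨M, h⟩ =>
  ⟨M, fun s => by rw [smul_comm]; exact hL.smul ha (h s) (by ring)⟩

theorem le_satF (hL : Fam L) (h : x ∈ L k) : x ∈ satF L hL k :=
  ⟨0, fun s => by simpa using h⟩

theorem satF_pow (hL : Fam L) {M : ℕ} (h : ∀ s, tvec s ^ M • x ∈ satF L hL (k + M)) :
    x ∈ satF L hL k := by
  choose N hN using h
  refine ⟨∑ s, N s + M, fun s => pow_mono hL (M := N s + M) ?_ (Nat.add_le_add_right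
    (Finset.single_le_sum (fun _ _ => Nat.zero_le _) (Finset.mem_univ s)) M)⟩
  rw [pow_add, mul_smul]
  exact mem_cast (hN s s) (by push_cast; ring)

theorem sat_satF (hL : Fam L) : Sat (satF L hL) := fun k v h =>
  satF_pow hL (M := 1) fun s => by simpa using h s

/-- minimal generators modulo a subfamily -/
theorem min_mod (hL : FG L) (hF : Fam F) : ∃ (n : ℕ) (α : Fin n → V) (d : Fin n → ℤ),
    (∀ i, α i ∈ L (d i)) ∧ (∀ k, ∀ x ∈ L k, ∃ c ∈ Fr d k, x - ∑ i, c i • α i ∈ F k) ∧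
      ∀ k, ∀ c ∈ Fr d k, ∑ i, c i • α i ∈ F k → ∀ i, d i = k → c i = 0 := by
  obtain ⟨n, α, d, h0⟩ := hL
  have h1 := h0.mem
  have h2 : ∀ k, ∀ x ∈ L k, ∃ c ∈ Fr d k, x - ∑ i, c i • α i ∈ F k := fun k x hx => by
    obtain ⟨c, c1, c2⟩ := mem_Sp.1 (h0 k ▸ hx)
    exact ⟨c, mem_Fr.2 c1, by rw [c2, sub_self]; exact Submodule.zero_mem _⟩
  clear h0
  induction n with
  | zero => exact ⟨0, α, d, h1, h2, fun _ _ _ _ i => i.elim0⟩
  | succ n ih =>
    by_contra hn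
    obtain ⟨k, c, c1, c2, i, rfl, h0⟩ : ∃ k, ∃ c ∈ Fr d k, ∑ i, c i • α i ∈ F k ∧
        ∃ i, d i = k ∧ c i ≠ 0 := by
      by_contra h3
      exact hn ⟨_, α, d, h1, h2, fun k c a b i hi => by_contra fun h0 =>
        h3 ⟨k, c, a, b, i, hi, h0⟩⟩
    obtain ⟨t, ht⟩ := mem_AA_zero.1 (sub_self (d i) ▸ mem_Fr.1 c1 i)
    have h3 : (c i)⁻¹ ∈ AA 0 := by rw [ht, ← map_inv₀]; exact AA_const _
    refine hn (ih (fun l => α (i.succAbove l)) (fun l => d (i.succAbove l)) (fun l => h1 _)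
      fun k x hx => ?_)
    obtain ⟨a, a1, a2⟩ := h2 k x hx
    have h4 := AA_mul (mem_Fr.1 a1 i) h3
    refine ⟨fun l => a (i.succAbove l) - a i * (c i)⁻¹ * c (i.succAbove l), mem_Fr.2 fun l =>
      Submodule.sub_mem _ (mem_Fr.1 a1 _) (AA_cast (AA_mul h4 (mem_Fr.1 c1 _)) (by ring)), ?_⟩
    have h5 := Submodule.add_mem _ a2 (hF.smul h4 c2 (by ring))
    rw [Fin.sum_univ_succAbove _ i, Fin.sum_univ_succAbove _ i, smul_add, smul_smul,
      inv_mul_cancel_right₀ h0, Finset.smul_sum] at h5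
    simp only [sub_smul, Finset.sum_sub_distrib, mul_smul (_ * _)]
    have e : ∀ x A B D : V, x - (A + B) + (A + D) = x - (B - D) := fun _ _ _ _ => by abel
    rwa [e] at h5

end Fam

end Vale.Agent.P287Z.N.Sg
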