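import Vale.Agent.P287Z.N.SgA
import Vale.Agent.P287Z.V.Bs

/-!
The saturated discriminant module of a quadratic lattice and its free resolution.
-/

namespace Vale.Agent.P287Z.N.Sg

open MvPolynomial Module Filter Matrix Vale.Agent.P287 Vale.Agent.P287.Theta Vale.Agent.P287Z.L

/-- the relations modulo a free subfamily are free -/
theorem free_mod (hR : stRES) (hD : stRSD) {r n : ℕ} {J : ℤ → Submodule ℂ (Fin r → K)}
    {e' : Fin r → ℤ} {α : Fin n → Fin r → K} {d : Fin n → ℤ} (hJ : Fam J) (hS : Sat J)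
    (hF : ∀ k, Fr e' k ≤ J k) (h1 : ∀ i, α i ∈ J (d i))
    (h2 : ∀ k, ∀ x ∈ J k, ∃ c ∈ Fr d k, x - ∑ i, c i • α i ∈ Fr e' k) :
    ∃ (e : Fin n → ℤ) (ψ : Fin n → Fin n → K), LinearIndependent K ψ ∧
      ∀ k c, (c ∈ Fr d k ∧ ∑ i, c i • α i ∈ Fr e' k) ↔ c ∈ Sp ψ e k := by
  let u : Fin (n + r) → Fin r → K := Fin.append α fun a => Pi.single a 1
  have key (c : Fin (n + r) → K) : ∑ t, c t • u t =
      ∑ i, c (Fin.castAdd r i) • α i + fun a => c (Fin.natAdd n a) := by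
    simp only [u, Fin.sum_univ_add, Fin.append_left, Fin.append_right]
    rw [← pi_eq_sum_univ' fun a => c (Fin.natAdd n a)]
  have kf {k : ℤ} {c : Fin (n + r) → K} : (∀ t, c t ∈ AA (k - Fin.append d e' t)) ↔
      (fun i => c (Fin.castAdd r i)) ∈ Fr d k ∧ (fun a => c (Fin.natAdd n a)) ∈ Fr e' k := by
    simp only [Fin.forall_fin_add, Fin.append_left, Fin.append_right, mem_Fr]
  have hg : Gen J u (Fin.append d e') := fun k => le_antisymm (fun x hx => by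
    obtain ⟨c, c1, c2⟩ := h2 k x hx
    refine mem_Sp.2 ⟨Fin.append c (x - ∑ i, c i • α i), kf.2 ?_, ?_⟩
    · simpa only [Fin.append_left, Fin.append_right] using ⟨c1, c2⟩
    · rw [key]
      simp only [Fin.append_left, Fin.append_right]
      exact add_sub_cancel _ _) (Sp_le hJ ((Fin.forall_fin_add _).2 ⟨fun i => by
      simpa only [u, Fin.append_left] using h1 i, fun a => by
      simpa only [u, Fin.append_right] using hF _ ((gen_Fr e').mem a)⟩) k)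
  obtain ⟨n₁, S, e, H⟩ := hR _ J _ u _ hS hg
  have h3 := (hD _ J _ _ u _ S e H).2 ((lat_Fr e').full.mono hF)
  rw [finrank_fintype_fun_eq_card, Fintype.card_fin] at h3
  obtain rfl : n₁ = n := by omega
  refine ⟨e, fun j i => ev (S (Fin.castAdd r i) j), ?_, fun k c => ?_⟩
  · rw [Fintype.linearIndependent_iff]
    intro y hy
    refine Fintype.linearIndependent_iff.1 H.li y ?_
    have h4 : ∑ t, (∑ j, y j • fun i => ev (S i j)) t • u t = 0 := by
      simp only [Finset.sum_apply, Pi.smul_apply, Finset.sum_smul, smul_assoc]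
      rw [Finset.sum_comm]
      refine Finset.sum_eq_zero fun j _ => ?_
      rw [← Finset.smul_sum, (mem_Syz.1 (H.syz.mem j)).2, smul_zero]
    have h5 (i : Fin n₁) : (∑ j, y j • fun i => ev (S i j)) (Fin.castAdd r i) = 0 := by
      simpa only [Finset.sum_apply, Pi.smul_apply, Pi.zero_apply] using congrFun hy i
    rw [key] at h4
    simp only [h5, zero_smul, Finset.sum_const_zero, zero_add] at h4
    exact funext ((Fin.forall_fin_add _).2 ⟨h5, congrFun h4⟩)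
  · have h4 := Sp_map (fun j i => ev (S i j)) e (LinearMap.funLeft K K (Fin.castAdd r)) k
    rw [← H.syz] at h4
    refine Iff.trans ⟨?_, ?_⟩ (SetLike.ext_iff.1 h4 c)
    · rintro ⟨c1, c2⟩
      refine ⟨Fin.append c (-∑ i, c i • α i), mem_Syz.2 ⟨kf.2 ?_, ?_⟩,
        funext fun i => Fin.append_left _ _ i⟩
      · simpa only [Fin.append_left, Fin.append_right] using ⟨c1, Submodule.neg_mem _ c2⟩
      · rw [key]
        simp only [Fin.append_left, Fin.append_right]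
        exact add_neg_cancel _
    · rintro ⟨s, hs, rfl⟩
      obtain ⟨s1, s2⟩ := mem_Syz.1 hs
      rw [key, add_eq_zero_iff_eq_neg] at s2
      exact ⟨(kf.1 s1).1, s2 ▸ Submodule.neg_mem _ (kf.1 s1).2⟩

/-- the fibre product of the dual lattice and of the free cover of the discriminant module -/
structure Pre (U W : ℤ → Submodule ℂ (Fin 4 → K)) {n : ℕ} (d : Fin n → ℤ)
    (N : ℤ → Submodule ℂ ((Fin 4 → K) × (Fin n → K))) (M : ℕ) (w : Fin n → Fin 3 → Fin 4 → K)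
    (e : Fin n → ℤ) (ψ : Fin n → Fin n → K) : Prop where
  fam : Fam N
  refl : Refl N
  mem : ∀ k, ∀ x ∈ N k, x.1 ∈ W k ∧ x.2 ∈ Fr d k
  left : ∀ k v, (v, 0) ∈ N k ↔ v ∈ U k
  onto : ∀ k, ∀ v ∈ W k, ∃ c, (v, c) ∈ N k
  sat : ∀ i s, (w i s, tvec s ^ M • (Pi.single i 1 : Fin n → K)) ∈ N (d i + M)
  li : LinearIndependent K ψ
  right : ∀ k c, (0, c) ∈ N k ↔ c ∈ Sp ψ e k
  min : ∀ k c, (0, c) ∈ N k → ∀ i, d i = k → c i = 0
  glue : ∀ (k : ℤ) (m : ℕ) (c : Fin 3 → Fin n → K), (∀ s, c s ∈ Fr d (k + m)) →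
    (∀ r s, (0, tvec r ^ m • c s - tvec s ^ m • c r) ∈ N (k + 2 * m)) →
      ∃ c₀ ∈ Fr d k, ∀ s, (0, c s - tvec s ^ m • c₀) ∈ N (k + m)

theorem refl_inf {V : Type} [AddCommGroup V] [Module ℂ V] [Module K V]
    {L N : ℤ → Submodule ℂ V} (h : Refl L) (h' : Refl N) : Refl fun k => L k ⊓ N k := fun k v hv =>
  ⟨h k v fun g hg => let ⟨d, y, a, b⟩ := hv g hg; ⟨d, y, a, b.1⟩,
    h' k v fun g hg => let ⟨d, y, a, b⟩ := hv g hg; ⟨d, y, a, b.2⟩⟩

theorem exists_pre (hN : stNOETH) (hR : stRES) (hD : stRSD) {U W : ℤ → Submodule ℂ (Fin 4 → K)}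
    {G : Matrix (Fin 4) (Fin 4) K} {l : ℤ} {f : K} (f0 : f ≠ 0) (f6 : f ∈ AA 6) (hW : Lat W)
    (bid : ∀ k v, v ∈ sharp G W l k ↔ v ∈ U k) (int : ∀ k, U k ≤ W k)
    (ann : ∀ k, ∀ v ∈ W k, f • v ∈ U (k + 6)) :
    ∃ (n : ℕ) (d : Fin n → ℤ) (N : _) (M : ℕ) (w : _) (e : _) (ψ : _), Pre U W d N M w e ψ := by
  obtain ⟨r, wa, ea, hg⟩ := hW.fg
  let θ : (Fin 4 → K) →ₗ[K] (Fin r → K) := (Matrix.of wa).mulVecLin ∘ₗ G.mulVecLin
  let F := Fr fun a => -ea a - l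
  have hF : Lat F := lat_Fr _
  have hθ {k : ℤ} {v : Fin 4 → K} : θ v ∈ F k ↔ v ∈ U k := by
    rw [← bid, V.B.mem_sharp_gen hg, mem_Fr]
    exact forall_congr' fun a => ⟨fun h => AA_cast h (by ring), fun h => AA_cast h (by ring)⟩
  have h0 : Fam fun k => (W k).map (θ.restrictScalars ℂ) ⊔ F k := (hW.fam.map θ).sup hF.fam
  let J := satF _ h0
  have hJ : Fam J := fam_satF h0
  have hFJ (k : ℤ) : F k ≤ J k := fun x hx => le_satF h0 (Submodule.mem_sup_right hx)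
  have hfg : FG J := by
    refine hN _ _ J ((hF.fg.sh 6).map (f⁻¹ • LinearMap.id)) hJ fun k x ⟨M, hM⟩ =>
      ⟨f • x, hF.refl.sat_pow M fun s => ?_,
        by simp [f0]⟩
    obtain ⟨_, ⟨v, v1, rfl⟩, y, y1, h⟩ := Submodule.mem_sup.1 (hM s)
    rw [smul_comm, ← h, smul_add]
    refine Submodule.add_mem _ ?_ (hF.fam.smul f6 y1 (by ring))
    rw [LinearMap.restrictScalars_apply, ← map_smul]
    exact hθ.2 (mem_cast (ann _ v v1) (by ring))
  obtain ⟨n, α, d, a1, a2, a3⟩ := min_mod hfg hF.fam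
  obtain ⟨e, ψ, b1, b2⟩ := free_mod hR hD hJ (sat_satF h0) hFJ a1 a2
  let lc := Fintype.linearCombination K α
  have hlc (c : Fin n → K) : lc c = ∑ i, c i • α i := Fintype.linearCombination_apply K α c
  let N : ℤ → Submodule ℂ ((Fin 4 → K) × (Fin n → K)) := fun k => (W k).prod (Fr d k) ⊓
    (F k).comap ((θ ∘ₗ LinearMap.fst K _ _ - lc ∘ₗ LinearMap.snd K _ _).restrictScalars ℂ)
  have mN {k : ℤ} {v : Fin 4 → K} {c : Fin n → K} :
      (v, c) ∈ N k ↔ (v ∈ W k ∧ c ∈ Fr d k) ∧ θ v - lc c ∈ F k := Iff.rfl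
  have m0 {k : ℤ} {c : Fin n → K} : (0, c) ∈ N k ↔ c ∈ Fr d k ∧ lc c ∈ F k := by
    rw [mN, map_zero, zero_sub, Submodule.neg_mem_iff]
    exact ⟨fun h => ⟨h.1.2, h.2⟩, fun h => ⟨⟨Submodule.zero_mem _, h.1⟩, h.2⟩⟩
  choose M hM using a1
  have c1 (i : Fin n) (s : Fin 3) := Submodule.mem_sup.1 (pow_mono h0 (hM i s)
    (Finset.single_le_sum (f := M) (fun _ _ => Nat.zero_le _) (Finset.mem_univ i)))
  generalize ∑ i, M i = m at c1
  choose x c2 y c3 c4 using c1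
  choose w c5 c6 using c2
  refine ⟨n, d, N, m, w, e, ψ, (hW.fam.prod (fam_Fr d)).inf (hF.fam.comap _),
    refl_inf (hW.refl.prod (refl_Fr d)) (hF.refl.comap _), fun k x hx => hx.1, fun k v => ?_,
    fun k v hv => ?_, fun i s => mN.2 ⟨⟨c5 i s, (fam_Fr d).smul (tp s m) ((gen_Fr d).mem i)
      (add_comm _ _)⟩, ?_⟩, b1, fun k c => by rw [m0, hlc, b2],
    fun k c hc => a3 k c (m0.1 hc).1 (hlc c ▸ (m0.1 hc).2), fun k m c d1 d2 => ?_⟩
  · rw [mN, map_zero, sub_zero, hθ]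
    exact ⟨fun h => h.2, fun h => ⟨⟨int k h, Submodule.zero_mem _⟩, h⟩⟩
  · obtain ⟨c, c1, c2⟩ := a2 k _ (le_satF h0 (Submodule.mem_sup_left ⟨v, hv, rfl⟩))
    exact ⟨c, mN.2 ⟨⟨hv, c1⟩, hlc c ▸ c2⟩⟩
  · rw [map_smul, Fintype.linearCombination_apply_single, one_smul, ← c4 i s, ← c6 i s]
    change θ (w i s) - (θ (w i s) + y i s) ∈ _
    rw [sub_add_cancel_left]
    exact Submodule.neg_mem _ (c3 i s)
  · choose z hz using fun a => h1 m (k - (-ea a - l)) (fun s => lc (c s) a) fun r s => by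
      have := mem_Fr.1 (m0.1 (d2 r s)).2 a
      rw [map_sub, map_smul, map_smul] at this
      exact AA_cast this (by ring)
    have d3 (s : Fin 3) : lc (c s) - tvec s ^ m • z ∈ F (k + m) :=
      mem_Fr.2 fun a => AA_cast (hz a s) (by ring)
    have d4 : z ∈ J k := satF_pow h0 (M := m) fun s => by
      rw [← sub_sub_cancel (lc (c s)) (tvec s ^ m • z)]
      refine Submodule.sub_mem _ ?_ (hFJ _ (d3 s))
      rw [hlc]
      exact Submodule.sum_mem _ fun i _ => hJ.smul (mem_Fr.1 (d1 s) i) ⟨M i, hM i⟩ (by ring)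
    obtain ⟨c₀, d5, d6⟩ := a2 k z d4
    refine ⟨c₀, d5, fun s => m0.2 ⟨Submodule.sub_mem _ (d1 s)
      ((fam_Fr d).smul (tp s m) d5 (add_comm _ _)), ?_⟩⟩
    have d7 := Submodule.add_mem _ (d3 s) (hF.fam.smul (tp s m) d6 (add_comm _ _))
    rwa [smul_sub, sub_add_sub_cancel, ← hlc, ← map_smul, ← map_sub] at d7

end Vale.Agent.P287Z.N.Sg
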