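import Vale.Agent.P287Z.N.SgB

/-!
The symmetric form on the free cover of the discriminant module.
-/

namespace Vale.Agent.P287Z.N.Sg

open MvPolynomial Module Filter Matrix Vale.Agent.P287 Vale.Agent.P287.Theta Vale.Agent.P287Z.L
open Vale.Agent.P287Z.G (dot_mem sym_dot)

variable {U : ℤ → Submodule ℂ (Fin 4 → K)} {G : Matrix (Fin 4) (Fin 4) K} {l k : ℤ} {n : ℕ}
  {d e : Fin n → ℤ} {N : ℤ → Submodule ℂ ((Fin 4 → K) × (Fin n → K))} {M : ℕ}
  {w : Fin n → Fin 3 → Fin 4 → K} {ψ : Fin n → Fin n → K} {Γ : Matrix (Fin n) (Fin n) K}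

theorem AA_eq {x y : K} {j : ℤ} (h : x ∈ AA k) (e : k = j) (e' : x = y) : y ∈ AA j := e ▸ e' ▸ h

theorem Pre.comb (P : Pre U (sharp G U l) d N M w e ψ) {c : Fin n → K} (hc : c ∈ Fr d k)
    (s : Fin 3) : (∑ i, c i • w i s, tvec s ^ M • c) ∈ N (k + M) := by
  have h := (N (k + M)).sum_mem (t := Finset.univ) fun i _ =>
    P.fam.smul (mem_Fr.1 hc i) (P.sat i s) (by ring)
  have e : ∑ i, c i • (w i s, tvec s ^ M • (Pi.single i 1 : Fin n → K)) =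
      (∑ i, c i • w i s, tvec s ^ M • c) := by
    refine Prod.ext (Prod.fst_sum) (Prod.snd_sum.trans ?_)
    simp only [Prod.smul_mk, smul_comm (c _) (tvec s ^ M), ← Finset.smul_sum, ← pi_eq_sum_univ' c]
  exact e ▸ h

theorem Pre.exists_form (hs : G.IsSymm) (P : Pre U (sharp G U l) d N M w e ψ) :
    ∃ Γ : Matrix (Fin n) (Fin n) K, Γ.IsSymm ∧ ∀ j k, ∀ x ∈ N j, ∀ y ∈ N k,
      x.1 ⬝ᵥ G *ᵥ y.1 - x.2 ⬝ᵥ Γ *ᵥ y.2 ∈ AA (j + k + l) := by
  have hu (i : Fin n) (r s : Fin 3) :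
      tvec r ^ M • w i s - tvec s ^ M • w i r ∈ U (d i + 2 * M) := by
    have h := Submodule.sub_mem _ (P.fam.smul (n := d i + 2 * M) (tp r M) (P.sat i s) (by ring))
      (P.fam.smul (tp s M) (P.sat i r) (by ring))
    rw [Prod.smul_mk, Prod.smul_mk, Prod.mk_sub_mk, smul_comm (tvec r ^ M), sub_self] at h
    exact (P.left _ _).1 h
  have hw (i : Fin n) (r s : Fin 3) : tvec r ^ M • w i s ∈ sharp G U l (d i + 2 * M) :=
    P287Z.G.fam_sharp.smul (tp r M) (P.mem _ _ (P.sat i s)).1 (by ring)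
  choose z hz using fun i j => h1 (2 * M) (d i + d j + l) (fun s => w i s ⬝ᵥ G *ᵥ w j s)
    fun r s => by
      have h := Submodule.add_mem _ (mem_sharp.1 (hw j r s) _ _ (hu i r s))
        (AA_cast (mem_sharp.1 (hw i s r) _ _ (hu j r s)) (by ring))
      rw [sym_dot hs (_ - _) (tvec s ^ M • w i r)] at h
      simp only [sub_dotProduct, smul_dotProduct, mulVec_sub, mulVec_smul, dotProduct_sub,
        dotProduct_smul, smul_eq_mul] at h
      exact AA_eq h (by push_cast; ring) (by ring)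
  let Γ : Matrix (Fin n) (Fin n) K := Matrix.of fun i j => z (i ⊓ j) (i ⊔ j)
  have hΓ (s : Fin 3) (i j : Fin n) :
      w i s ⬝ᵥ G *ᵥ w j s - tvec s ^ (2 * M) * Γ i j ∈ AA (d i + d j + l + 2 * M) := by
    rcases le_total i j with h | h
    · simpa [Γ, h] using hz i j s
    · rw [sym_dot hs, add_comm (d i)]
      simpa [Γ, h] using hz j i s
  refine ⟨Γ, by ext i j; simp [Γ, min_comm, max_comm], fun j k x hx y hy =>
    refl_AA.sat_pow (2 * M) fun s => ?_⟩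
  have k1 {j : ℤ} {x} (hx : x ∈ N j) : tvec s ^ M • x.1 - ∑ i, x.2 i • w i s ∈ U (j + M) := by
    have h := Submodule.sub_mem _ (P.fam.smul (tp s M) hx (add_comm _ _))
      (P.comb (P.mem _ _ hx).2 s)
    exact (P.left _ _).1 (by rwa [← Prod.mk.eta (p := _ - _), Prod.snd_sub, Prod.smul_snd,
      sub_self] at h)
  have k2 : x.2 ⬝ᵥ (Matrix.of fun a b => w a s ⬝ᵥ G *ᵥ w b s - tvec s ^ (2 * M) * Γ a b) *ᵥ y.2 ∈
      AA (j + k + l + 2 * M) := dot_mem (mem_Fr.1 (P.mem _ _ hx).2)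
    (b := fun a => k + l + 2 * M + d a) (fun a => dot_mem (hΓ s a) (mem_Fr.1 (P.mem _ _ hy).2)
      fun b => by ring) fun a => by ring
  have k3 : x.2 ⬝ᵥ (Matrix.of fun a b => w a s ⬝ᵥ G *ᵥ w b s - tvec s ^ (2 * M) * Γ a b) *ᵥ y.2 =
      (∑ i, x.2 i • w i s) ⬝ᵥ G *ᵥ (∑ i, y.2 i • w i s) - tvec s ^ (2 * M) * (x.2 ⬝ᵥ Γ *ᵥ y.2) := by
    have e : (Matrix.of fun a b => w a s ⬝ᵥ G *ᵥ w b s - tvec s ^ (2 * M) * Γ a b) =
        (Matrix.of fun a => w a s) * (G * (Matrix.of fun a => w a s)ᵀ) - tvec s ^ (2 * M) • Γ := by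
      ext a b; rfl
    rw [e, sub_mulVec, dotProduct_sub, smul_mulVec, dotProduct_smul, ← mulVec_mulVec,
      ← mulVec_mulVec, dotProduct_mulVec, mulVec_transpose, vecMul_eq_sum, vecMul_eq_sum]
    rfl
  have h := Submodule.add_mem _ (Submodule.add_mem _ (AA_cast (j := j + k + l + 2 * M)
    (mem_sharp.1 (P287Z.G.fam_sharp.smul (tp s M) (P.mem _ _ hy).1 rfl) _ _ (k1 hx)) (by ring))
    (AA_cast (mem_sharp.1 (P.mem _ _ (P.comb (P.mem _ _ hx).2 s)).1 _ _ (k1 hy)) (by ring))) k2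
  rw [k3, sym_dot hs (_ - _) (∑ i, x.2 i • w i s)] at h
  simp only [sub_dotProduct, smul_dotProduct, mulVec_sub, mulVec_smul, dotProduct_sub,
    dotProduct_smul, smul_eq_mul] at h
  exact AA_eq h (by push_cast; ring) (by rw [smul_eq_mul]; ring)

/-- the form on the fibre product is integral -/
def Int (G : Matrix (Fin 4) (Fin 4) K) (l : ℤ) (N : ℤ → Submodule ℂ ((Fin 4 → K) × (Fin n → K)))
    (Γ : Matrix (Fin n) (Fin n) K) : Prop :=
  ∀ j k, ∀ x ∈ N j, ∀ y ∈ N k, x.1 ⬝ᵥ G *ᵥ y.1 - x.2 ⬝ᵥ Γ *ᵥ y.2 ∈ AA (j + k + l)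

theorem Pre.toF (P : Pre U (sharp G U l) d N M w e ψ) {x : Fin n → K}
    (h : ∀ j, ∀ y ∈ N j, y.2 ⬝ᵥ x ∈ AA (j + k + l)) : x ∈ Fr (fun i => -d i - l) k :=
  mem_Fr.2 fun i => refl_AA.sat_pow M fun s => AA_eq (h _ _ (P.sat i s)) (by ring) (by
    rw [smul_dotProduct, single_one_dotProduct])

theorem Pre.p1 (P : Pre U (sharp G U l) d N M w e ψ) (hI : Int G l N Γ) {c : Fin n → K}
    (hc : (0, c) ∈ N k) : Γ *ᵥ c ∈ Fr (fun i => -d i - l) k :=
  P.toF fun j y hy => AA_eq (Submodule.neg_mem _ (hI _ _ y hy _ hc)) rfl (by simp)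

theorem dot_F {c x : Fin n → K} {j : ℤ} (hc : c ∈ Fr d j) (hx : x ∈ Fr (fun i => -d i - l) k) :
    c ⬝ᵥ x ∈ AA (j + k + l) := dot_mem (mem_Fr.1 hc) (mem_Fr.1 hx) fun i => by ring

theorem Pre.p2 (P : Pre U (sharp G U l) d N M w e ψ) (hI : Int G l N Γ)
    (bid : ∀ k, ∀ v ∈ sharp G (sharp G U l) l k, v ∈ U k) {c : Fin n → K} (hc : c ∈ Fr d k)
    (h : Γ *ᵥ c ∈ Fr (fun i => -d i - l) k) : (0, c) ∈ N k := by
  refine P.refl.sat_pow M fun s => ?_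
  have h1 := P.comb hc s
  have h2 : ∑ i, c i • w i s ∈ U (k + M) := bid _ _ (mem_sharp.2 fun j v hv => by
    obtain ⟨c', hc'⟩ := P.onto j v hv
    refine AA_eq (Submodule.add_mem _ (hI _ _ _ hc' _ h1)
      (AA_cast (AA_mul (tp s M) (dot_F (P.mem _ _ hc').2 h)) (by ring))) rfl ?_
    rw [mulVec_smul, dotProduct_smul, smul_eq_mul, sub_add_cancel])
  have h3 := Submodule.sub_mem _ h1 ((P.left _ _).2 h2)
  rwa [Prod.mk_sub_mk, sub_self, sub_zero, ← smul_zero (tvec s ^ M)] at h3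

/-- every functional on the relations comes locally from the free cover -/
theorem Pre.loc (hL : stLFA) (hG : G.det ≠ 0) (hW : Lat (sharp G U l))
    (P : Pre U (sharp G U l) d N M w e ψ) (hI : Int G l N Γ) {ε : Fin n → K}
    (h : ∀ j c, (0, c) ∈ N j → c ⬝ᵥ ε ∈ AA (j + k + l)) {p : Fin 3 → ℂ} (hp : p ≠ 0) :
    ∃ a y, U1 p a y ∧ ∃ c ∈ Fr d (a + k), y • ε + Γ *ᵥ c ∈ Fr (fun i => -d i - l) (a + k) := by
  obtain ⟨v, hv, hb⟩ := hL _ _ hW p hp
  choose c hc using fun b => P.onto _ _ (hb.mem b)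
  obtain ⟨a, y, h1, h2⟩ := hb.loc
  let σ := (Basis.mk hb.li (hb.span hW.full).ge).constr K c
  have hσ (b) : σ (v b) = c b := by
    have := (Basis.mk hb.li (hb.span hW.full).ge).constr_basis K c b
    rwa [Basis.mk_apply] at this
  have h3 (j : ℤ) (x) (hx : x ∈ N j) : y * ((x.2 - σ x.1) ⬝ᵥ ε) ∈ AA (a + j + k + l) := by
    obtain ⟨b, b1, b2⟩ := mem_Sp.1 (h2 j _ (P.mem _ _ hx).1)
    have h4 := Submodule.sub_mem _ (P.fam.smul h1.mem hx rfl) ((N (a + j)).sum_mem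
      (t := Finset.univ) fun i _ => P.fam.smul (b1 i) (hc i) (by ring))
    have h5 : y • x - ∑ i, b i • (v i, c i) = (0, y • (x.2 - σ x.1)) := by
      refine Prod.ext ?_ ?_
      · simp only [Prod.fst_sub, Prod.fst_sum, Prod.smul_fst, b2, sub_self]
      · simp only [Prod.snd_sub, Prod.snd_sum, Prod.smul_snd, smul_sub, ← map_smul, ← b2, map_sum,
          ← hσ]
    rw [h5] at h4
    exact AA_eq (h _ _ h4) rfl (smul_dotProduct _ _ _)
  obtain ⟨x, hx⟩ := rep hG (-y • (dotProductBilin K K).flip ε ∘ₗ σ)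
  have hx' (u) : u ⬝ᵥ G *ᵥ x = -y * (σ u ⬝ᵥ ε) := hx u
  have h6 : x ∈ sharp G U l (a + k) := mem_sharp.2 fun j u hu =>
    AA_eq (h3 j _ ((P.left _ _).2 hu)) (by ring) (by rw [hx', zero_sub, neg_dotProduct]; ring)
  obtain ⟨c', hc'⟩ := P.onto _ _ h6
  refine ⟨a, y, h1, c', (P.mem _ _ hc').2, P.toF fun j z hz => AA_eq (Submodule.sub_mem _
    (AA_cast (h3 j z hz) (by ring)) (hI _ _ _ hz _ hc')) rfl ?_⟩
  rw [hx', dotProduct_add, dotProduct_smul, sub_dotProduct, smul_eq_mul]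
  ring

end Vale.Agent.P287Z.N.Sg
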