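import Vale.Agent.P287Z.N.SgC

/-!
The form on the free cover of the discriminant module is perfect.
-/

namespace Vale.Agent.P287Z.N.Sg

open MvPolynomial Module Filter Matrix Vale.Agent.P287 Vale.Agent.P287.Theta Vale.Agent.P287Z.L
open Vale.Agent.P287Z.G (dot_mem sym_dot)

theorem lat_sharp (hD : stDUAL) {ι : Type} [Fintype ι] [DecidableEq ι] {G : Matrix ι ι K}
    (hG : G.det ≠ 0) {U : ℤ → Submodule ℂ (ι → K)} (hU : Lat U) (l : ℤ) : Lat (sharp G U l) := by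
  refine (hD _ _ (bf G) U (fun v h => eq_zero_of_vecMul_eq_zero hG (funext fun i => ?_))
    (fun v h => eq_zero_of_mulVec_eq_zero hG (funext fun i => ?_)) hU).1.sh l
  · have := h (Pi.single i 1)
    rwa [Matrix.toLinearMap₂'_apply', dotProduct_mulVec, dotProduct_single_one] at this
  · have := h (Pi.single i 1)
    rwa [Matrix.toLinearMap₂'_apply', single_one_dotProduct] at this

variable {U : ℤ → Submodule ℂ (Fin 4 → K)} {G : Matrix (Fin 4) (Fin 4) K} {l k : ℤ} {n : ℕ}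
  {d e : Fin n → ℤ} {N : ℤ → Submodule ℂ ((Fin 4 → K) × (Fin n → K))} {M : ℕ}
  {w : Fin n → Fin 3 → Fin 4 → K} {ψ : Fin n → Fin n → K} {Γ Φ : Matrix (Fin n) (Fin n) K}

theorem Pre.latP (P : Pre U (sharp G U l) d N M w e ψ) : Lat (Sp ψ e) :=
  lat_Sp P.li (P.li.span_eq_top_of_card_eq_finrank' (by simp)) e

theorem Pre.surj (hL : stLFA) (hV : stVAN) (hD : stDUAL) (hG : G.det ≠ 0)
    (hW : Lat (sharp G U l)) (hΓ : Γ.IsSymm) (P : Pre U (sharp G U l) d N M w e ψ)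
    (hI : Int G l N Γ) (bid : ∀ k, ∀ v ∈ sharp G (sharp G U l) l k, v ∈ U k) {ε : Fin n → K}
    (h : ∀ j c, (0, c) ∈ N j → c ⬝ᵥ ε ∈ AA (j + k + l)) :
    ∃ c ∈ Fr d k, ε - Γ *ᵥ c ∈ Fr (fun i => -d i - l) k := by
  have h2 {k : ℤ} {ε : Fin n → K} : ε ∈ sharp 1 (Sp ψ e) l k ↔
      ∀ j c, (0, c) ∈ N j → c ⬝ᵥ ε ∈ AA (j + k + l) := by
    simp only [mem_sharp, one_mulVec, P.right]
  obtain ⟨m, hm⟩ := (hV _ (fun k => (Fr d k).map (Γ.mulVecLin.restrictScalars ℂ) ⊔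
    Fr (fun i => -d i - l) k) (sharp 1 (Sp ψ e) l) (((fam_Fr d).map _).sup (fam_Fr _))
    (lat_sharp hD (by simp) P.latP l).fg (fun k => sup_le (by
      rintro _ ⟨c, hc, rfl⟩
      refine h2.2 fun j c' hc' => ?_
      exact AA_eq (dot_F hc (P.p1 hI hc')) (by ring) (sym_dot hΓ _ _)) fun x hx =>
        h2.2 fun j c hc => dot_F (P.mem _ _ hc).2 hx) fun p hp k v hv => by
      obtain ⟨a, y, a1, c, a2, a3⟩ := P.loc hL hG hW hI (h2.1 hv) hp
      exact ⟨a, y, a1, Submodule.mem_sup.2 ⟨_, ⟨-c, Submodule.neg_mem _ a2, rfl⟩, _, a3, by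
        simp [mulVec_neg]⟩⟩).2
  choose x h3 y h4 h5 using fun s => Submodule.mem_sup.1 (hm s k ε (h2.2 h))
  choose c h6 h7 using h3
  have h8 (s : Fin 3) : Γ *ᵥ c s = tvec s ^ m • ε - y s := by
    rw [← h5, ← h7, add_sub_cancel_right]; rfl
  have hF := fam_Fr fun i => -d i - l
  obtain ⟨c₀, b1, b2⟩ := P.glue k m c h6 fun r s => P.p2 hI bid (Submodule.sub_mem _
    ((fam_Fr d).smul (tp r m) (h6 s) (by ring)) ((fam_Fr d).smul (tp s m) (h6 r) (by ring))) (by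
      rw [mulVec_sub, mulVec_smul, mulVec_smul, h8, h8, smul_sub, smul_sub, smul_comm,
        sub_sub_sub_cancel_left]
      exact Submodule.sub_mem _ (hF.smul (tp s m) (h4 r) (by ring))
        (hF.smul (tp r m) (h4 s) (by ring)))
  refine ⟨c₀, b1, (refl_Fr _).sat_pow m fun s => ?_⟩
  have h9 := Submodule.add_mem _ (P.p1 hI (b2 s)) (h4 s)
  rwa [mulVec_sub, h8, mulVec_smul, sub_right_comm, sub_add_cancel, ← smul_sub] at h9

theorem det_ne {A Y : Matrix (Fin n) (Fin n) K} (hA : ∀ a i, A a i ∈ AA (e a - d i))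
    (h0 : ∀ a i, d i = e a → A a i = 0) (hY : ∀ i j, Y i j ∈ AA (d i - e j)) :
    (1 - A * Y).det ≠ 0 := by
  choose A' a1 a2 using fun a i => mem_AA.1 (hA a i)
  choose Y' y1 y2 using fun a i => mem_AA.1 (hY a i)
  have h1 : 1 - A * Y = ev.mapMatrix (1 - Matrix.of A' * Matrix.of Y') := by
    rw [map_sub, map_one, map_mul]
    exact congrArg₂ (1 - · * ·) (Matrix.ext a2).symm (Matrix.ext y2).symm
  have h2 : (eval (0 : Fin 3 → ℂ)).mapMatrix (Matrix.of A') = 0 := Matrix.ext fun a i => by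
    by_cases h : d i = e a
    · exact (congrArg (eval 0) ((a1 a i).eq_zero_of_ev ((a2 a i).trans (h0 a i h)))).trans
        (map_zero (eval (0 : Fin 3 → ℂ)))
    · exact (a1 a i).eval_zero (by omega)
  rw [h1, ← AlgHom.map_det]
  refine (hg_det (1 - Matrix.of A' * Matrix.of Y') (fun a => -e a) (fun a => -e a) fun a j => Hg.sub ?_
    (hg_sum _ fun i _ => ((a1 a i).mul (y1 i j)).cast (by ring))).ev_ne fun h => ?_
  · rw [one_apply]
    split_ifs with h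
    · rw [h, sub_self]; exact hg_one
    · exact hg_zero _
  · have h3 := congrArg (eval (0 : Fin 3 → ℂ)) h
    rw [RingHom.map_det, map_sub, map_one, map_mul, h2, zero_mul, sub_zero, det_one, map_zero] at h3
    exact one_ne_zero h3

theorem Pre.inv (hΓ : Γ.IsSymm) (P : Pre U (sharp G U l) d N M w e ψ) (hI : Int G l N Γ)
    (hS : ∀ k ε, (∀ j c, (0, c) ∈ N j → c ⬝ᵥ ε ∈ AA (j + k + l)) →
      ∃ c ∈ Fr d k, ε - Γ *ᵥ c ∈ Fr (fun i => -d i - l) k) :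
    ∃ Φ : Matrix (Fin n) (Fin n) K, Φ * Γ = 1 ∧ ∀ j, (0, Φ j) ∈ N (-d j - l) := by
  let A := Matrix.of ψ
  have hA : IsUnit A.det := (isUnit_iff_isUnit_det _).1 (linearIndependent_rows_iff_isUnit.1 P.li)
  have hψ (a : Fin n) : (0, ψ a) ∈ N (e a) := (P.right _ _).2 (self_mem_Sp ψ e a)
  choose c c1 c2 using fun j => hS (-e j - l) (A⁻¹ *ᵥ Pi.single j 1) fun i x hx => by
    obtain ⟨b, b1, rfl⟩ := mem_Sp.1 ((P.right _ _).1 hx)
    refine AA_eq (b1 j) (by ring) ?_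
    rw [show ∑ i, b i • ψ i = b ᵥ* A from (vecMul_eq_sum b A).symm, ← dotProduct_mulVec,
      mulVec_mulVec, mul_nonsing_inv _ hA, one_mulVec, dotProduct_single_one]
  have h1 : A * Γ * (Matrix.of c)ᵀ = 1 - A * (A⁻¹ - Γ * (Matrix.of c)ᵀ) := by
    rw [Matrix.mul_sub, mul_nonsing_inv _ hA, sub_sub_cancel, Matrix.mul_assoc]
  have h2 := det_ne (A := A) (Y := A⁻¹ - Γ * (Matrix.of c)ᵀ) (fun a => mem_Fr.1 (P.mem _ _ (hψ a)).2)
    (fun a => P.min _ _ (hψ a)) fun i j => AA_eq (mem_Fr.1 (c2 j) i) (by ring) (by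
      rw [mulVec_single_one]; rfl)
  have h3 (a i : Fin n) : (A * Γ) a i ∈ AA (d i + l - -e a) :=
    AA_eq (mem_Fr.1 (P.p1 hI (hψ a)) i) (by ring) (by
      rw [← hΓ.eq, mulVec_transpose, hΓ.eq]; rfl)
  have h4 := AA_det _ _ _ h3
  have h5 := AA_det (Matrix.of c)ᵀ (fun i => d i + l) (fun j => -e j) fun i j =>
    AA_cast (mem_Fr.1 (c1 j) i) (by ring)
  rw [← h1, det_mul] at h2
  have h6 := AA_nonneg h4 (left_ne_zero_of_mul h2)
  have h7 := AA_nonneg h5 (right_ne_zero_of_mul h2)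
  have h8 : ∑ i, (d i + l) - ∑ i, -e i = 0 := by omega
  obtain ⟨t, ht⟩ := mem_AA_zero.1 (h8 ▸ h4)
  refine ⟨(A * Γ)⁻¹ * A, by
    rw [Matrix.mul_assoc, nonsing_inv_mul _ (left_ne_zero_of_mul h2).isUnit], fun j => ?_⟩
  refine (P.right _ _).2 (mem_Sp.2 ⟨(A * Γ)⁻¹ j, fun a => ?_, (vecMul_eq_sum _ A).symm⟩)
  rw [inv_def, Ring.inverse_eq_inv, ht, ← map_inv₀]
  exact AA_cast (AA_mul (AA_const _) (AA_adj _ _ _ h3 j a)) (by rw [h8]; ring)

theorem Pre.self (P : Pre U (sharp G U l) d N M w e ψ) (hI : Int G l N Γ)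
    (bid : ∀ k, ∀ v ∈ sharp G (sharp G U l) l k, v ∈ U k) (h1 : Φ * Γ = 1)
    (h2 : ∀ j, (0, Φ j) ∈ N (-d j - l)) {y : (Fin 4 → K) × (Fin n → K)}
    (h : ∀ j, ∀ x ∈ N j, x.1 ⬝ᵥ G *ᵥ y.1 - x.2 ⬝ᵥ Γ *ᵥ y.2 ∈ AA (j + k + l)) : y ∈ N k := by
  have h3 : y.1 ∈ sharp G U l k := mem_sharp.2 fun j u hu =>
    AA_eq (h _ _ ((P.left _ _).2 hu)) rfl (by simp)
  have h4 : y.2 ∈ Fr d k := mem_Fr.2 fun i =>
    AA_eq (Submodule.neg_mem _ (h _ _ (h2 i))) (by ring) (by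
      rw [zero_dotProduct, zero_sub, neg_neg]
      exact congrFun ((mulVec_mulVec _ Φ Γ).trans (by rw [h1, one_mulVec])) i)
  obtain ⟨c, hc⟩ := P.onto _ _ h3
  have h5 := Submodule.add_mem _ hc (P.p2 hI bid (Submodule.sub_mem _ h4 (P.mem _ _ hc).2)
    (P.toF fun j x hx => AA_eq (Submodule.sub_mem _ (hI _ _ _ hx _ hc) (h j x hx)) rfl (by
      rw [mulVec_sub, dotProduct_sub]; ring)))
  rwa [Prod.mk_add_mk, add_zero, add_sub_cancel] at h5

theorem Pre.lat (hN : stNOETH) (P : Pre U (sharp G U l) d N M w e ψ) (hU : Lat U)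
    (hW : Lat (sharp G U l)) : Lat N :=
  ⟨P.fam, hN _ _ N (hW.fg.prod (fg_Fr d)) P.fam fun k x hx => P.mem k x hx,
    (hU.prod P.latP).full.mono fun k x hx => by
      have := Submodule.add_mem _ ((P.left k _).2 hx.1) ((P.right k _).2 hx.2)
      rwa [Prod.mk_add_mk, add_zero, zero_add] at this, P.refl⟩

theorem Pre.dim (P : Pre U (sharp G U l) d N M w e ψ) (hN : FG N) :
    ∀ᶠ k in atTop, finrank ℂ (N k) = finrank ℂ (U k) + finrank ℂ (Fr d k) := by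
  filter_upwards [eventually_all.2 fun i => eventually_gt_atTop (d i + 3 * M)] with k hk
  have := hN.finite k
  have h1 : (N k).map (LinearMap.snd ℂ _ _) = Fr d k := le_antisymm (by
    rintro _ ⟨x, hx, rfl⟩
    exact (P.mem _ _ hx).2) fun y hy => by
      rw [pi_eq_sum_univ' y]
      refine Submodule.sum_mem _ fun i _ => ?_
      obtain ⟨z, z1, z2⟩ := P287Z.G.comb_pow M (by have := hk i; omega) (mem_Fr.1 hy i)
      rw [z2, Finset.sum_smul]
      exact Submodule.sum_mem _ fun s _ => ⟨_, P.fam.smul (z1 s) (P.sat i s) (by ring),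
        (mul_smul _ _ _).symm⟩
  have h2 : N k ⊓ LinearMap.ker (LinearMap.snd ℂ _ _) = (U k).map (LinearMap.inl ℂ _ _) := by
    ext ⟨v, c⟩
    refine ⟨fun ⟨a, b⟩ => ?_, ?_⟩
    · obtain rfl : c = 0 := b
      exact ⟨v, (P.left _ _).1 a, rfl⟩
    · rintro ⟨u, hu, h⟩
      exact h ▸ ⟨(P.left _ _).2 hu, rfl⟩
  rw [← finrank_map_add (LinearMap.snd ℂ _ _) (N k), h1, h2,
    finrank_map_inj _ LinearMap.inl_injective, add_comm]

end Vale.Agent.P287Z.N.Sg
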