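import Vale.Agent.P287Z.N.Sk

/-!
Auxiliary statements at the nodes.
-/

namespace Vale.Agent.P287Z.N

open MvPolynomial Module Filter Matrix Vale.Agent.P287 Vale.Agent.P287.Theta Vale.Agent.P287Z.L

/-- the relation between the three entries of the block at a node -/
def stMU : Prop := ∀ (p : Fin 3 → ℂ) (D : ℤ) (A₁ A₂ A₃ : P3), p ≠ 0 → Hg D A₁ → Hg D A₂ →
  Hg D A₃ → eval p A₁ = 0 → eval p A₂ = 0 → eval p A₃ = 0 →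
    (∀ s t : ℂ, s ≠ 0 ∨ t ≠ 0 →
      ∃ k, eval p (pderiv k (C (s ^ 2) * A₁ + C (2 * s * t) * A₂ + C (t ^ 2) * A₃)) ≠ 0) →
    (∃ (e : ℤ) (μ₁ μ₂ μ₃ : P3), Hg e μ₁ ∧ Hg e μ₂ ∧ Hg e μ₃ ∧
      μ₁ * A₁ + 2 * μ₂ * A₂ + μ₃ * A₃ = 0 ∧ eval p (μ₁ * μ₃ - μ₂ ^ 2) ≠ 0) ∧
    ∃ (n : ℤ) (y : P3), Hg n y ∧ eval p y ≠ 0 ∧ ∀ k g, Hg k g → eval p g = 0 →
      ∃ c₁ c₂ c₃, Hg (k + n - D) c₁ ∧ Hg (k + n - D) c₂ ∧ Hg (k + n - D) c₃ ∧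
        y * g = c₁ * A₁ + c₂ * A₂ + c₃ * A₃

/-- the two characters at a node -/
def stCHR : Prop := ∀ (B : Type) [Ring B] [Algebra K B] [Algebra ℂ B] [IsScalarTower ℂ K B]
  (O : ℤ → Submodule ℂ B) (p : Fin 3 → ℂ) (d : ℕ) (I a b : B) (α A₁ A₂ A₃ : P3) (γ : ℂ),
    Fam O → (∀ j k, ∀ x ∈ O j, ∀ y ∈ O k, x * y ∈ O (j + k)) →
    LB O p ![1, I, a, b, I * a, I * b, a * b, I * (a * b)]
      ![0, d, d, d, 2 * d, 2 * d, 2 * d, 3 * d] →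
    Hg (2 * d) α → Hg (2 * d) A₁ → Hg (2 * d) A₂ → Hg (2 * d) A₃ →
    I * I = algebraMap K B (ev α) → a * a = algebraMap K B (ev A₁) →
    a * b + b * a = algebraMap K B (2 * ev A₂) → b * b = algebraMap K B (ev A₃) →
    I * a = -(a * I) → I * b = -(b * I) → γ ^ 2 = eval p α →
    eval p A₁ = 0 → eval p A₂ = 0 → eval p A₃ = 0 →
      ∃ χ : ℤ → B →ₗ[ℂ] ℂ, Chr O p χ ∧ χ d I = γ ∧ χ d a = 0 ∧ χ d b = 0

/-- local units at a node -/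
def stUNT : Prop := ∀ (C : Cx), Ctx C → ∀ (ν : ND C) (k : ℤ) (x : C.B), x ∈ C.O k →
  (∀ s, ν.χ s k x ≠ 0) → ∃ (x' : C.B) (d : ℤ) (y : K), U1 ν.p d y ∧ x' ∈ C.O (d - k) ∧
    x * x' = algebraMap K C.B y

/-- the element `I - s c` -/
noncomputable def ND.J {C : Cx} (ν : ND C) (s : Bool) : C.B :=
  ν.I - algebraMap K C.B (ev (MvPolynomial.C (sg s) * ν.c))

/-- local generators of the kernel of a character at a node -/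
def stLGEN : Prop := ∀ (C : Cx), Ctx C → ∀ (ν : ND C) (s : Bool), ∃ (n : ℤ) (y : K),
  U1 ν.p n y ∧ ∀ k, ∀ x ∈ C.O k, ν.χ s k x = 0 → ∃ x₀ x₁ x₂ : C.B, x₀ ∈ C.O (k + n - ν.d) ∧
    x₁ ∈ C.O (k + n - ν.d) ∧ x₂ ∈ C.O (k + n - ν.d) ∧ y • x = x₀ * ν.J s + x₁ * ν.a + x₂ * ν.b

/-- the relation lattice at the other points -/
def stSPA : Prop := ∀ (C : Cx), Ctx C → ∀ (p q : Fin 3 → ℂ) (χ χ' : ℤ → C.B →ₗ[ℂ] ℂ) (ι : Type)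
  [Fintype ι] (m : ℤ) (g : ι → C.B) (L : OL C), p ≠ 0 → q ≠ 0 → (∀ c : ℂ, q ≠ c • p) →
    Chr C.O p χ → Chr C.O q χ' → GenM χ m g → IsKer L m g → ty χ' L + 1 = Fintype.card ι

/-- the relation lattice of the three local generators -/
def stSPB : Prop := ∀ (C : Cx), Ctx C → ∀ (ν : ND C) (s : Bool) (L : OL C),
  IsKer L ν.d ![ν.J s, ν.a, ν.b] → ty (ν.χ (!s)) L = 0

end Vale.Agent.P287Z.N
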