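import Vale.Agent.P287Z.N.Sk

/-!
Pairs of families `R ≤ F` such that the forms vanishing at a point map `F` to `R`: the codimension
of `R k` in `F k` is eventually constant.
-/

namespace Vale.Agent.P287Z.N

open MvPolynomial Module Filter Matrix Vale.Agent.P287 Vale.Agent.P287.Theta Vale.Agent.P287Z.L

section Lin

variable {V W : Type} [AddCommGroup V] [Module ℂ V] [AddCommGroup W] [Module ℂ W]

lemma ty1_mkQ (B B' : Submodule ℂ W) [FiniteDimensional ℂ B] (hB : B' ≤ B) :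
    finrank ℂ (B.map B'.mkQ) + finrank ℂ B' = finrank ℂ B := by
  have h := finrank_map_add B'.mkQ B
  rwa [Submodule.ker_mkQ, inf_eq_right.2 hB] at h

/-- an injection of quotients -/
lemma ty1_codim_le (φ : V →ₗ[ℂ] W) {A A' : Submodule ℂ V} {B B' : Submodule ℂ W}
    [FiniteDimensional ℂ A] [FiniteDimensional ℂ B] (hA : A' ≤ A) (hB : B' ≤ B)
    (hφ : ∀ x ∈ A, φ x ∈ B) (hinj : ∀ x ∈ A, φ x ∈ B' → x ∈ A') :
    finrank ℂ A + finrank ℂ B' ≤ finrank ℂ B + finrank ℂ A' := by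
  have := Submodule.finiteDimensional_of_le hA
  have h1 := finrank_map_add (B'.mkQ ∘ₗ φ) A
  have h2 := ty1_mkQ B B' hB
  have h3 : finrank ℂ ↥(A ⊓ LinearMap.ker (B'.mkQ ∘ₗ φ)) ≤ finrank ℂ A' :=
    Submodule.finrank_mono fun x hx =>
      hinj x hx.1 ((Submodule.Quotient.mk_eq_zero B').1 hx.2)
  have h4 : finrank ℂ (A.map (B'.mkQ ∘ₗ φ)) ≤ finrank ℂ (B.map B'.mkQ) :=
    Submodule.finrank_mono (by rintro _ ⟨x, hx, rfl⟩; exact ⟨φ x, hφ x hx, rfl⟩)
  omega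

/-- a surjection of quotients -/
lemma ty1_codim_ge (φ : V →ₗ[ℂ] W) {A A' : Submodule ℂ V} {B B' : Submodule ℂ W}
    [FiniteDimensional ℂ A] [FiniteDimensional ℂ B] (hA : A' ≤ A) (hB : B' ≤ B)
    (hφ : ∀ x ∈ A', φ x ∈ B') (hs : B ≤ A.map φ ⊔ B') :
    finrank ℂ B + finrank ℂ A' ≤ finrank ℂ A + finrank ℂ B' := by
  have h1 := finrank_map_add (B'.mkQ ∘ₗ φ) A
  have h2 := ty1_mkQ B B' hB
  have h0 : FiniteDimensional ℂ ↥(A ⊓ LinearMap.ker (B'.mkQ ∘ₗ φ)) :=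
    Submodule.finiteDimensional_of_le inf_le_left
  have h3 : finrank ℂ A' ≤ finrank ℂ ↥(A ⊓ LinearMap.ker (B'.mkQ ∘ₗ φ)) :=
    Submodule.finrank_mono fun x hx =>
      ⟨hA hx, (Submodule.Quotient.mk_eq_zero B').2 (hφ x hx)⟩
  have h4 : finrank ℂ (B.map B'.mkQ) ≤ finrank ℂ (A.map (B'.mkQ ∘ₗ φ)) := by
    refine Submodule.finrank_mono ?_
    rintro _ ⟨w, hw, rfl⟩
    obtain ⟨_, ⟨x, hx, rfl⟩, b, hb, rfl⟩ := Submodule.mem_sup.1 (hs hw)
    refine ⟨x, hx, ?_⟩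
    rw [map_add, show B'.mkQ b = 0 from (Submodule.Quotient.mk_eq_zero B').2 hb, add_zero]
    rfl
  omega

lemma ty1_finrank_equiv (φ : V ≃ₗ[ℂ] W) {A : Submodule ℂ V} {B : Submodule ℂ W}
    (h : ∀ v, v ∈ A ↔ φ v ∈ B) : finrank ℂ A = finrank ℂ B := by
  rw [← finrank_map_inj φ.toLinearMap φ.injective A]
  have : A.map φ.toLinearMap = B := by
    refine le_antisymm ?_ fun w hw => ⟨φ.symm w, (h _).2 (by rwa [φ.apply_symm_apply]),
      φ.apply_symm_apply w⟩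
    rintro _ ⟨v, hv, rfl⟩
    exact (h v).1 hv
  rw [this]

end Lin

/-- a linear form through `p` and not through `q` -/
lemma ty1_sep {p q : Fin 3 → ℂ} (hp : p ≠ 0) (h : ¬ ∃ c : ℂ, q = c • p) :
    ∃ g : P3, Hg 1 g ∧ eval p g = 0 ∧ eval q g ≠ 0 := by
  obtain ⟨i, hi⟩ := Function.ne_iff.1 hp
  have hi' : p i ≠ 0 := hi
  by_contra h1
  refine h ⟨q i / p i, funext fun j => ?_⟩
  have h2 : eval q (X j - C (p j / p i) * X i : P3) = 0 := by
    by_contra h3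
    refine h1 ⟨_, (hg_X j).sub ((hg_X i).C_mul _), ?_, h3⟩
    simp only [map_sub, map_mul, eval_X, eval_C]
    field_simp
    ring
  simp only [map_sub, map_mul, eval_X, eval_C] at h2
  rw [Pi.smul_apply, smul_eq_mul, sub_eq_zero.1 h2]
  ring

/-- a form is a multiple of a power of `l` up to a form vanishing at the point -/
lemma ty1_split {p : Fin 3 → ℂ} {y a : K} (hy : U1 p 1 y) {n : ℤ} (hn : 0 ≤ n)
    (ha : a ∈ AA (1 + n)) : ∃ c ∈ AA n, ∃ g, Hg (1 + n) g ∧ eval p g = 0 ∧ a = y * c + ev g := by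
  obtain ⟨l, hl, rfl, hl0⟩ := hy
  obtain ⟨b, hb, rfl⟩ := ha
  obtain ⟨m, rfl⟩ := Int.eq_ofNat_of_zero_le hn
  have h1 : Hg m (C (eval p b / eval p l ^ (m + 1)) * l ^ m) :=
    ((hl.pow m).cast (mul_one _)).C_mul _
  refine ⟨_, h1.mem, b - l * (C (eval p b / eval p l ^ (m + 1)) * l ^ m),
    Hg.sub hb (hl.mul h1), ?_, ?_⟩
  · simp only [map_sub, map_mul, map_pow, eval_C]
    field_simp
    ring
  · change ev b = _
    rw [map_sub, map_mul ev l]
    ring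

section Fam

variable {V : Type} [AddCommGroup V] [Module ℂ V] [Module K V] [IsScalarTower ℂ K V]

/-- the forms vanishing at `p` map `F` to the subfamily `R` -/
structure TyPr (p : Fin 3 → ℂ) (F R : ℤ → Submodule ℂ V) : Prop where
  fg : FG F
  fam : Fam R
  le : ∀ k, R k ≤ F k
  van : ∀ j g, Hg j g → eval p g = 0 → ∀ k, ∀ v ∈ F k, ev g • v ∈ R (j + k)

variable {p : Fin 3 → ℂ} {F R : ℤ → Submodule ℂ V}

/-- a unit at the point is injective on the quotient in large degrees -/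
lemma TyPr.key (hN : stNOETH) (hV : stVAN) (hp : p ≠ 0) (h : TyPr p F R) {d : ℤ} {y : K}
    (hy : U1 p d y) : ∀ᶠ k in atTop, ∀ x ∈ F k, y • x ∈ R (d + k) → x ∈ R k := by
  have hf : Fam fun k => F k ⊓ (sh R d k).comap ((LinearMap.lsmul K V y).restrictScalars ℂ) :=
    h.fg.fam.inf ((h.fam.sh d).comap (LinearMap.lsmul K V y))
  refine (hV V R _ h.fam (hN V F _ h.fg hf fun k => inf_le_left)
    (fun k v hv => ⟨h.le k hv, h.fam.smul hy.mem hv (add_comm _ _)⟩) ?_).1.mono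
      fun k hk x hx hx' => ?_
  · intro q hq k v hv
    by_cases hc : ∃ c : ℂ, q = c • p
    · obtain ⟨c, rfl⟩ := hc
      exact ⟨d, y, hy.smul_pt fun h0 => hq (by rw [h0, zero_smul]),
        mem_cast (L := R) hv.2 (add_comm _ _)⟩
    · obtain ⟨g, g1, g2, g3⟩ := ty1_sep hp hc
      exact ⟨1, ev g, ⟨g, g1, rfl, g3⟩, h.van 1 g g1 g2 k v hv.1⟩
  · rw [hk]
    exact ⟨hx, mem_cast (L := R) hx' (add_comm _ _)⟩

/-- a linear unit is surjective on the quotient in large degrees -/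
lemma TyPr.onto (h : TyPr p F R) {y : K} (hy : U1 p 1 y) : ∀ᶠ k in atTop,
    F (1 + k) ≤ (F k).map ((LinearMap.lsmul K V y).restrictScalars ℂ) ⊔ R (1 + k) := by
  obtain ⟨n, u, e, hu⟩ := h.fg
  refine (eventually_all.2 fun i => eventually_ge_atTop (e i)).mono fun k hk w hw => ?_
  rw [hu (1 + k)] at hw
  obtain ⟨a, ha, rfl⟩ := mem_Sp.1 hw
  refine Submodule.sum_mem _ fun i _ => ?_
  obtain ⟨c, hc, g, g1, g2, g3⟩ := ty1_split hy (n := k - e i) (by have := hk i; omega)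
    (AA_cast (ha i) (by ring))
  rw [g3, add_smul, mul_smul]
  exact Submodule.add_mem_sup ⟨c • u i, hu.fam.smul hc (hu.mem i) (by ring), rfl⟩
    (mem_cast (h.van _ g g1 g2 _ _ (hu.mem i)) (by ring))

/-- the codimension is eventually constant -/
lemma TyPr.const (hN : stNOETH) (hV : stVAN) (hp : p ≠ 0) (h : TyPr p F R) :
    ∃ t : ℕ, ∀ᶠ k in atTop, finrank ℂ (F k) = finrank ℂ (R k) + t := by
  obtain ⟨i, hy⟩ := exists_coord hp
  have hfin := h.fg.finite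
  obtain ⟨k₀, hk₀⟩ := eventually_atTop.1 ((h.key hN hV hp hy).and (h.onto hy))
  have h0 : finrank ℂ (R k₀) ≤ finrank ℂ (F k₀) := Submodule.finrank_mono (h.le k₀)
  refine ⟨finrank ℂ (F k₀) - finrank ℂ (R k₀), eventually_atTop.2 ⟨k₀, fun k hk => ?_⟩⟩
  induction k, hk using Int.leInduction with
  | base => omega
  | succ k hk ih =>
    have h1 := ty1_codim_le ((LinearMap.lsmul K V (tvec i)).restrictScalars ℂ) (h.le k)
      (h.le (1 + k)) (fun x hx => h.fg.fam _ _ _ hy.mem x hx) (hk₀ k hk).1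
    have h2 := ty1_codim_ge ((LinearMap.lsmul K V (tvec i)).restrictScalars ℂ) (h.le k)
      (h.le (1 + k)) (fun x hx => h.fam _ _ _ hy.mem x hx) (hk₀ k hk).2
    rw [add_comm k 1]
    omega

end Fam

end Vale.Agent.P287Z.N
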