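import Vale.Agent.P287Z.N.Sk

/-!
The multiplicity of a character in the top of a projective lattice is the rank of a matrix.
-/

namespace Vale.Agent.P287Z.N

open MvPolynomial Module Filter Matrix Vale.Agent.P287 Vale.Agent.P287.Theta Vale.Agent.P287Z.L

set_option linter.unusedSectionVars false

namespace Ty2

section Gen

variable {B : Type} [Ring B] [Algebra K B] [Algebra ℂ B] [IsScalarTower ℂ K B]
  {O : ℤ → Submodule ℂ B} {p : Fin 3 → ℂ} {χ : ℤ → B →ₗ[ℂ] ℂ}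

lemma cmul (h : Chr O p χ) {j k n : ℤ} {x y : B} (hx : x ∈ O j) (hy : y ∈ O k) (e : j + k = n) :
    χ n (x * y) = χ j x * χ k y := e ▸ h.mul j k x hx y hy

lemma csmul (h : Chr O p χ) {j k n : ℤ} {g : P3} {x : B} (hg : Hg j g) (hx : x ∈ O k)
    (e : j + k = n) : χ n (ev g • x) = eval p g * χ k x := e ▸ h.smul j k g hg x hx

lemma form {p : Fin 3 → ℂ} (hp : p ≠ 0) {j : ℤ} (hj : 0 ≤ j) : ∃ g, Hg j g ∧ eval p g ≠ 0 := by
  obtain ⟨i, hi⟩ := exists_coord hp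
  obtain ⟨g, h1, -, h2⟩ := (hi.pow j.toNat).cast (j := j) (by omega)
  exact ⟨g, h1, h2⟩

lemma rank_add {V : Type} [AddCommGroup V] [Module ℂ V] (A : Submodule ℂ V)
    [FiniteDimensional ℂ A] {n : ℕ} (T : V →ₗ[ℂ] (Fin n → ℂ)) (E : Matrix (Fin n) (Fin n) ℂ)
    {c : ℂ} (hc : c ≠ 0) (h1 : ∀ x ∈ A, c • T x = E *ᵥ T x)
    (h2 : ∀ s, ∃ x ∈ A, ∃ a : ℂ, a ≠ 0 ∧ T x = a • E.col s) :
    finrank ℂ A = finrank ℂ ↥(A ⊓ LinearMap.ker T) + E.rank := by
  have h : A.map T = LinearMap.range E.mulVecLin := by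
    refine le_antisymm ?_ ?_
    · rintro _ ⟨x, hx, rfl⟩
      refine ⟨c⁻¹ • T x, ?_⟩
      rw [map_smul, Matrix.mulVecLin_apply, ← h1 x hx, smul_smul, inv_mul_cancel₀ hc, one_smul]
    · rw [Matrix.range_mulVecLin, Submodule.span_le]
      rintro _ ⟨s, rfl⟩
      obtain ⟨x, hx, a, ha, e⟩ := h2 s
      exact ⟨a⁻¹ • x, A.smul_mem _ hx, by
        rw [map_smul, e, smul_smul, inv_mul_cancel₀ ha, one_smul]⟩
  rw [← finrank_map_add T A, h, add_comm]
  rfl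

lemma rank_tr {n : ℕ} (E : Matrix (Fin n) (Fin n) ℂ) {c : ℂ} (hc : c ≠ 0) (h : c • E = E * E) :
    c * E.rank = E.trace := by
  have h1 : LinearMap.IsProj (LinearMap.range E.mulVecLin) (c⁻¹ • E.mulVecLin) := by
    refine ⟨fun x => ⟨c⁻¹ • x, by rw [map_smul]; rfl⟩, ?_⟩
    rintro _ ⟨x, rfl⟩
    rw [LinearMap.smul_apply, Matrix.mulVecLin_apply, Matrix.mulVecLin_apply,
      Matrix.mulVec_mulVec, ← h, Matrix.smul_mulVec, smul_smul, inv_mul_cancel₀ hc, one_smul]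
  have h2 := h1.trace
  rw [map_smul, ← Matrix.toLin'_apply', Matrix.trace_toLin'_eq, smul_eq_mul] at h2
  rw [Matrix.rank, ← Matrix.toLin'_apply', ← h2, ← mul_assoc, mul_inv_cancel₀ hc, one_mul]

/-- the data of projectivity -/
structure PD (Y : OLg B O) (p : Fin 3 → ℂ) where
  n : ℕ
  φ : Fin n → Y.V →ₗ[B] B
  v : Fin n → Y.V
  h : Fin n → ℤ
  d : ℤ
  y : P3
  hy : Hg d y
  y0 : eval p y ≠ 0
  hv : ∀ r, v r ∈ Y.F (h r)
  hφ : ∀ r j, ∀ w ∈ Y.F j, φ r w ∈ O (j + (d - h r))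
  sum : ∀ x, ∑ r, φ r x • v r = ev y • x

end Gen

variable {C : Cx}

lemma pd {Y : OL C} {p : Fin 3 → ℂ} (h : PJ Y p) : Nonempty (PD Y p) := by
  obtain ⟨n, φ, v, h, d, _, ⟨y, h1, rfl, h2⟩, h3, h4, h5⟩ := h
  exact ⟨⟨n, φ, v, h, d, y, h1, h2, h3, h4, h5⟩⟩

lemma one_mem (C : Cx) : (1 : C.B) ∈ C.O 0 := self_mem_Sp C.o oz 0

variable {Y : OL C} {p : Fin 3 → ℂ} {χ : ℤ → C.B →ₗ[ℂ] ℂ} (D : PD Y p)

/-- the matrix of the projector at the point -/
noncomputable def PD.E (χ : ℤ → C.B →ₗ[ℂ] ℂ) : Matrix (Fin D.n) (Fin D.n) ℂ :=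
  Matrix.of fun r s => χ (D.h s + (D.d - D.h r)) (D.φ r (D.v s))

/-- the values of the coordinates of a vector -/
noncomputable def PD.T (χ : ℤ → C.B →ₗ[ℂ] ℂ) (k : ℤ) : Y.V →ₗ[ℂ] (Fin D.n → ℂ) :=
  LinearMap.pi fun r => χ (k + (D.d - D.h r)) ∘ₗ (D.φ r).restrictScalars ℂ

/-- the values of a homomorphism on the generators -/
noncomputable def PD.S (χ : ℤ → C.B →ₗ[ℂ] ℂ) (k : ℤ) : (Y.V →ₗ[C.B] C.B) →ₗ[ℂ] (Fin D.n → ℂ) where
  toFun ψ s := χ (D.h s + k) (ψ (D.v s))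
  map_add' _ _ := _root_.funext fun _ => map_add _ _ _
  map_smul' c ψ := _root_.funext fun s => (χ (D.h s + k)).map_smul c (ψ (D.v s))

lemma T_apply (k : ℤ) (x : Y.V) (r : Fin D.n) :
    D.T χ k x r = χ (k + (D.d - D.h r)) (D.φ r x) := rfl

lemma key (hχ : Chr C.O p χ) {j k : ℤ} {ψ : Y.V →ₗ[C.B] C.B} {x : Y.V} (hψ : ψ ∈ HO Y k)
    (hx : x ∈ Y.F j) : eval p D.y * χ (j + k) (ψ x) = ∑ s, D.T χ j x s * D.S χ k ψ s := by
  have h := congrArg (fun w => χ (D.d + (j + k)) (ψ w)) (D.sum x)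
  simp only [map_sum, map_smul, LinearMap.map_smul_of_tower, smul_eq_mul] at h
  rw [csmul hχ D.hy (hψ j x hx) rfl] at h
  rw [← h]
  exact Finset.sum_congr rfl fun s _ =>
    cmul hχ (D.hφ s j x hx) (hψ _ _ (D.hv s)) (by omega)

lemma T_smul (hχ : Chr C.O p χ) {j k n : ℤ} {g : P3} {x : Y.V} (hg : Hg j g) (hx : x ∈ Y.F k)
    (e : j + k = n) : D.T χ n (ev g • x) = eval p g • D.T χ k x := by
  funext r
  rw [T_apply, LinearMap.map_smul_of_tower, csmul hχ hg (D.hφ r k x hx) (by omega)]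
  rfl

lemma T_E (hχ : Chr C.O p χ) {j : ℤ} {x : Y.V} (hx : x ∈ Y.F j) :
    eval p D.y • D.T χ j x = D.E χ *ᵥ D.T χ j x :=
  _root_.funext fun r => (key D hχ (D.hφ r) hx).trans (Finset.sum_congr rfl fun _ _ => mul_comm _ _)

lemma EE (hχ : Chr C.O p χ) : eval p D.y • D.E χ = D.E χ * D.E χ := by
  ext r s
  exact congrFun (T_E D hχ (D.hv s)) r

lemma fam_rad (χ : ℤ → C.B →ₗ[ℂ] ℂ) (Y : OL C) : Fam (rad χ Y) := by
  intro d k a ha x hx
  induction hx using Submodule.span_induction with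
  | mem x hx =>
    obtain ⟨i, j, b, v, e, hb, h0, hv, rfl⟩ := hx
    exact Submodule.subset_span ⟨d + i, j, b, a • v, by omega, hb, h0,
      Y.lat.fam.smul ha hv rfl, smul_comm _ _ _⟩
  | zero => rw [smul_zero]; exact Submodule.zero_mem _
  | add x y _ _ hx hy => rw [smul_add]; exact Submodule.add_mem _ hx hy
  | smul c x _ hx => rw [smul_comm]; exact Submodule.smul_mem _ c hx

lemma rad_le (hχ : Chr C.O p χ) (k : ℤ) : rad χ Y k ≤ Y.F k ⊓ LinearMap.ker (D.T χ k) := by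
  rw [rad, Submodule.span_le]
  rintro _ ⟨i, j, b, v, rfl, hb, h0, hv, rfl⟩
  refine ⟨Y.stab j i b hb v hv, _root_.funext fun r => ?_⟩
  rw [T_apply, map_smul, smul_eq_mul, cmul hχ hb (D.hφ r i v hv) (by ring), h0, zero_mul]
  rfl

lemma smul_rad (hC : Ctx C) (hχ : Chr C.O p χ) {k : ℤ} {x : Y.V} (hx : x ∈ Y.F k)
    (h0 : D.T χ k x = 0) {g : P3} (hg : Hg D.d g) : ev g • x ∈ rad χ Y (D.d + k) := by
  have h1 : ev D.y • x ∈ rad χ Y (D.d + k) := by
    rw [← D.sum]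
    exact Submodule.sum_mem _ fun r _ => Submodule.subset_span
      ⟨D.h r, k + (D.d - D.h r), _, _, by ring, D.hφ r k x hx, congrFun h0 r, D.hv r, rfl⟩
  have h2 : Hg D.d (eval p D.y • g - eval p g • D.y) := (hg.smul _).sub (D.hy.smul _)
  have h3 : ev (eval p D.y • g - eval p g • D.y) • x ∈ rad χ Y (D.d + k) := by
    refine Submodule.subset_span ⟨k, D.d, ev (eval p D.y • g - eval p g • D.y) • 1, x, rfl,
      hC.tab.lat.fam.smul h2.mem (one_mem C) (add_zero _), ?_, hx, (smul_one_smul _ _ _).symm⟩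
    rw [csmul hχ h2 (one_mem C) (add_zero _), map_sub, smul_eval, smul_eval, mul_comm (eval p g),
      sub_self, zero_mul]
  have h4 := Submodule.smul_mem _ (eval p D.y)⁻¹
    (Submodule.add_mem _ h3 (Submodule.smul_mem _ (eval p g) h1))
  rwa [map_sub, map_smul, map_smul, sub_smul, smul_assoc, smul_assoc, sub_add_cancel, smul_smul,
    inv_mul_cancel₀ D.y0, one_smul] at h4

lemma d_nonneg : 0 ≤ D.d := D.hy.nonneg fun h => D.y0 (by rw [h, map_zero])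

/-- the multiplicity is the rank of the matrix -/
lemma ty_eq (hN : stNOETH) (hV : stVAN) (hC : Ctx C) (hp : p ≠ 0) (hχ : Chr C.O p χ) :
    ty χ Y = (D.E χ).rank := by
  have hf : Fam fun k => Y.F k ⊓ LinearMap.ker (D.T χ k) := by
    rintro d k _ ⟨g, hg, rfl⟩ x ⟨hx, h0⟩
    refine ⟨Y.lat.fam d k _ (Hg.mem hg) x hx, ?_⟩
    have := T_smul D hχ (g := g) hg hx rfl
    rw [show D.T χ k x = 0 from h0, smul_zero] at this
    exact this
  have h1 := (hV Y.V (rad χ Y) _ (fam_rad χ Y) (hN Y.V _ _ Y.lat.fg hf fun _ => inf_le_left)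
    (rad_le D hχ) fun q hq k x hx => by
      obtain ⟨g, hg, g0⟩ := form hq (d_nonneg D)
      exact ⟨D.d, ev g, ⟨g, hg, rfl, g0⟩, smul_rad D hC hχ hx.1 hx.2 hg⟩).1
  have h2 : Ty χ Y (D.E χ).rank := by
    filter_upwards [h1, eventually_all.2 fun s => eventually_ge_atTop (D.h s)] with k hk hs
    have := Y.lat.fg.finite k
    rw [hk]
    refine rank_add _ _ _ D.y0 (fun x hx => T_E D hχ hx) fun s => ?_
    obtain ⟨g, hg, g0⟩ := form hp (sub_nonneg.2 (hs s))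
    exact ⟨ev g • D.v s, Y.lat.fam.smul hg.mem (D.hv s) (by ring), _, g0,
      T_smul D hχ hg (D.hv s) (by ring)⟩
  have h3 : Ty χ Y (ty χ Y) := Classical.epsilon_spec ⟨_, h2⟩
  obtain ⟨k, k1, k2⟩ := (h2.and h3).exists
  omega

lemma fin_HO (hC : Ctx C) (Y : OL C) (k : ℤ) : FiniteDimensional ℂ (HO Y k) := by
  obtain ⟨n, u, e, hu⟩ := Y.lat.fg
  have := fun i => hC.tab.lat.fg.finite (e i + k)
  let f : HO Y k →ₗ[ℂ] ∀ i, C.O (e i + k) :=
    { toFun := fun ψ i => ⟨ψ.1 (u i), ψ.2 _ _ (hu.mem i)⟩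
      map_add' := fun _ _ => rfl
      map_smul' := fun _ _ => rfl }
  refine FiniteDimensional.of_injective f fun ψ ψ' h => Subtype.ext ?_
  refine LinearMap.restrictScalars_injective K (LinearMap.ext_on_range (hu.span Y.lat.full) fun i => ?_)
  exact congrArg Subtype.val (congrFun h i)

end Ty2

open Ty2 in
theorem ty2' (hN : stNOETH) (hV : stVAN) : stTY2 := by
  intro C hC p χ Y hp hχ hY
  obtain ⟨D⟩ := pd hY
  rw [ty_eq D hN hV hC hp hχ]
  refine ⟨fun h => ?_, ?_⟩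
  · by_contra hc
    have : D.E χ = 0 := by
      ext r s
      by_contra h0
      exact hc ⟨_, _, D.φ r, D.v s, D.hφ r, D.hv s, h0⟩
    rw [this, Matrix.rank_zero] at h
    omega
  · filter_upwards [eventually_all.2 fun s => eventually_ge_atTop (D.d - D.h s)] with k hs
    have := fin_HO hC Y k
    have h1 : HM χ Y k = HO Y k ⊓ LinearMap.ker (D.S χ k) := by
      refine le_antisymm (fun ψ h => ⟨fun j v hv => (h j v hv).1,
        _root_.funext fun s => (h _ _ (D.hv s)).2⟩) fun ψ h j v hv => ⟨h.1 j v hv, ?_⟩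
      have := key D hχ h.1 hv
      rw [show D.S χ k ψ = 0 from h.2] at this
      simpa [D.y0] using this
    rw [h1, ← Matrix.rank_transpose]
    refine rank_add _ _ _ D.y0 (fun ψ hψ => _root_.funext fun t => key D hχ hψ (D.hv t))
      fun r => ?_
    obtain ⟨g, hg, g0⟩ := form hp (sub_nonneg.2 (hs r))
    refine ⟨ev g • D.φ r, fun j v hv => hC.tab.lat.fam.smul hg.mem (D.hφ r j v hv) (by ring), _,
      g0, _root_.funext fun s => ?_⟩
    exact csmul hχ hg (D.hφ r _ _ (D.hv s)) (by ring)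

theorem ty2 (hN : stNOETH) (hV : stVAN) (_ : stTY1) : stTY2 := ty2' hN hV

end Vale.Agent.P287Z.N
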